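import Vale.Agent.P322.Eng

/-! Auxiliary lemmas for the enclosures of power series. -/

namespace Vale.Agent.P322.Eng.BX

open Finset

/-- the real denominator -/
def den (a b c d k : ℕ) : ℝ := ((a : ℝ) * k + b) * ((c : ℝ) * k + d)

theorem cden_cast (a b c d k : ℕ) : (cden a b c d k : ℝ) = den a b c d k := by
  simp [cden, den]

theorem den_mono (a b c d : ℕ) {k l : ℕ} (h : k ≤ l) : den a b c d k ≤ den a b c d l := by
  have : (k : ℝ) ≤ l := by exact_mod_cast h
  unfold den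
  gcongr

theorem one_le_den {a b c d : ℕ} (h : 1 ≤ b * d) (k : ℕ) : 1 ≤ den a b c d k := by
  refine le_trans ?_ (den_mono a b c d (Nat.zero_le k))
  have : (1 : ℝ) ≤ (b * d : ℕ) := by exact_mod_cast h
  simpa [den] using this

theorem den_pos {a b c d : ℕ} (h : 1 ≤ b * d) (k : ℕ) : 0 < den a b c d k :=
  lt_of_lt_of_le one_pos (one_le_den h k)

theorem summable_lt {a b c d : ℕ} (h : 1 ≤ b * d) {t : ℝ} (h0 : 0 ≤ t) (h1 : t < 1) :
    Summable fun k : ℕ => t ^ k / den a b c d k := by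
  refine Summable.of_nonneg_of_le (fun k => div_nonneg (pow_nonneg h0 k) (den_pos h k).le)
    (fun k => ?_) (summable_geometric_of_lt_one h0 h1)
  exact div_le_self (pow_nonneg h0 k) (one_le_den h k)

theorem ell_step (k : ℕ) : 1 / den 2 1 2 2 k ≤ 1 / (4 * (k : ℝ) + 1) - 1 / (4 * (k + 1 : ℕ) + 1) := by
  have hk : (0 : ℝ) ≤ k := Nat.cast_nonneg k
  unfold den
  push_cast
  rw [div_sub_div _ _ (by positivity) (by positivity), div_le_div_iff₀ (by positivity)
    (by positivity)]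
  nlinarith

theorem ell_part (n m : ℕ) : ∑ k ∈ range m, 1 / den 2 1 2 2 (k + n) ≤ 1 / (4 * (n : ℝ) + 1) := by
  have : ∑ k ∈ range m, 1 / den 2 1 2 2 (k + n) ≤
      1 / (4 * (n : ℝ) + 1) - 1 / (4 * ((m + n : ℕ) : ℝ) + 1) := by
    induction m with
    | zero => simp
    | succ m ih =>
      rw [sum_range_succ]
      have := ell_step (m + n)
      rw [show m + 1 + n = m + n + 1 by ring]
      linarith
  have h2 : 0 ≤ 1 / (4 * ((m + n : ℕ) : ℝ) + 1) := by positivity
  linarith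

theorem ell_pos (k : ℕ) : 0 < den 2 1 2 2 k := den_pos (by norm_num) k

theorem ell_sum1 (n : ℕ) : Summable fun k : ℕ => 1 / den 2 1 2 2 (k + n) :=
  summable_of_sum_range_le (fun k => (one_div_pos.2 (ell_pos _)).le) (ell_part n)

theorem summable_ell {t : ℝ} (h0 : 0 ≤ t) (h1 : t ≤ 1) :
    Summable fun k : ℕ => t ^ k / den 2 1 2 2 k := by
  refine Summable.of_nonneg_of_le (fun k => div_nonneg (pow_nonneg h0 k) (ell_pos k).le)
    (fun k => ?_) (ell_sum1 0)
  exact div_le_div_of_nonneg_right (pow_le_one₀ h0 h1) (ell_pos k).le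

theorem serF_eq (a b c d : ℕ) (x : ℝ) :
    serF a b c d x = ∑' k : ℕ, (max x 0) ^ k / den a b c d k := rfl

theorem serF_eq' (a b c d : ℕ) {x : ℝ} (hx : 0 ≤ x) :
    serF a b c d x = ∑' k : ℕ, x ^ k / den a b c d k := by
  rw [serF_eq, max_eq_left hx]

theorem mono_of {a b c d : ℕ} (h : 1 ≤ b * d) {x y : ℝ} (hxy : x ≤ y)
    (hy : Summable fun k : ℕ => (max y 0) ^ k / den a b c d k) :
    serF a b c d x ≤ serF a b c d y := by
  have hle : ∀ k : ℕ, (max x 0) ^ k / den a b c d k ≤ (max y 0) ^ k / den a b c d k := fun k =>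
    div_le_div_of_nonneg_right (pow_le_pow_left₀ (le_max_right _ _) (max_le_max_right 0 hxy) k)
      (den_pos h k).le
  exact Summable.tsum_le_tsum hle (Summable.of_nonneg_of_le
    (fun k => div_nonneg (pow_nonneg (le_max_right _ _) k) (den_pos h k).le) hle hy) hy

theorem convexOn_tsum {s : Set ℝ} (hs : Convex ℝ s) {f : ℕ → ℝ → ℝ}
    (hf : ∀ k, ConvexOn ℝ s (f k)) (hsum : ∀ x ∈ s, Summable fun k => f k x) :
    ConvexOn ℝ s fun x => ∑' k, f k x := by
  refine ⟨hs, fun x hx y hy p q hp hq hpq => ?_⟩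
  have h1 := (hsum x hx).mul_left p
  have h2 := (hsum y hy).mul_left q
  simp only [smul_eq_mul]
  rw [← tsum_mul_left, ← tsum_mul_left, ← h1.tsum_add h2]
  exact Summable.tsum_le_tsum (fun k => (hf k).2 hx hy hp hq hpq)
    (hsum _ (hs hx hy hp hq hpq)) (h1.add h2)

theorem convex_term {s : Set ℝ} (hs : Convex ℝ s) (k : ℕ) {e : ℝ} (he : 0 < e) :
    ConvexOn ℝ s fun x : ℝ => (max x 0) ^ k / e := by
  have h1 : ConvexOn ℝ s fun x : ℝ => max x 0 := (convexOn_id hs).sup (convexOn_const 0 hs)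
  have h2 := (h1.pow (fun x _ => le_max_right x 0) k).smul (inv_pos.2 he).le
  refine h2.congr fun x _ => ?_
  simp [div_eq_inv_mul]

theorem convex_sq {a b c d : ℕ} (h : 1 ≤ b * d) {s : Set ℝ} (hs : Convex ℝ s)
    (hsum : ∀ x ∈ s, Summable fun k : ℕ => ((max x 0) ^ 2) ^ k / den a b c d k) :
    ConvexOn ℝ s fun x : ℝ => serF a b c d ((max x 0) ^ 2) := by
  have := convexOn_tsum hs (f := fun k x => (max x 0) ^ (2 * k) / den a b c d k)
    (fun k => convex_term hs _ (den_pos h k)) (fun x hx => by simpa only [pow_mul] using hsum x hx)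
  convert this using 2 with x
  rw [serF_eq' _ _ _ _ (sq_nonneg _)]
  simp only [pow_mul]

theorem div_le (x q : ℕ) : ((x / q : ℕ) : ℝ) ≤ (x : ℝ) / q := Nat.cast_div_le

theorem le_div (x : ℕ) {q : ℕ} (hq : 0 < q) : (x : ℝ) / q ≤ ((x / q : ℕ) : ℝ) + 1 := by
  have h := Nat.lt_div_mul_add (a := x) hq
  have hq' : (0 : ℝ) < q := by exact_mod_cast hq
  have h' : (x : ℝ) < ((x / q : ℕ) : ℝ) * q + q := by exact_mod_cast h
  rw [div_le_iff₀ hq']
  linarith

theorem shr_le (x k : ℕ) : ((Nat.shiftRight x k : ℕ) : ℝ) ≤ (x : ℝ) / 2 ^ k := by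
  rw [Nat.shiftRight_eq, Nat.shiftRight_eq_div_pow]
  simpa using div_le x (2 ^ k)

theorem le_shr (x k : ℕ) : (x : ℝ) / 2 ^ k ≤ ((Nat.shiftRight x k : ℕ) : ℝ) + 1 := by
  rw [Nat.shiftRight_eq, Nat.shiftRight_eq_div_pow]
  simpa using le_div x (q := 2 ^ k) (by positivity)

theorem cfx_le (a b c d k : ℕ) : (cfx a b c d k : ℝ) ≤ 2 ^ 40 / den a b c d k := by
  have := div_le 1099511627776 (cden a b c d k)
  rw [cden_cast] at this
  refine le_trans this (le_of_eq ?_)
  norm_num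

theorem cden_pos {a b c d : ℕ} (h : 1 ≤ b * d) (k : ℕ) : 0 < cden a b c d k := by
  have := den_pos (a := a) (c := c) h k
  rw [← cden_cast] at this
  exact_mod_cast this

theorem le_cfx {a b c d : ℕ} (h : 1 ≤ b * d) (k : ℕ) :
    2 ^ 40 / den a b c d k ≤ (cfx a b c d k : ℝ) + 1 := by
  have := le_div 1099511627776 (cden_pos (a := a) (c := c) h k)
  rw [cden_cast] at this
  refine le_trans (le_of_eq ?_) this
  norm_num

theorem horn_succ (a b c d o x n acc : ℕ) : horn a b c d o x (n + 1) acc =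
    horn a b c d o x n (Nat.shiftRight (acc * x) 40 + (cfx a b c d n + o)) := rfl

theorem horn_le (a b c d x n acc : ℕ) : (horn a b c d 0 x n acc : ℝ) ≤
    (∑ k ∈ range n, ((x : ℝ) / 2 ^ 40) ^ k / den a b c d k) * 2 ^ 40 +
      acc * ((x : ℝ) / 2 ^ 40) ^ n := by
  induction n generalizing acc with
  | zero => simp [horn]
  | succ n ih =>
    rw [horn_succ, sum_range_succ]
    refine (ih _).trans ?_
    have h1 := shr_le (acc * x) 40
    have h2 := cfx_le a b c d n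
    have hp : (0 : ℝ) ≤ ((x : ℝ) / 2 ^ 40) ^ n := by positivity
    have h3 : ((Nat.shiftRight (acc * x) 40 + (cfx a b c d n + 0) : ℕ) : ℝ) ≤
        acc * ((x : ℝ) / 2 ^ 40) + 2 ^ 40 / den a b c d n := by
      push_cast at h1 ⊢
      rw [← mul_div_assoc]; linarith
    have h4 := mul_le_mul_of_nonneg_right h3 hp
    rw [pow_succ _ n]
    have e : ((x : ℝ) / 2 ^ 40) ^ n / den a b c d n * 2 ^ 40 =
        2 ^ 40 / den a b c d n * ((x : ℝ) / 2 ^ 40) ^ n := by ring
    rw [add_mul _ _ ((2 : ℝ) ^ 40), e]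
    nlinarith

theorem le_horn {a b c d : ℕ} (h : 1 ≤ b * d) (x n acc : ℕ) :
    (∑ k ∈ range n, ((x : ℝ) / 2 ^ 40) ^ k / den a b c d k) * 2 ^ 40 +
      acc * ((x : ℝ) / 2 ^ 40) ^ n ≤ (horn a b c d 2 x n acc : ℝ) := by
  induction n generalizing acc with
  | zero => simp [horn]
  | succ n ih =>
    rw [horn_succ, sum_range_succ]
    refine le_trans ?_ (ih _)
    have h1 := le_shr (acc * x) 40
    have h2 := le_cfx (a := a) (c := c) h n
    have hp : (0 : ℝ) ≤ ((x : ℝ) / 2 ^ 40) ^ n := by positivity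
    have h3 : acc * ((x : ℝ) / 2 ^ 40) + 2 ^ 40 / den a b c d n ≤
        ((Nat.shiftRight (acc * x) 40 + (cfx a b c d n + 2) : ℕ) : ℝ) := by
      push_cast at h1 ⊢
      rw [← mul_div_assoc]; linarith
    have h4 := mul_le_mul_of_nonneg_right h3 hp
    rw [pow_succ _ n]
    have e : ((x : ℝ) / 2 ^ 40) ^ n / den a b c d n * 2 ^ 40 =
        2 ^ 40 / den a b c d n * ((x : ℝ) / 2 ^ 40) ^ n := by ring
    rw [add_mul _ _ ((2 : ℝ) ^ 40), e]
    nlinarith

/-- lower bound by a finite sum -/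
theorem horn_le_ser {a b c d : ℕ} (h : 1 ≤ b * d) (x n : ℕ)
    (hs : Summable fun k : ℕ => ((x : ℝ) / 2 ^ 40) ^ k / den a b c d k) :
    (horn a b c d 0 x n 0 : ℝ) ≤ serF a b c d ((x : ℝ) / 2 ^ 40) * 2 ^ 40 := by
  have h1 := horn_le a b c d x n 0
  rw [serF_eq' _ _ _ _ (by positivity)]
  have h2 := hs.sum_le_tsum (range n) fun k _ => div_nonneg (by positivity) (den_pos h k).le
  simp only [Nat.cast_zero, zero_mul, add_zero] at h1
  exact h1.trans (mul_le_mul_of_nonneg_right h2 (by positivity))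

/-- upper bound from a bound on the tail -/
theorem ser_le_horn {a b c d : ℕ} (h : 1 ≤ b * d) (x n acc : ℕ)
    (hs : Summable fun k : ℕ => ((x : ℝ) / 2 ^ 40) ^ k / den a b c d k)
    (ht : ∀ m, (∑ k ∈ range m, ((x : ℝ) / 2 ^ 40) ^ k / den a b c d (k + n)) * 2 ^ 40 ≤ (acc : ℝ)) :
    serF a b c d ((x : ℝ) / 2 ^ 40) * 2 ^ 40 ≤ (horn a b c d 2 x n acc : ℝ) := by
  refine le_trans ?_ (le_horn h x n acc)
  rw [serF_eq' _ _ _ _ (by positivity), ← hs.sum_add_tsum_nat_add n, add_mul]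
  have hp : (0 : ℝ) ≤ ((x : ℝ) / 2 ^ 40) ^ n := by positivity
  have h1 : ∑' k : ℕ, ((x : ℝ) / 2 ^ 40) ^ (k + n) / den a b c d (k + n) ≤
      acc * ((x : ℝ) / 2 ^ 40) ^ n / 2 ^ 40 := by
    refine Real.tsum_le_of_sum_range_le
      (fun k => div_nonneg (by positivity) (den_pos h _).le) fun m => ?_
    rw [le_div_iff₀ (by positivity)]
    refine le_trans (le_of_eq ?_) (mul_le_mul_of_nonneg_right (ht m) hp)
    rw [mul_right_comm _ ((2 : ℝ) ^ 40), sum_mul _ _ (((x : ℝ) / 2 ^ 40) ^ n)]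
    congr 1
    refine sum_congr rfl fun k _ => ?_
    rw [pow_add]; ring
  rw [le_div_iff₀ (by positivity)] at h1
  linarith

theorem tail_geo {a b c d : ℕ} (h : 1 ≤ b * d) {x : ℕ} (hx : x < 2 ^ 40) (n m : ℕ) :
    (∑ k ∈ range m, ((x : ℝ) / 2 ^ 40) ^ k / den a b c d (k + n)) * 2 ^ 40 ≤
      (tailG a b c d x n : ℝ) := by
  have hx' : (x : ℝ) < 2 ^ 40 := by exact_mod_cast hx
  have h0 : (0 : ℝ) ≤ (x : ℝ) / 2 ^ 40 := by positivity
  have h1 : (x : ℝ) / 2 ^ 40 < 1 := (div_lt_one (by positivity)).2 hx'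
  have hd := den_pos (a := a) (c := c) h n
  have e1 : ∑ k ∈ range m, ((x : ℝ) / 2 ^ 40) ^ k / den a b c d (k + n) ≤
      (1 - (x : ℝ) / 2 ^ 40)⁻¹ / den a b c d n := by
    calc _ ≤ ∑ k ∈ range m, ((x : ℝ) / 2 ^ 40) ^ k / den a b c d n :=
          sum_le_sum fun k _ => div_le_div_of_nonneg_left (by positivity) hd
            (den_mono a b c d (Nat.le_add_left n k))
      _ ≤ _ := by
          rw [← sum_div]
          refine div_le_div_of_nonneg_right ?_ hd.le
          rw [← tsum_geometric_of_lt_one h0 h1]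
          exact (summable_geometric_of_lt_one h0 h1).sum_le_tsum _ fun k _ => by positivity
  have hq : 0 < cden a b c d n * (1099511627776 - x) :=
    Nat.mul_pos (cden_pos h n) (by norm_num at hx; omega)
  have e2 := le_div 1208925819614629174706176 hq
  have e3 : ((cden a b c d n * (1099511627776 - x) : ℕ) : ℝ) = den a b c d n * (2 ^ 40 - x) := by
    rw [Nat.cast_mul, cden_cast, Nat.cast_sub (by norm_num at hx; omega)]
    norm_num
  rw [e3] at e2
  have e4 : (tailG a b c d x n : ℝ) =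
      ((1208925819614629174706176 / (cden a b c d n * (1099511627776 - x)) : ℕ) : ℝ) + 1 := by
    show (((1208925819614629174706176 / (cden a b c d n * (1099511627776 - x)) + 1 : ℕ)) : ℝ) = _
    rw [Nat.cast_add, Nat.cast_one]
  rw [e4]
  refine le_trans (mul_le_mul_of_nonneg_right e1 (by positivity)) (le_trans (le_of_eq ?_) e2)
  have : (2 : ℝ) ^ 40 - x ≠ 0 := by linarith
  have e5 : (1 - (x : ℝ) / 2 ^ 40) = (2 ^ 40 - x) / 2 ^ 40 := by field_simp
  rw [e5]
  field_simp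
  norm_num

theorem tail_ell {x : ℕ} (hx : x ≤ 2 ^ 40) (n m : ℕ) :
    (∑ k ∈ range m, ((x : ℝ) / 2 ^ 40) ^ k / den 2 1 2 2 (k + n)) * 2 ^ 40 ≤
      ((1099511627776 / (4 * n + 1) + 1 : ℕ) : ℝ) := by
  have hx' : (x : ℝ) ≤ 2 ^ 40 := by exact_mod_cast hx
  have h0 : (0 : ℝ) ≤ (x : ℝ) / 2 ^ 40 := by positivity
  have h1 : (x : ℝ) / 2 ^ 40 ≤ 1 := (div_le_one (by positivity)).2 hx'
  have e1 : ∑ k ∈ range m, ((x : ℝ) / 2 ^ 40) ^ k / den 2 1 2 2 (k + n) ≤ 1 / (4 * (n : ℝ) + 1) :=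
    le_trans (sum_le_sum fun k _ =>
      div_le_div_of_nonneg_right (pow_le_one₀ h0 h1) (ell_pos _).le) (ell_part n m)
  have e2 := le_div 1099511627776 (q := 4 * n + 1) (by omega)
  rw [Nat.cast_add _ 1, Nat.cast_one]
  refine le_trans (mul_le_mul_of_nonneg_right e1 (by positivity)) (le_trans (le_of_eq ?_) e2)
  push_cast
  field_simp
  norm_num

/-- the logarithm as a power series -/
theorem log_ser {n m : ℝ} (hm : 0 < m) (h : m ≤ n) :
    Real.log (n / m) = 2 * ((n - m) / (n + m)) * serF 2 1 0 1 (((n - m) / (n + m)) ^ 2) := by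
  have hs : 0 < n + m := by linarith
  set y := (n - m) / (n + m) with hy
  have h0 : 0 ≤ y := div_nonneg (by linarith) hs.le
  have h1 : y < 1 := (div_lt_one hs).2 (by linarith)
  have h2 := Real.hasSum_log_sub_log_of_abs_lt_one (x := y) (by rwa [abs_of_nonneg h0])
  have e : Real.log (1 + y) - Real.log (1 - y) = Real.log (n / m) := by
    rw [← Real.log_div (by linarith) (by linarith)]
    congr 1
    have e1 : 1 + y = 2 * n / (n + m) := by rw [hy]; field_simp; ring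
    have e2 : 1 - y = 2 * m / (n + m) := by rw [hy]; field_simp; ring
    rw [e1, e2]
    field_simp
  rw [e] at h2
  rw [← h2.tsum_eq, serF_eq' _ _ _ _ (sq_nonneg _), ← tsum_mul_left]
  congr 1
  ext k
  simp only [den, ← pow_mul]
  push_cast
  rw [pow_succ]
  field_simp
  ring

end Vale.Agent.P322.Eng.BX
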