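import Vale.Agent.P322.EngA
import Vale.Agent.P322.EngBX

/-! Point enclosures of power series and logarithms; convexity of the power series. -/

namespace Vale.Agent.P322.Eng

theorem serF_summable {a b c d : ℕ} (h : 1 ≤ b * d) {x : ℝ} (hx : x < 1) :
    Summable fun k : ℕ => (max x 0) ^ k / (((a : ℝ) * k + b) * ((c : ℝ) * k + d)) :=
  BX.summable_lt (a := a) (c := c) h (le_max_right x 0) (max_lt hx one_pos)

theorem ell_summable {x : ℝ} (hx : x ≤ 1) :
    Summable fun k : ℕ =>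
      (max x 0) ^ k / ((((2 : ℕ) : ℝ) * k + (1 : ℕ)) * (((2 : ℕ) : ℝ) * k + (2 : ℕ))) :=
  BX.summable_ell (le_max_right x 0) (max_le hx zero_le_one)

theorem serF_mono {a b c d : ℕ} (h : 1 ≤ b * d) {x y : ℝ} (hxy : x ≤ y) (hy : y < 1) :
    serF a b c d x ≤ serF a b c d y :=
  BX.mono_of h hxy (serF_summable h hy)

theorem ell_mono {x y : ℝ} (hxy : x ≤ y) (hy : y ≤ 1) : serF 2 1 2 2 x ≤ serF 2 1 2 2 y :=
  BX.mono_of (by norm_num) hxy (ell_summable hy)

theorem serF_convex {a b c d : ℕ} (h : 1 ≤ b * d) : ConvexOn ℝ (Set.Iio 1) (serF a b c d) :=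
  BX.convexOn_tsum (convex_Iio 1) (f := fun k x => (max x 0) ^ k / BX.den a b c d k)
    (fun k => BX.convex_term (convex_Iio 1) k (BX.den_pos h k)) fun _ hx => serF_summable h hx

theorem serF2_convex {a b c d : ℕ} (h : 1 ≤ b * d) :
    ConvexOn ℝ (Set.Iio 1) (fun x : ℝ => serF a b c d ((max x 0) ^ 2)) :=
  BX.convex_sq h (convex_Iio 1) fun x hx => BX.summable_lt h (sq_nonneg _)
    (pow_lt_one₀ (le_max_right x 0) (max_lt hx one_pos) two_ne_zero)

theorem ell_convex : ConvexOn ℝ (Set.Iic 1) (fun x : ℝ => serF 2 1 2 2 ((max x 0) ^ 2)) :=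
  BX.convex_sq (by norm_num) (convex_Iic 1) fun x hx => BX.summable_ell (sq_nonneg _)
    (pow_le_one₀ (le_max_right x 0) (max_le hx zero_le_one))

theorem serD_le {a b c d : ℕ} (h : 1 ≤ b * d) {x : ℕ} (hx : x < 2 ^ 40) :
    (serD a b c d x : ℝ) ≤ serF a b c d ((x : ℝ) / 2 ^ 40) * 2 ^ 40 := by
  have hx' : (x : ℝ) < 2 ^ 40 := by exact_mod_cast hx
  exact BX.horn_le_ser h x _ (BX.summable_lt h (by positivity) ((div_lt_one (by positivity)).2 hx'))

theorem le_serU {a b c d : ℕ} (h : 1 ≤ b * d) {x : ℕ} (hx : x < 2 ^ 40) :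
    serF a b c d ((x : ℝ) / 2 ^ 40) * 2 ^ 40 ≤ (serU a b c d x : ℝ) := by
  have hx' : (x : ℝ) < 2 ^ 40 := by exact_mod_cast hx
  rw [serU, frc_eq]
  exact BX.ser_le_horn h x _ _
    (BX.summable_lt h (by positivity) ((div_lt_one (by positivity)).2 hx')) (BX.tail_geo h hx _)

theorem ellD_le {x : ℕ} (hx : x ≤ 2 ^ 40) :
    (serD 2 1 2 2 x : ℝ) ≤ serF 2 1 2 2 ((x : ℝ) / 2 ^ 40) * 2 ^ 40 := by
  have hx' : (x : ℝ) ≤ 2 ^ 40 := by exact_mod_cast hx
  exact BX.horn_le_ser (by norm_num) x _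
    (BX.summable_ell (by positivity) ((div_le_one (by positivity)).2 hx'))

theorem le_ellU {x : ℕ} (hx : x ≤ 2 ^ 40) :
    serF 2 1 2 2 ((x : ℝ) / 2 ^ 40) * 2 ^ 40 ≤ (ellU x : ℝ) := by
  have hx' : (x : ℝ) ≤ 2 ^ 40 := by exact_mod_cast hx
  rw [ellU, frc_eq]
  refine BX.ser_le_horn (by norm_num) x _ _
    (BX.summable_ell (by positivity) ((div_le_one (by positivity)).2 hx')) fun m => ?_
  generalize nterms x = n
  have h1 := BX.tail_ell hx n m
  change _ ≤ ((cond (Nat.ble 1099511627776 x) (1099511627776 / (4 * n + 1) + 1)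
    ((1099511627776 / (4 * n + 1) + 1) -
      ((1099511627776 / (4 * n + 1) + 1) - tailG 2 1 2 2 x n)) : ℕ) : ℝ)
  generalize 1099511627776 / (4 * n + 1) + 1 = t at h1 ⊢
  cases hb : Nat.ble 1099511627776 x
  · have hlt : x < 2 ^ 40 := by
      have := Nat.not_le_of_not_ble_eq_true (n := 1099511627776) (m := x) (by simp [hb])
      norm_num; omega
    have h2 := BX.tail_geo (a := 2) (b := 1) (c := 2) (d := 2) (by norm_num) hlt n m
    rw [cond_false]
    rcases le_total t (tailG 2 1 2 2 x n) with h3 | h3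
    · rw [show t - (t - tailG 2 1 2 2 x n) = t by omega]; exact h1
    · rw [show t - (t - tailG 2 1 2 2 x n) = tailG 2 1 2 2 x n by omega]; exact h2
  · exact h1

theorem logD_le {n : ℕ} (hn : 1 ≤ n) :
    (logD n : ℝ) - 30484935402000 ≤ Real.log ((n : ℝ) / 2 ^ 40) * 2 ^ 40 := by
  have hn' : (1 : ℝ) ≤ n := by exact_mod_cast hn
  have l1 := Real.log_two_gt_d9
  have l2 := Real.log_two_lt_d9
  have e0 : Real.log ((n : ℝ) / 2 ^ 40) = Real.log n - 40 * Real.log 2 := by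
    rw [Real.log_div (by linarith) (by positivity), Real.log_pow]; norm_num
  rw [logD, frc_eq]
  generalize lg n = e
  simp only [frc_eq]
  have em : Nat.shiftLeft 1 e = 2 ^ e := by rw [Nat.shiftLeft_eq', Nat.shiftLeft_eq, one_mul]
  rw [em]
  cases hb : Nat.ble (2 ^ e) n
  · rw [cond_false, e0]
    have := Real.log_nonneg hn'
    push_cast
    nlinarith
  rw [cond_true]
  have hle : 2 ^ e ≤ n := Nat.le_of_ble_eq_true hb
  have hle' : (2 : ℝ) ^ e ≤ n := by exact_mod_cast hle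
  have hm : (0 : ℝ) < 2 ^ e := by positivity
  have hlog := BX.log_ser hm hle'
  set z : ℝ := ((n : ℝ) - 2 ^ e) / (n + 2 ^ e) with hz
  have hz1 : z < 1 := (div_lt_one (by linarith)).2 (by linarith)
  set y : ℕ := Nat.div (Nat.shiftLeft (Nat.sub n (2 ^ e)) 40) (Nat.add n (2 ^ e)) with hy
  have hy1 : (y : ℝ) ≤ z * 2 ^ 40 := by
    have := BX.div_le ((n - 2 ^ e) * 2 ^ 40) (n + 2 ^ e)
    rw [Nat.cast_mul, Nat.cast_sub hle] at this
    have e1 : y = (n - 2 ^ e) * 2 ^ 40 / (n + 2 ^ e) := by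
      rw [hy, Nat.shiftLeft_eq', Nat.shiftLeft_eq]; rfl
    rw [e1, hz, div_mul_eq_mul_div]
    refine this.trans (le_of_eq ?_)
    push_cast
    norm_num
  clear_value y
  set v : ℕ := Nat.shiftRight (Nat.mul y y) 40 with hv
  have hy0 : (0 : ℝ) ≤ y := Nat.cast_nonneg y
  have hz0 : 0 ≤ z := div_nonneg (by linarith) (by linarith)
  have hv1 : (v : ℝ) / 2 ^ 40 ≤ z ^ 2 := by
    have := BX.shr_le (y * y) 40
    rw [div_le_iff₀ (by positivity)]
    refine this.trans ?_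
    rw [div_le_iff₀ (by positivity)]
    push_cast
    nlinarith
  clear_value v
  have hz2 : z ^ 2 < 1 := pow_lt_one₀ hz0 hz1 two_ne_zero
  have h1 := BX.horn_le_ser (a := 2) (b := 1) (c := 0) (d := 1) (by norm_num) v 9
    (BX.summable_lt (by norm_num) (by positivity) (hv1.trans_lt hz2))
  have h2 := serF_mono (a := 2) (b := 1) (c := 0) (d := 1) (by norm_num) hv1 hz2
  generalize horn 2 1 0 1 0 v 9 0 = H at h1 ⊢
  have h3 := BX.shr_le (y * H) 39
  have hH : (0 : ℝ) ≤ H := Nat.cast_nonneg H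
  have h4 : (H : ℝ) ≤ serF 2 1 0 1 (z ^ 2) * 2 ^ 40 := by linarith
  have h5 : (y : ℝ) * H ≤ (z * 2 ^ 40) * (serF 2 1 0 1 (z ^ 2) * 2 ^ 40) :=
    mul_le_mul hy1 h4 hH (by positivity)
  have e1 : Real.log ((n : ℝ) / 2 ^ e) = Real.log n - e * Real.log 2 := by
    rw [Real.log_div (by linarith) (by positivity), Real.log_pow]
  have he : (0 : ℝ) ≤ e := Nat.cast_nonneg e
  have h6 : (e : ℝ) * 762123384499 ≤ e * (Real.log 2 * 2 ^ 40) :=
    mul_le_mul_of_nonneg_left (by linarith) he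
  change (((e * 762123384499 + Nat.shiftRight (y * H) 39 : ℕ)) : ℝ) - _ ≤ _
  rw [e0]
  rw [e1] at hlog
  push_cast at h3 ⊢
  nlinarith

theorem le_logU {n : ℕ} (hn : 1 ≤ n) :
    Real.log ((n : ℝ) / 2 ^ 40) * 2 ^ 40 ≤ (logU n : ℝ) - 30484935379960 := by
  have hn' : (1 : ℝ) ≤ n := by exact_mod_cast hn
  have l1 := Real.log_two_gt_d9
  have l2 := Real.log_two_lt_d9
  have e0 : Real.log ((n : ℝ) / 2 ^ 40) = Real.log n - 40 * Real.log 2 := by
    rw [Real.log_div (by linarith) (by positivity), Real.log_pow]; norm_num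
  rw [logU, frc_eq]
  generalize lg n = e
  simp only [frc_eq]
  have em : Nat.shiftLeft 1 e = 2 ^ e := by rw [Nat.shiftLeft_eq', Nat.shiftLeft_eq, one_mul]
  rw [em]
  obtain ⟨y, hy⟩ : ∃ y : ℕ, y =
    Nat.add (Nat.div (Nat.shiftLeft (Nat.sub n (2 ^ e)) 40) (Nat.add n (2 ^ e))) 1 := ⟨_, rfl⟩
  rw [← hy]
  obtain ⟨v, hv⟩ : ∃ v : ℕ, v = Nat.add (Nat.shiftRight (Nat.mul y y) 40) 1 := ⟨_, rfl⟩
  rw [← hv]
  cases hb : Nat.ble v 549755813888
  · rw [cond_false, e0, Nat.shiftLeft_eq', Nat.shiftLeft_eq]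
    have := Real.log_le_sub_one_of_pos (x := (n : ℝ)) (by linarith)
    push_cast
    nlinarith
  rw [cond_true]
  have hvle : v ≤ 549755813888 := Nat.le_of_ble_eq_true hb
  have hvlt : v < 2 ^ 40 := by norm_num; omega
  have hv' : (v : ℝ) / 2 ^ 40 < 1 := (div_lt_one (by positivity)).2 (by exact_mod_cast hvlt)
  have h1 := BX.ser_le_horn (a := 2) (b := 1) (c := 0) (d := 1) (by norm_num) v 9 _
    (BX.summable_lt (by norm_num) (by positivity) hv') (BX.tail_geo (by norm_num) hvlt 9)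
  generalize horn 2 1 0 1 2 v 9 (tailG 2 1 0 1 v 9) = H at h1 ⊢
  have h3 := BX.le_shr (y * H) 39
  have hH : (0 : ℝ) ≤ H := Nat.cast_nonneg H
  have hy0 : (0 : ℝ) ≤ y := Nat.cast_nonneg y
  have hm : (0 : ℝ) < 2 ^ e := by positivity
  have key : Real.log ((n : ℝ) / 2 ^ e) * 2 ^ 40 ≤ (y : ℝ) * H / 2 ^ 39 := by
    rcases le_total (2 ^ e) n with hle | hle
    · have hle' : (2 : ℝ) ^ e ≤ n := by exact_mod_cast hle
      have hlog := BX.log_ser hm hle'
      set z : ℝ := ((n : ℝ) - 2 ^ e) / (n + 2 ^ e) with hz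
      have hz0 : 0 ≤ z := div_nonneg (by linarith) (by linarith)
      have hy1 : z * 2 ^ 40 ≤ y := by
        have := BX.le_div ((n - 2 ^ e) * 2 ^ 40) (q := n + 2 ^ e) (by positivity)
        rw [Nat.cast_mul, Nat.cast_sub hle] at this
        have e1 : y = (n - 2 ^ e) * 2 ^ 40 / (n + 2 ^ e) + 1 := by
          rw [hy, Nat.shiftLeft_eq', Nat.shiftLeft_eq]; rfl
        rw [e1, hz, div_mul_eq_mul_div, Nat.cast_add _ 1, Nat.cast_one]
        refine le_trans (le_of_eq ?_) this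
        push_cast
        norm_num
      have hv1 : z ^ 2 ≤ (v : ℝ) / 2 ^ 40 := by
        have := BX.le_shr (y * y) 40
        have e1 : (v : ℝ) = ((Nat.shiftRight (y * y) 40 : ℕ) : ℝ) + 1 := by
          rw [hv, ← Nat.cast_succ]; rfl
        rw [le_div_iff₀ (by positivity), e1]
        refine le_trans ?_ this
        rw [le_div_iff₀ (by positivity)]
        push_cast
        have : 0 ≤ z * 2 ^ 40 := by positivity
        nlinarith
      have h2 := serF_mono (a := 2) (b := 1) (c := 0) (d := 1) (by norm_num) hv1 hv'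
      have h4 : serF 2 1 0 1 (z ^ 2) * 2 ^ 40 ≤ H := by linarith
      have h0 : 0 ≤ serF 2 1 0 1 (z ^ 2) := tsum_nonneg fun k => by positivity
      have h5 : (z * 2 ^ 40) * (serF 2 1 0 1 (z ^ 2) * 2 ^ 40) ≤ (y : ℝ) * H :=
        mul_le_mul hy1 h4 (by positivity) hy0
      rw [hlog, le_div_iff₀ (by positivity)]
      linarith
    · have hle' : (n : ℝ) ≤ 2 ^ e := by exact_mod_cast hle
      have := Real.log_nonpos (x := (n : ℝ) / 2 ^ e) (by positivity) ((div_le_one hm).2 hle')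
      have h2 : 0 ≤ (y : ℝ) * H / 2 ^ 39 := by positivity
      linarith
  have e1 : Real.log ((n : ℝ) / 2 ^ e) = Real.log n - e * Real.log 2 := by
    rw [Real.log_div (by linarith) (by positivity), Real.log_pow]
  have he : (0 : ℝ) ≤ e := Nat.cast_nonneg e
  have h6 : e * (Real.log 2 * 2 ^ 40) ≤ (e : ℝ) * 762123385050 :=
    mul_le_mul_of_nonneg_left (by linarith) he
  change _ ≤ (((e * 762123385050 + (Nat.shiftRight (y * H) 39 + 1) : ℕ)) : ℝ) - _
  rw [e0]
  rw [e1] at key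
  push_cast at h3 ⊢
  nlinarith

end Vale.Agent.P322.Eng
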