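import Mathlib

namespace Vale.Agent.P322

open Finset Module

/-- greedy orthonormal family adapted to subspaces -/
theorem exists_flag {E J : Type*} [NormedAddCommGroup E] [InnerProductSpace ℝ E]
    [FiniteDimensional ℝ E] [Fintype J] [DecidableEq J] (w : J → ℕ) (W : ℕ → Submodule ℝ E)
    (hW : ∀ j, (univ.filter (fun i => w i ≤ w j)).card ≤ finrank ℝ (W (w j))) :
    ∃ v : J → E, Orthonormal ℝ v ∧ ∀ j, v j ∈ W (w j) := by
  classical
  have key : ∀ s : Finset J, ∃ v : J → E, (∀ j ∈ s, ‖v j‖ = 1) ∧
      (∀ i ∈ s, ∀ j ∈ s, i ≠ j → inner ℝ (v i) (v j) = 0) ∧ ∀ j ∈ s, v j ∈ W (w j) := by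
    intro s
    induction s using Finset.induction_on_max_value w with
    | empty => exact ⟨fun _ => 0, by simp, by simp, by simp⟩
    | insert a s ha hmax ih =>
      obtain ⟨v, h1, h2, h3⟩ := ih
      set K : Submodule ℝ E := Submodule.span ℝ ((s.image v : Finset E) : Set E) with hK
      have hKd : finrank ℝ K ≤ s.card :=
        (finrank_span_finset_le_card _).trans card_image_le
      have hcard : s.card + 1 ≤ finrank ℝ (W (w a)) := by
        refine le_trans ?_ (hW a)
        rw [← card_insert_of_notMem ha]
        refine card_le_card fun i hi => ?_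
        rcases mem_insert.1 hi with rfl | hi
        · simp
        · simp [hmax i hi]
      have hne : W (w a) ⊓ Kᗮ ≠ ⊥ := by
        intro h
        have e1 := Submodule.finrank_sup_add_finrank_inf_eq (W (w a)) Kᗮ
        have e2 := Submodule.finrank_add_finrank_orthogonal K
        have e3 := Submodule.finrank_le (W (w a) ⊔ Kᗮ)
        rw [h, finrank_bot] at e1
        omega
      obtain ⟨u, hu, hu0⟩ := Submodule.exists_mem_ne_zero_of_ne_bot hne
      have hun : ‖u‖ ≠ 0 := norm_ne_zero_iff.2 hu0
      have horth : ∀ i ∈ s, inner ℝ (v i) ((‖u‖⁻¹ : ℝ) • u) = 0 := by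
        intro i hi
        rw [inner_smul_right]
        have : v i ∈ K := Submodule.subset_span (by simp; exact ⟨i, hi, rfl⟩)
        rw [(Submodule.mem_orthogonal K u).1 hu.2 _ this, mul_zero]
      have hup : ∀ j ∈ s, Function.update v a ((‖u‖⁻¹ : ℝ) • u) j = v j := fun j hj =>
        Function.update_of_ne (fun e : j = a => ha (e ▸ hj)) _ _
      refine ⟨Function.update v a ((‖u‖⁻¹ : ℝ) • u), ?_, ?_, ?_⟩
      · intro j hj
        rcases mem_insert.1 hj with rfl | hj'
        · simp [norm_smul, hun]
        · rw [hup j hj']; exact h1 j hj'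
      · intro i hi j hj hij
        rcases mem_insert.1 hi with rfl | hi' <;> rcases mem_insert.1 hj with rfl | hj'
        · exact absurd rfl hij
        · rw [Function.update_self, hup j hj',
            real_inner_comm]
          exact horth j hj'
        · rw [Function.update_self, hup i hi']
          exact horth i hi'
        · rw [hup i hi',
            hup j hj']
          exact h2 i hi' j hj' hij
      · intro j hj
        rcases mem_insert.1 hj with rfl | hj'
        · rw [Function.update_self]; exact Submodule.smul_mem _ _ hu.1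
        · rw [hup j hj']; exact h3 j hj'
  obtain ⟨v, h1, h2, h3⟩ := key univ
  exact ⟨v, ⟨fun j => h1 j (mem_univ _), fun i j hij => h2 i (mem_univ _) j (mem_univ _) hij⟩,
    fun j => h3 j (mem_univ _)⟩

end Vale.Agent.P322
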