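import Vale.Agent.P322.Defs
import Vale.Agent.P322.Flag

namespace Vale.Agent.P322

open Finset Module

variable {n : ℕ}

theorem sum_prod_cube (g : Fin n → Bool → ℝ) :
    ∑ x : Fin n → Bool, ∏ i, g i (x i) = ∏ i, (g i true + g i false) := by
  have := Finset.prod_univ_sum (fun _ : Fin n => (univ : Finset Bool)) g
  rw [Fintype.piFinset_univ] at this
  rw [← this]; simp

def sg (b : Bool) : ℝ := if b then 1 else -1

@[simp] theorem sg_true : sg true = 1 := rfl
@[simp] theorem sg_false : sg false = -1 := rfl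
theorem sg_not (b : Bool) : sg (!b) = -sg b := by cases b <;> simp
theorem sg_sq (b : Bool) : sg b * sg b = 1 := by cases b <;> simp

/-- coordinate factor of a character on a block -/
def ee (T : Finset (Fin n)) (z : Fin n → Bool) (A : Finset (Fin n)) (i : Fin n) (b : Bool) : ℝ :=
  if i ∈ T then (if i ∈ A then sg b else 1) else (if b = z i then 1 else 0)

def uu (T : Finset (Fin n)) (z : Fin n → Bool) (A : Finset (Fin n)) (x : Fin n → Bool) : ℝ :=
  ∏ i, ee T z A i (x i)

noncomputable def vv (ε : ℝ) (b b' : Bool) : ℝ := if b = b' then √(1 - ε) else √ε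

noncomputable def VV (ε : ℝ) (y x : Fin n → Bool) : ℝ := ∏ i, vv ε (x i) (y i)

theorem VV_sq {ε : ℝ} (h0 : 0 ≤ ε) (h1 : ε ≤ 1) (y x : Fin n → Bool) :
    VV ε y x ^ 2 = chan ε x y := by
  unfold VV chan
  rw [← prod_pow]
  refine prod_congr rfl fun i _ => ?_
  unfold vv
  split_ifs
  · exact Real.sq_sqrt (by linarith)
  · exact Real.sq_sqrt h0

theorem chan_nonneg {ε : ℝ} (h0 : 0 ≤ ε) (h1 : ε ≤ 1) (x y : Fin n → Bool) : 0 ≤ chan ε x y := by
  rw [← VV_sq h0 h1]; positivity

theorem sum_chan (ε : ℝ) (x : Fin n → Bool) : ∑ y, chan ε x y = 1 := by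
  unfold chan
  rw [sum_prod_cube (fun i b => if x i = b then 1 - ε else ε)]
  refine prod_eq_one fun i _ => ?_
  cases x i <;> simp

theorem sum_chan' (ε : ℝ) (y : Fin n → Bool) : ∑ x, chan ε x y = 1 := by
  unfold chan
  rw [sum_prod_cube (fun i b => if b = y i then 1 - ε else ε)]
  refine prod_eq_one fun i _ => ?_
  cases y i <;> simp

theorem uu_inner (T : Finset (Fin n)) (z : Fin n → Bool) {A B : Finset (Fin n)} (hA : A ⊆ T)
    (hB : B ⊆ T) : ∑ x, uu T z A x * uu T z B x = if A = B then 2 ^ T.card else 0 := by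
  unfold uu
  simp_rw [← prod_mul_distrib]
  rw [sum_prod_cube (fun i b => ee T z A i b * ee T z B i b)]
  split_ifs with h
  · subst h
    have : ∀ i, ee T z A i true * ee T z A i true + ee T z A i false * ee T z A i false =
        if i ∈ T then 2 else 1 := by
      intro i
      unfold ee
      by_cases h1 : i ∈ T <;> by_cases h2 : i ∈ A <;> cases z i <;> simp [h1, h2] <;> norm_num
    simp_rw [this]
    rw [prod_ite]; simp
  · obtain ⟨i, hi⟩ : ∃ i, ¬(i ∈ A ↔ i ∈ B) := by
      by_contra hh; push Not at hh; exact h (by ext i; exact hh i)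
    refine prod_eq_zero (mem_univ i) ?_
    unfold ee
    by_cases h1 : i ∈ A <;> by_cases h2 : i ∈ B
    · simp [h1, h2] at hi
    · simp [h1, h2, hA h1]
    · simp [h1, h2, hB h2]
    · simp [h1, h2] at hi

theorem V_uu (ε : ℝ) (T : Finset (Fin n)) (z : Fin n → Bool) (A : Finset (Fin n))
    (y : Fin n → Bool) : ∑ x, uu T z A x * VV ε y x =
      ∏ i, (ee T z A i true * vv ε true (y i) + ee T z A i false * vv ε false (y i)) := by
  unfold uu VV
  simp_rw [← prod_mul_distrib]
  rw [sum_prod_cube (fun i b => ee T z A i b * vv ε b (y i))]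

theorem V_inner {ε : ℝ} (h0 : 0 ≤ ε) (h1 : ε ≤ 1) (T : Finset (Fin n)) (z : Fin n → Bool)
    {A B : Finset (Fin n)} (hA : A ⊆ T) (hB : B ⊆ T) :
    ∑ y, (∑ x, uu T z A x * VV ε y x) * (∑ x, uu T z B x * VV ε y x) =
      if A = B then 2 ^ T.card * ((1 + 2 * (√(1 - ε) * √ε)) ^ T.card *
        ((1 - 2 * (√(1 - ε) * √ε)) / (1 + 2 * (√(1 - ε) * √ε))) ^ A.card) else 0 := by
  simp_rw [V_uu, ← prod_mul_distrib]
  rw [sum_prod_cube (fun i b => (ee T z A i true * vv ε true b + ee T z A i false * vv ε false b) *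
    (ee T z B i true * vv ε true b + ee T z B i false * vv ε false b))]
  have ha : √(1 - ε) * √(1 - ε) = 1 - ε := Real.mul_self_sqrt (by linarith)
  have hb : √ε * √ε = ε := Real.mul_self_sqrt h0
  have hc : 0 < 1 + 2 * (√(1 - ε) * √ε) := by positivity
  set a := √(1 - ε)
  set b := √ε
  split_ifs with h
  · subst h
    have : ∀ i, (ee T z A i true * vv ε true true + ee T z A i false * vv ε false true) *
        (ee T z A i true * vv ε true true + ee T z A i false * vv ε false true) +
        (ee T z A i true * vv ε true false + ee T z A i false * vv ε false false) *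
        (ee T z A i true * vv ε true false + ee T z A i false * vv ε false false) =
        (if i ∈ T then 2 * (1 + 2 * (a * b)) else 1) *
          (if i ∈ A then (1 - 2 * (a * b)) / (1 + 2 * (a * b)) else 1) := by
      intro i
      unfold ee vv
      by_cases h1 : i ∈ T <;> by_cases h2 : i ∈ A
      · simp only [h1, h2, if_true, sg_true, sg_false]
        have e : 2 * (1 + 2 * (a * b)) * ((1 - 2 * (a * b)) / (1 + 2 * (a * b))) =
            2 * (1 - 2 * (a * b)) := by
          rw [mul_assoc, mul_div_cancel₀ _ hc.ne']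
        rw [e]
        simp
        nlinarith
      · simp [h1, h2]; nlinarith
      · exact absurd (hA h2) h1
      · cases z i <;> simp [h1, h2] <;> nlinarith
    simp_rw [this]
    rw [prod_mul_distrib, prod_ite, prod_ite]
    simp [mul_pow, mul_assoc, div_pow]
  · obtain ⟨i, hi⟩ : ∃ i, ¬(i ∈ A ↔ i ∈ B) := by
      by_contra hh; push Not at hh; exact h (by ext i; exact hh i)
    refine prod_eq_zero (mem_univ i) ?_
    unfold ee vv
    by_cases h1 : i ∈ A <;> by_cases h2 : i ∈ B
    · simp [h1, h2] at hi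
    · simp [h1, h2, hA h1]; ring
    · simp [h1, h2, hB h2]; ring
    · simp [h1, h2] at hi

theorem flip_flip (T : Finset (Fin n)) (x : Fin n → Bool) : flip T (flip T x) = x := by
  ext i; unfold flip; split_ifs <;> simp

theorem uu_flip (T : Finset (Fin n)) (z : Fin n → Bool) {A : Finset (Fin n)} (hA : A ⊆ T)
    (x : Fin n → Bool) : uu T z A (flip T x) = (-1) ^ A.card * uu T z A x := by
  unfold uu
  have : ∀ i, ee T z A i (flip T x i) = (if i ∈ A then -1 else 1) * ee T z A i (x i) := by
    intro i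
    unfold ee flip
    by_cases h1 : i ∈ T <;> by_cases h2 : i ∈ A
    · simp [h1, h2, sg_not]
    · simp [h1, h2]
    · exact absurd (hA h2) h1
    · simp [h1, h2]
  simp_rw [this]
  rw [prod_mul_distrib, prod_ite]; simp

theorem uu_out (T : Finset (Fin n)) (z : Fin n → Bool) (A : Finset (Fin n)) (x : Fin n → Bool)
    (hx : ¬ ∀ i ∉ T, x i = z i) : uu T z A x = 0 := by
  push Not at hx
  obtain ⟨i, hi, hne⟩ := hx
  refine prod_eq_zero (mem_univ i) ?_
  simp [ee, hi, hne]

theorem uu_empty (T : Finset (Fin n)) (z : Fin n → Bool) (x : Fin n → Bool)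
    (hx : ∀ i ∉ T, x i = z i) : uu T z ∅ x = 1 := by
  refine prod_eq_one fun i _ => ?_
  unfold ee
  by_cases h : i ∈ T
  · simp [h]
  · simp [h, hx i h]

theorem card_block (T : Finset (Fin n)) (z : Fin n → Bool) :
    ∑ x : Fin n → Bool, (if ∀ i ∉ T, x i = z i then (1 : ℝ) else 0) = 2 ^ T.card := by
  have := uu_inner T z (A := ∅) (B := ∅) (by simp) (by simp)
  rw [if_pos rfl] at this
  rw [← this]
  refine sum_congr rfl fun x _ => ?_
  split_ifs with h
  · simp [uu_empty T z x h]
  · simp [uu_out T z _ x h]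

end Vale.Agent.P322
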