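import Vale.Agent.P322.NumA

/-! Certificates. -/

set_option linter.unusedSimpArgs false
set_option linter.unusedVariables false

namespace Vale.Agent.P322.CK

open Real Eng

def treeA20 : T :=
  (.sy (.sx (.sy (.leaf 67328 66847 65774 0 0 0)
    (.sx (.leaf 67559 66191 65655 0 0 0)
     (.sy (.leaf 67282 67502 64344 0 0 0)
      (.leaf 67697 65536 66013 0 0 0))))
   (.sy (.sy (.leaf 67543 66191 66489 0 0 0)
     (.leaf 66401 68485 67681 0 0 0))
    (.sy (.sy (.leaf 66959 69468 61723 0 0 0)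
      (.leaf 67886 67174 62200 0 0 0))
     (.sx (.leaf 68060 64881 65774 0 0 0)
      (.leaf 68193 64881 65298 0 0 0)))))
  (.sy (.sx (.sy (.sx (.leaf 67886 64881 66251 0 0 0)
      (.leaf 67696 65536 66013 0 0 0))
     (.sx (.leaf 68262 64553 65655 0 0 0)
      (.sy (.leaf 67735 65208 66251 0 0 0)
       (.leaf 68444 64881 65059 0 0 0))))
    (.sy (.sx (.leaf 68280 64225 66013 0 0 0)
      (.sy (.leaf 68117 64225 66489 0 0 0)
       (.leaf 68495 64225 65536 0 0 0)))
     (.sx (.sy (.leaf 68032 64553 66251 0 0 0)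
       (.leaf 68708 64553 64821 0 0 0))
      (.sy (.leaf 68076 64225 66489 0 0 0)
       (.leaf 68713 64553 64821 0 0 0)))))
   (.sy (.sx (.sx (.sy (.leaf 67940 65208 65774 0 0 0)
       (.leaf 67681 65536 66013 0 0 0))
      (.sy (.leaf 68216 64553 65774 0 0 0)
       (.leaf 68488 63898 65774 0 0 0)))
     (.sy (.sx (.leaf 68485 64225 65536 0 0 0)
       (.leaf 68457 64553 65298 0 0 0))
      (.sx (.leaf 68301 64553 65774 0 0 0)
       (.sy (.leaf 68375 63898 66013 0 0 0)
        (.leaf 68818 63570 65536 0 0 0)))))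
    (.sx (.sy (.sx (.leaf 67681 65536 66013 0 0 0)
       (.leaf 68301 63898 66251 0 0 0))
      (.sx (.leaf 67663 65208 66251 0 0 0)
       (.sy (.leaf 68078 64553 66013 0 0 0)
        (.leaf 68083 64553 66013 0 0 0))))
     (.sy (.sx (.sy (.leaf 67484 64553 66966 0 0 0)
        (.leaf 68516 64225 65536 0 0 0))
       (.sy (.leaf 68239 63570 66489 0 0 0)
        (.leaf 68380 63898 66013 0 0 0)))
      (.sx (.sy (.leaf 67907 64225 66489 0 0 0)
        (.leaf 68088 64553 66013 0 0 0))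
       (.sy (.sx (.leaf 67912 64225 66489 0 0 0)
         (.leaf 68544 63570 66013 0 0 0))
        (.sx (.leaf 68533 63570 66013 0 0 0)
         (.leaf 67907 64225 66489 0 0 0)))))))))

theorem chkA20 : chkT mkA1 4 treeA20 481036337152 377957122048 68719476736 377957122048 = true := by decide +kernel

theorem certA20 {e u : ℝ} (h0 : 3 / 8 ≤ e) (h1 : e ≤ 1 / 2) (h2 : 0 ≤ u) (h3 : u ≤ 11 / 16) :
    ∃ a b c a' b' c', ∀ i < 4, 0 ≤ nthR (runR (mkA1 a b c a' b' c') [u, e]) i :=
  chkT_sound _ _ _ _ _ _ _ _ _ chkA20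
    (box_of h0 h1 (by norm_num) (by norm_num)) (box_of h2 h3 (by norm_num) (by norm_num))

def treeA21 : T :=
  (.sy (.sx (.sy (.sy (.leaf 67702 65864 66519 0 0 0)
     (.leaf 67231 66519 68485 0 0 0))
    (.sx (.leaf 68124 66191 63406 0 0 0)
     (.sy (.leaf 67251 66191 69796 0 0 0)
      (.leaf 70569 64881 56033 0 0 0))))
   (.sy (.sx (.leaf 67456 66191 67994 0 0 0)
     (.leaf 67062 66847 68157 0 0 0))
    (.sx (.sy (.leaf 67364 66191 69140 0 0 0)
      (.leaf 70702 64881 55378 0 0 0))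
     (.sy (.leaf 68854 64225 67502 0 0 0)
      (.sy (.leaf 73498 60948 53084 0 0 0)
       (.leaf 72028 61604 57672 0 0 0))))))
  (.sy (.sx (.sx (.sy (.leaf 68408 64881 64553 0 0 0)
      (.leaf 68240 64225 66191 0 0 0))
     (.sy (.leaf 68844 64225 64225 0 0 0)
      (.leaf 68240 64225 66191 0 0 0)))
    (.sx (.sy (.leaf 68844 64225 64225 0 0 0)
      (.sy (.leaf 68455 64225 65536 0 0 0)
       (.leaf 68603 63570 66191 0 0 0)))
     (.sy (.sy (.leaf 69622 62915 64225 0 0 0)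
       (.leaf 69033 63570 64881 0 0 0))
      (.sy (.leaf 68434 64225 65536 0 0 0)
       (.leaf 68434 64225 65536 0 0 0)))))
   (.sx (.sy (.sx (.leaf 68496 64225 65536 0 0 0)
      (.sy (.leaf 68475 64225 65536 0 0 0)
       (.leaf 68496 64225 65536 0 0 0)))
     (.sx (.sy (.leaf 68226 63898 66519 0 0 0)
       (.leaf 69161 63570 64881 0 0 0))
      (.sy (.leaf 68854 63570 65536 0 0 0)
       (.leaf 69179 63242 65208 0 0 0))))
    (.sx (.sy (.sx (.leaf 69232 62915 65536 0 0 0)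
       (.leaf 69232 62915 65536 0 0 0))
      (.sy (.sx (.leaf 69514 62915 64881 0 0 0)
        (.leaf 69514 62915 64881 0 0 0))
       (.sx (.leaf 69732 62259 65208 0 0 0)
        (.leaf 69504 62915 64881 0 0 0))))
     (.sy (.sx (.sy (.leaf 68194 64225 66191 0 0 0)
        (.leaf 69256 63570 64553 0 0 0))
       (.sy (.leaf 69243 62915 65536 0 0 0)
        (.leaf 71125 60948 63898 0 0 0)))
      (.sx (.sy (.leaf 70287 61604 64881 0 0 0)
        (.leaf 70287 61604 64881 0 0 0))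
       (.sy (.leaf 70287 61604 64881 0 0 0)
        (.leaf 70297 61604 64881 0 0 0))))))))

theorem chkA21 : chkT mkA1 4 treeA21 618475290624 274877906944 68719476736 274877906944 = true := by decide +kernel

theorem certA21 {e u : ℝ} (h0 : 1 / 2 ≤ e) (h1 : e ≤ 5 / 8) (h2 : 0 ≤ u) (h3 : u ≤ 1 / 2) :
    ∃ a b c a' b' c', ∀ i < 4, 0 ≤ nthR (runR (mkA1 a b c a' b' c') [u, e]) i :=
  chkT_sound _ _ _ _ _ _ _ _ _ chkA21
    (box_of h0 h1 (by norm_num) (by norm_num)) (box_of h2 h3 (by norm_num) (by norm_num))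

end Vale.Agent.P322.CK
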