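import Vale.Agent.P322.FunB

/-! Second lower bound for the cost of one coordinate. -/

namespace Vale.Agent.P322.CK

open Real Set

namespace CP

theorem sinh_A {X : ℝ} (h : |X| < 1) : sinh (A X) = X * cosh (A X) := by
  obtain ⟨h1, h2⟩ := abs_lt.mp h
  have e : exp (A X) * (1 - X) = exp (-A X) * (1 + X) := by
    rw [← exp_log (show 0 < 1 - X by linarith), ← exp_log (show 0 < 1 + X by linarith),
      ← exp_add, ← exp_add]
    congr 1
    simp only [A]; ring
  rw [sinh_eq, cosh_eq]
  linarith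

theorem H_cosh {X : ℝ} (h : |X| < 1) : H X = log 2 + log (cosh (A X)) - A X * X := by
  obtain ⟨h1, h2⟩ := abs_lt.mp h
  have hc := cosh_pos (A X)
  have e : cosh (A X) * cosh (A X) * ((1 + X) * (1 - X)) = 1 := by
    have := cosh_sq_sub_sinh_sq (A X)
    rw [sinh_A h] at this
    linarith
  have p1 : (0 : ℝ) < 1 + X := by linarith
  have p2 : (0 : ℝ) < 1 - X := by linarith
  have e2 := congrArg log e
  rw [log_mul (by positivity) (by positivity), log_mul hc.ne' hc.ne', log_mul p1.ne' p2.ne',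
    log_one] at e2
  have e3 : log (cosh (A X)) = -(log (1 + X) + log (1 - X)) / 2 := by linarith
  rw [e3]
  simp only [H, ell, A]; ring

theorem exists_A {B : ℝ} (hB : 0 < B) : ∃ t, 0 < t ∧ t < 1 ∧ A t = B := by
  have hc := cosh_pos B
  refine ⟨sinh B / cosh B, div_pos (sinh_pos_iff.mpr hB) hc,
    (div_lt_one hc).mpr (sinh_lt_cosh B), ?_⟩
  have e1 : 1 + sinh B / cosh B = exp B / cosh B := by
    rw [← cosh_add_sinh]; field_simp
  have e2 : 1 - sinh B / cosh B = exp (-B) / cosh B := by
    rw [← cosh_sub_sinh]; field_simp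
  rw [A, e1, e2, log_div (exp_pos _).ne' hc.ne', log_div (exp_pos _).ne' hc.ne', log_exp, log_exp]
  ring

noncomputable def Psi (b M : ℝ) : ℝ := (cosh M + b) * log (2 * (cosh M + b)) - M * sinh M

theorem key {b M : ℝ} (hb : 1 ≤ b) (hM : 0 ≤ M) :
    M * cosh M ≤ sinh M * log (2 * (cosh M + b)) := by
  have hv : 0 < exp (-M) := exp_pos _
  have hv1 : exp (-M) ≤ 1 := exp_le_one_iff.mpr (by linarith)
  have hE : exp M * exp (-M) = 1 := by rw [← exp_add]; simp
  have h1 : exp M * ((1 + exp (-M)) * (1 + exp (-M))) ≤ 2 * (cosh M + b) := by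
    rw [cosh_eq]; nlinarith
  have h2 := log_le_log (by positivity) h1
  rw [log_mul (by positivity) (by positivity), log_mul (by positivity) (by positivity),
    log_exp] at h2
  have h3 : exp (-M) / 2 ≤ log (1 + exp (-M)) := by
    have := one_sub_inv_le_log_of_pos (show 0 < 1 + exp (-M) by positivity)
    have h4 : (1 + exp (-M))⁻¹ ≤ 1 - exp (-M) / 2 := by
      rw [inv_eq_one_div, div_le_iff₀ (by positivity)]; nlinarith
    linarith
  have h5 : M ≤ sinh M := self_le_sinh_iff.mpr hM
  have h6 : cosh M = sinh M + exp (-M) := by rw [← cosh_sub_sinh]; ring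
  have h7 : sinh M * (M + exp (-M)) ≤ sinh M * log (2 * (cosh M + b)) :=
    mul_le_mul_of_nonneg_left (by linarith) (by linarith)
  have h8 : M * exp (-M) ≤ sinh M * exp (-M) := mul_le_mul_of_nonneg_right h5 hv.le
  calc M * cosh M = M * sinh M + M * exp (-M) := by rw [h6]; ring
    _ ≤ sinh M * (M + exp (-M)) := by linarith
    _ ≤ _ := h7

theorem hasDerivAt_Psi {b : ℝ} (hb : 1 ≤ b) (M : ℝ) :
    HasDerivAt (Psi b) (sinh M * log (2 * (cosh M + b)) - M * cosh M) M := by
  have hc : 0 < cosh M + b := by have := cosh_pos M; linarith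
  have h1 : HasDerivAt (fun M => cosh M + b) (sinh M) M := (hasDerivAt_cosh M).add_const b
  have h2 := (h1.const_mul 2).log (by positivity)
  have h3 := (h1.mul h2).sub ((hasDerivAt_id' M).mul (hasDerivAt_sinh M))
  refine h3.congr_deriv ?_
  field_simp
  ring

theorem Psi_ge {b : ℝ} (hb : 1 ≤ b) (M : ℝ) : Psi b 0 ≤ Psi b M := by
  have hm : MonotoneOn (Psi b) (Ici 0) := by
    refine monotoneOn_of_deriv_nonneg (convex_Ici 0)
      (fun x _ => (hasDerivAt_Psi hb x).continuousAt.continuousWithinAt)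
      (fun x _ => (hasDerivAt_Psi hb x).differentiableAt.differentiableWithinAt) fun x hx => ?_
    rw [(hasDerivAt_Psi hb x).deriv]
    have := key hb (interior_subset hx)
    linarith
  rcases le_total 0 M with h | h
  · exact hm (mem_Ici.mpr le_rfl) h h
  · have e : Psi b M = Psi b (-M) := by simp [Psi]
    rw [e]
    exact hm (mem_Ici.mpr le_rfl) (mem_Ici.mpr (by linarith)) (by linarith)

theorem pair_sub {X Y : ℝ} (hX : |X| < 1) (hY : |Y| < 1) :
    (X - Y) * (cosh (A X + A Y) + cosh (A X - A Y)) = 2 * sinh (A X - A Y) := by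
  rw [cosh_add, cosh_sub, sinh_sub, sinh_A hX, sinh_A hY]; ring

theorem pair_H {X Y : ℝ} (hX : |X| < 1) (hY : |Y| < 1) :
    (H X + H Y) * (cosh (A X + A Y) + cosh (A X - A Y)) =
      Psi (cosh (A X - A Y)) (A X + A Y) - (A X - A Y) * sinh (A X - A Y) := by
  have hx := cosh_pos (A X)
  have hy := cosh_pos (A Y)
  have e : 2 * (cosh (A X + A Y) + cosh (A X - A Y)) = 2 * cosh (A X) * (2 * cosh (A Y)) := by
    rw [cosh_add, cosh_sub]; ring
  rw [Psi, e, log_mul (by positivity) (by positivity), log_mul (by positivity) hx.ne',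
    log_mul (by positivity) hy.ne', H_cosh hX, H_cosh hY, cosh_add, cosh_sub, sinh_sub, sinh_add,
    sinh_A hX, sinh_A hY]
  ring

end CP

theorem costP {t X Y : ℝ} (h0 : 0 < t) (h1 : t < 1) (hX : |X| < 1) (hY : |Y| < 1) :
    gam t * ((X - Y) / 2) ≤ J X Y + nu t * ((H X + H Y) / 2) := by
  have ht : |t| < 1 := abs_lt.mpr ⟨by linarith, h1⟩
  have hnu := nu_nonneg ht
  have hHX := (H_pos hX).le
  have hHY := (H_pos hY).le
  rcases le_or_gt X Y with hle | hlt
  · have hg : 0 ≤ gam t := by
      have := A_pos h0 h1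
      have := (H_pos ht).le
      unfold gam; positivity
    have := J_nonneg hX hY
    have h2 : gam t * ((X - Y) / 2) ≤ 0 := mul_nonpos_of_nonneg_of_nonpos hg (by linarith)
    have h3 : 0 ≤ nu t * ((H X + H Y) / 2) := by positivity
    linarith
  · obtain ⟨x1, x2⟩ := abs_lt.mp hX
    obtain ⟨y1, y2⟩ := abs_lt.mp hY
    have hB : 0 < (A X - A Y) / 2 := by
      have a1 : log (1 + Y) < log (1 + X) := log_lt_log (by linarith) (by linarith)
      have a2 : log (1 - X) < log (1 - Y) := log_lt_log (by linarith) (by linarith)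
      simp only [A]; linarith
    obtain ⟨s, s0, s1, hs⟩ := CP.exists_A hB
    have hs' : |s| < 1 := abs_lt.mpr ⟨by linarith, s1⟩
    have hs'' : |-s| < 1 := by rwa [abs_neg]
    have e1 := CP.pair_sub hX hY
    have e2 := CP.pair_H hX hY
    have e3 := CP.pair_sub hs' hs''
    have e4 := CP.pair_H hs' hs''
    have f1 : A s + A (-s) = 0 := by rw [A_neg]; ring
    have f2 : A s - A (-s) = A X - A Y := by rw [A_neg, hs]; ring
    rw [f1, f2] at e3 e4
    rw [H_neg] at e4
    have hb := one_le_cosh (A X - A Y)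
    have hP := CP.Psi_ge hb (A X + A Y)
    have hS : 0 < sinh (A X - A Y) := sinh_pos_iff.mpr (by linarith)
    have c1 : 0 < cosh (A X + A Y) + cosh (A X - A Y) := by
      have := cosh_pos (A X + A Y); linarith
    have c0 : 0 < cosh 0 + cosh (A X - A Y) := by have := cosh_pos 0; linarith
    generalize cosh (A X + A Y) + cosh (A X - A Y) = C at e1 e2 c1
    generalize cosh 0 + cosh (A X - A Y) = C0 at e3 e4 c0
    have k : (X - Y) * H s ≤ (H X + H Y) * s := by
      refine le_of_mul_le_mul_right ?_ (mul_pos c1 c0)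
      have g1 : (X - Y) * H s * (C * C0) = (X - Y) * C * ((H s + H s) * C0) / 2 := by ring
      have g2 : (H X + H Y) * s * (C * C0) = (H X + H Y) * C * ((s - -s) * C0) / 2 := by ring
      rw [g1, g2, e1, e2, e3, e4]
      nlinarith
    have k2 : (X - Y) / 2 * (H s / s) ≤ (H X + H Y) / 2 := by
      rw [← mul_div_assoc, div_le_iff₀ s0]; linarith
    have k3 := mul_le_mul_of_nonneg_right (gam_le h0 h1 s0 s1) (show 0 ≤ (X - Y) / 2 by linarith)
    have k4 := mul_le_mul_of_nonneg_left k2 hnu
    have k5 : (A s + nu t * H s / s) * ((X - Y) / 2) =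
        J X Y + nu t * ((X - Y) / 2 * (H s / s)) := by
      rw [hs, J]; ring
    linarith

end Vale.Agent.P322.CK
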