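import Vale.Agent.P322.FunA

/-! First lower bound for the cost of one coordinate. -/

namespace Vale.Agent.P322.CK

open Real Set

namespace CT

theorem mvt_pos {f g : ℝ → ℝ} {a b : ℝ} (hab : a < b) (hc : ContinuousOn f (Icc a b))
    (hd : ∀ x ∈ Ioo a b, HasDerivAt f (g x) x) (h : f a < f b) : ∃ x ∈ Ioo a b, 0 < g x := by
  obtain ⟨x, hx, e⟩ := exists_hasDerivAt_eq_slope f g hab hc hd
  exact ⟨x, hx, e ▸ div_pos (sub_pos.mpr h) (sub_pos.mpr hab)⟩

theorem mvt_neg {f g : ℝ → ℝ} {a b : ℝ} (hab : a < b) (hc : ContinuousOn f (Icc a b))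
    (hd : ∀ x ∈ Ioo a b, HasDerivAt f (g x) x) (h : f b < f a) : ∃ x ∈ Ioo a b, g x < 0 := by
  obtain ⟨x, hx, e⟩ := exists_hasDerivAt_eq_slope f g hab hc hd
  exact ⟨x, hx, e ▸ div_neg_of_neg_of_pos (sub_neg.mpr h) (sub_pos.mpr hab)⟩

theorem end_ineq {z : ℝ} (h0 : 0 ≤ z) (h1 : z < 1) : (1 - z ^ 2) * A z ≤ 2 * z * H z := by
  rcases h0.eq_or_lt with rfl | h0
  · simp [A_zero]
  by_contra hc
  have hcont : Continuous fun x : ℝ => 2 * x * H x - (1 - x ^ 2) * A x := by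
    have e : (fun x : ℝ => 2 * x * H x - (1 - x ^ 2) * A x) = fun x : ℝ => 2 * x * H x -
        ((1 - x) * ((1 + x) * log (1 + x)) - (1 + x) * ((1 - x) * log (1 - x))) / 2 := by
      funext x; simp only [A]; ring
    have c1 : Continuous fun x : ℝ => (1 + x) * log (1 + x) :=
      continuous_mul_log.comp (continuous_const.add continuous_id)
    have c2 : Continuous fun x : ℝ => (1 - x) * log (1 - x) :=
      continuous_mul_log.comp (continuous_const.sub continuous_id)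
    have c3 := continuous_H
    rw [e]
    fun_prop
  have hder : ∀ x : ℝ, 0 < x → x < 1 →
      HasDerivAt (fun x : ℝ => 2 * x * H x - (1 - x ^ 2) * A x) (2 * H x - 1) x := by
    intro x x0 x1
    have hx : |x| < 1 := abs_lt.mpr ⟨by linarith, x1⟩
    have hne : 1 - x ^ 2 ≠ 0 := by nlinarith
    have d := (((hasDerivAt_id' x).const_mul 2).mul (hasDerivAt_H hx)).sub
      (((hasDerivAt_pow 2 x).const_sub 1).mul (hasDerivAt_A hx))
    refine d.congr_deriv ?_
    field_simp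
    ring
  obtain ⟨x, hx, e1⟩ := mvt_neg (g := fun x => 2 * H x - 1) h0 hcont.continuousOn
    (fun x hx => hder x hx.1 (hx.2.trans h1)) (by simp only [A_zero]; linarith)
  obtain ⟨y, hy, e2⟩ := mvt_pos (g := fun x => 2 * H x - 1) h1 hcont.continuousOn
    (fun x hx => hder x (h0.trans hx.1) hx.2) (by simp only [H_one]; linarith)
  have := H_strictAnti ⟨hx.1.le, (hx.2.trans h1).le⟩ ⟨(h0.trans hy.1).le, hy.2.le⟩
    (hx.2.trans hy.1)
  linarith

theorem c_aux {z c Z : ℝ} (h0 : 0 ≤ z) (h1 : z < 1) (hZ : |Z| < 1) (hc : 1 / (1 - z ^ 2) ≤ 2 * c)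
    (e1 : ell 1 - ell z - A z * (1 - z) ≤ c * (1 - z) ^ 2)
    (e2 : ell (-1) - ell z - A z * (-1 - z) ≤ c * (-1 - z) ^ 2) :
    ell Z - ell z - A z * (Z - z) ≤ c * (Z - z) ^ 2 := by
  obtain ⟨Z1, Z2⟩ := abs_lt.mp hZ
  by_contra hn
  have hcont : Continuous fun x : ℝ => c * (x - z) ^ 2 - (ell x - ell z - A z * (x - z)) := by
    have := continuous_ell
    fun_prop
  have hd1 : ∀ x : ℝ, -1 < x → x < 1 →
      HasDerivAt (fun x : ℝ => c * (x - z) ^ 2 - (ell x - ell z - A z * (x - z)))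
        (2 * c * (x - z) - (A x - A z)) x := by
    intro x x0 x1
    have hx : |x| < 1 := abs_lt.mpr ⟨x0, x1⟩
    have d0 := (hasDerivAt_id' x).sub_const z
    have d := ((d0.pow 2).const_mul c).sub
      (((hasDerivAt_ell hx).sub_const (ell z)).sub (d0.const_mul (A z)))
    refine d.congr_deriv ?_
    norm_num
    ring
  have hd2 : ∀ x : ℝ, -1 < x → x < 1 →
      HasDerivAt (fun x : ℝ => 2 * c * (x - z) - (A x - A z)) (2 * c - 1 / (1 - x ^ 2)) x := by
    intro x x0 x1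
    have hx : |x| < 1 := abs_lt.mpr ⟨x0, x1⟩
    have d := (((hasDerivAt_id' x).sub_const z).const_mul (2 * c)).sub
      ((hasDerivAt_A hx).sub_const (A z))
    refine d.congr_deriv ?_
    ring
  have hc2 : ∀ a b : ℝ, -1 < a → b < 1 →
      ContinuousOn (fun x : ℝ => 2 * c * (x - z) - (A x - A z)) (Icc a b) := fun a b ha hb x hx =>
    (hd2 x (ha.trans_le hx.1) (hx.2.trans_lt hb)).continuousAt.continuousWithinAt
  have hq : ∀ a b : ℝ, -1 < b → b < 1 → -1 < a → a < 1 → 1 / (1 - a ^ 2) < 1 / (1 - b ^ 2) →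
      a ^ 2 < b ^ 2 := fun a b b0 b1 a0 a1 h => by
    have := lt_of_one_div_lt_one_div (by nlinarith) h
    linarith
  rcases lt_trichotomy Z z with hlt | rfl | hlt
  · obtain ⟨x, hx, p1⟩ := mvt_pos (g := fun x => 2 * c * (x - z) - (A x - A z)) hlt
      hcont.continuousOn (fun x hx => hd1 x (Z1.trans hx.1) (hx.2.trans h1)) (by linarith)
    obtain ⟨y, hy, p2⟩ := mvt_neg (g := fun x => 2 * c * (x - z) - (A x - A z)) Z1
      hcont.continuousOn (fun x hx => hd1 x hx.1 (hx.2.trans Z2)) (by linarith)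
    have x1 : x < 1 := hx.2.trans h1
    have x0 : -1 < x := Z1.trans hx.1
    obtain ⟨a, ha, q1⟩ := mvt_pos (g := fun x => 2 * c - 1 / (1 - x ^ 2)) (hy.2.trans hx.1)
      (hc2 y x hy.1 x1) (fun u hu => hd2 u (hy.1.trans hu.1) (hu.2.trans x1)) (by linarith)
    obtain ⟨b, hb, q2⟩ := mvt_neg (g := fun x => 2 * c - 1 / (1 - x ^ 2)) hx.2
      (hc2 x z x0 h1) (fun u hu => hd2 u (x0.trans hu.1) (hu.2.trans h1)) (by linarith)
    have b0 := x0.trans hb.1
    have b1 := hb.2.trans h1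
    have r1 := hq a b b0 b1 (hy.1.trans ha.1) (ha.2.trans x1) (by linarith)
    have r2 := hq z b b0 b1 (by linarith) h1 (by linarith)
    have u1 := ha.2.trans hb.1
    have u2 := hb.2
    rcases le_total b 0 with u3 | u3
    · nlinarith
    · nlinarith
  · simp at hn
  · obtain ⟨x, hx, p1⟩ := mvt_neg (g := fun x => 2 * c * (x - z) - (A x - A z)) hlt
      hcont.continuousOn (fun x hx => hd1 x (by linarith [hx.1]) (hx.2.trans Z2)) (by linarith)
    obtain ⟨y, hy, p2⟩ := mvt_pos (g := fun x => 2 * c * (x - z) - (A x - A z)) Z2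
      hcont.continuousOn (fun x hx => hd1 x (Z1.trans hx.1) hx.2) (by linarith)
    have x1 : x < 1 := hx.2.trans Z2
    have x0 : -1 < x := by linarith [hx.1]
    obtain ⟨a, ha, q1⟩ := mvt_neg (g := fun x => 2 * c - 1 / (1 - x ^ 2)) hx.1
      (hc2 z x (by linarith) x1) (fun u hu => hd2 u (by linarith [hu.1]) (hu.2.trans x1))
      (by linarith)
    obtain ⟨b, hb, q2⟩ := mvt_pos (g := fun x => 2 * c - 1 / (1 - x ^ 2)) (hx.2.trans hy.1)
      (hc2 x y x0 hy.2) (fun u hu => hd2 u (x0.trans hu.1) (hu.2.trans hy.2)) (by linarith)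
    have r1 := hq b a (by linarith [ha.1]) (ha.2.trans x1) (x0.trans hb.1) (hb.2.trans hy.2)
      (by linarith)
    have := ha.2.trans hb.1
    have := ha.1
    nlinarith

theorem log_ge {z : ℝ} (h0 : 0 ≤ z) : (1 - z) / 2 ≤ log (2 / (1 + z)) := by
  have := one_sub_inv_le_log_of_pos (show 0 < 2 / (1 + z) by positivity)
  rw [inv_div] at this
  linarith

end CT

theorem c_lemma {z Z : ℝ} (h0 : 0 ≤ z) (h1 : z < 1) (hZ : |Z| < 1) :
    (1 - z) ^ 2 * (ell Z - ell z - A z * (Z - z)) ≤ log (2 / (1 + z)) * (Z - z) ^ 2 := by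
  have hz : |z| < 1 := abs_lt.mpr ⟨by linarith, h1⟩
  have p1 : 0 < 1 - z := by linarith
  have p2 : 0 < (1 - z) ^ 2 := by positivity
  have hl := CT.log_ge h0
  have eH := H_eq hz
  have eE := CT.end_ineq h0 h1
  obtain ⟨c, hc⟩ : ∃ c, log (2 / (1 + z)) = c * (1 - z) ^ 2 :=
    ⟨log (2 / (1 + z)) / (1 - z) ^ 2, by field_simp⟩
  have eH' : H z = log 2 - ell z := rfl
  have key := CT.c_aux (c := c) h0 h1 hZ ?_ ?_ ?_
  · rw [hc]
    have := mul_le_mul_of_nonneg_left key p2.le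
    linarith
  · rw [div_le_iff₀ (by nlinarith)]
    have c1 : 1 ≤ 2 * c * (1 - z) := by
      refine le_of_mul_le_mul_right ?_ p1
      nlinarith
    nlinarith
  · rw [ell_one]; linarith
  · rw [ell_neg, ell_one]
    refine le_of_mul_le_mul_right ?_ p2
    have g1 : c * (-1 - z) ^ 2 * (1 - z) ^ 2 = (H z - (1 - z) * A z) * (1 + z) ^ 2 := by
      have : c * (1 - z) ^ 2 = H z - (1 - z) * A z := by linarith
      rw [← this]; ring
    rw [g1, ← eH']
    nlinarith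

namespace CT

noncomputable def phi (k t : ℝ) : ℝ := t * A t - k * ell t - (1 - k / 2) * t ^ 2
noncomputable def dphi (k t : ℝ) : ℝ := A t + t / (1 - t ^ 2) - k * A t - (2 - k) * t

theorem hasDerivAt_phi (k : ℝ) {t : ℝ} (h : |t| < 1) : HasDerivAt (phi k) (dphi k t) t := by
  have d := (((hasDerivAt_id' t).mul (hasDerivAt_A h)).sub
    ((hasDerivAt_ell h).const_mul k)).sub ((hasDerivAt_pow 2 t).const_mul (1 - k / 2))
  refine d.congr_deriv ?_
  simp only [dphi]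
  norm_num
  ring

theorem hasDerivAt_dphi (k : ℝ) {t : ℝ} (h : |t| < 1) :
    HasDerivAt (dphi k) ((1 / (1 - t ^ 2) - 1) * (2 * (1 / (1 - t ^ 2)) + 2 - k)) t := by
  obtain ⟨t0, t1⟩ := abs_lt.mp h
  have hne : 1 - t ^ 2 ≠ 0 := by nlinarith
  have d := (((hasDerivAt_A h).add ((hasDerivAt_id' t).div ((hasDerivAt_pow 2 t).const_sub 1)
    hne)).sub ((hasDerivAt_A h).const_mul k)).sub ((hasDerivAt_id' t).const_mul (2 - k))
  refine d.congr_deriv ?_
  norm_num
  field_simp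
  ring

theorem dphi_mono {k : ℝ} (hk : k ≤ 2) : MonotoneOn (dphi k) (Ioo (-1) 1) := by
  have hd : ∀ x ∈ Ioo (-1 : ℝ) 1, HasDerivAt (dphi k) _ x := fun x hx =>
    hasDerivAt_dphi k (abs_lt.mpr hx)
  refine monotoneOn_of_deriv_nonneg (convex_Ioo _ _)
    (fun x hx => (hd x hx).continuousAt.continuousWithinAt)
    (fun x hx => (hd x (interior_subset hx)).differentiableAt.differentiableWithinAt)
    fun x hx => ?_
  have hx' : x ∈ Ioo (-1 : ℝ) 1 := interior_subset hx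
  rw [(hd x hx').deriv]
  have h1 : 0 < 1 - x ^ 2 := by nlinarith [hx'.1, hx'.2]
  have h2 : 1 ≤ 1 / (1 - x ^ 2) := by rw [le_div_iff₀ h1]; nlinarith
  exact mul_nonneg (by linarith) (by linarith)

theorem phi_tangent {k s t : ℝ} (hk : k ≤ 2) (hs : |s| < 1) (ht : |t| < 1) :
    phi k s + dphi k s * (t - s) ≤ phi k t := by
  have hs' := abs_lt.mp hs
  have ht' := abs_lt.mp ht
  rcases lt_trichotomy s t with h | rfl | h
  · have hd : ∀ x ∈ Icc s t, HasDerivAt (phi k) (dphi k x) x := fun x hx =>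
      hasDerivAt_phi k (abs_lt.mpr ⟨hs'.1.trans_le hx.1, hx.2.trans_lt ht'.2⟩)
    obtain ⟨x, hx, e⟩ := exists_hasDerivAt_eq_slope (phi k) (dphi k) h
      (fun x hx => (hd x hx).continuousAt.continuousWithinAt)
      (fun x hx => hd x (Ioo_subset_Icc_self hx))
    have := dphi_mono hk hs' ⟨hs'.1.trans hx.1, hx.2.trans ht'.2⟩ hx.1.le
    rw [e, le_div_iff₀ (sub_pos.mpr h)] at this
    linarith
  · simp
  · have hd : ∀ x ∈ Icc t s, HasDerivAt (phi k) (dphi k x) x := fun x hx =>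
      hasDerivAt_phi k (abs_lt.mpr ⟨ht'.1.trans_le hx.1, hx.2.trans_lt hs'.2⟩)
    obtain ⟨x, hx, e⟩ := exists_hasDerivAt_eq_slope (phi k) (dphi k) h
      (fun x hx => (hd x hx).continuousAt.continuousWithinAt)
      (fun x hx => hd x (Ioo_subset_Icc_self hx))
    have := dphi_mono hk ⟨ht'.1.trans hx.1, hx.2.trans hs'.2⟩ hs' hx.2.le
    rw [e, div_le_iff₀ (sub_pos.mpr h)] at this
    linarith

theorem decomp (k : ℝ) {Z D : ℝ} (h1 : |Z + D| < 1) (h2 : |Z - D| < 1) :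
    J (Z + D) (Z - D) + k * Hb Z D = (1 + Z) / 2 * phi k (D / (1 + Z)) +
      (1 - Z) / 2 * phi k (D / (1 - Z)) + (1 - k / 2) * (D ^ 2 / (1 - Z ^ 2)) + k * H Z := by
  obtain ⟨a1, a2⟩ := abs_lt.mp h1
  obtain ⟨b1, b2⟩ := abs_lt.mp h2
  have n1 : 1 + Z ≠ 0 := by linarith
  have n2 : 1 - Z ≠ 0 := by linarith
  have e : Hb Z D = H Z - ((1 + Z) / 2 * ell (D / (1 + Z)) + (1 - Z) / 2 * ell (D / (1 - Z))) := by
    rw [← j_split h1 h2]; ring
  rw [e, J_split h1 h2, phi, phi, show 1 - Z ^ 2 = (1 + Z) * (1 - Z) by ring]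
  generalize A (D / (1 + Z)) = a
  generalize A (D / (1 - Z)) = a'
  generalize ell (D / (1 + Z)) = l
  generalize ell (D / (1 - Z)) = l'
  field_simp
  ring

theorem abs_div_lt {Z D : ℝ} (h1 : |Z + D| < 1) (h2 : |Z - D| < 1) :
    |D / (1 + Z)| < 1 ∧ |D / (1 - Z)| < 1 := by
  obtain ⟨a1, a2⟩ := abs_lt.mp h1
  obtain ⟨b1, b2⟩ := abs_lt.mp h2
  have n1 : 0 < 1 + Z := by linarith
  have n2 : 0 < 1 - Z := by linarith
  rw [abs_div, abs_div, abs_of_pos n1, abs_of_pos n2, div_lt_one n1, div_lt_one n2, abs_lt, abs_lt]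
  refine ⟨⟨?_, ?_⟩, ?_, ?_⟩ <;> linarith

theorem persp {k P D s : ℝ} (hk : k ≤ 2) (hP : 0 < P) (hs : |s| < 1) (ht : |D / P| < 1) :
    P / 2 * (phi k s - s * dphi k s) + dphi k s * D / 2 ≤ P / 2 * phi k (D / P) := by
  have h := mul_le_mul_of_nonneg_left (phi_tangent hk hs ht) (show 0 ≤ P / 2 by positivity)
  have e : P / 2 * (phi k s + dphi k s * (D / P - s)) =
      P / 2 * (phi k s - s * dphi k s) + dphi k s * D / 2 := by
    field_simp
    ring
  linarith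

theorem main {z d k : ℝ} (hz : 0 ≤ z) (hd : 0 < d) (h : z + d < 1) (hk : k ≤ 2)
    (hc : ∀ Z, |Z| < 1 →
      k * (ell Z - ell z - A z * (Z - z)) ≤ (1 - k / 2) * ((d / (1 - z ^ 2)) ^ 2 * (Z - z) ^ 2)) :
    ∃ a b : ℝ, ∀ Z D : ℝ, |Z + D| < 1 → |Z - D| < 1 →
      J (z + d) (z - d) + k * Hb z d + a * (Z - z) + b * (D - d) ≤
        J (Z + D) (Z - D) + k * Hb Z D := by
  have h1 : |z + d| < 1 := abs_lt.mpr ⟨by linarith, h⟩
  have h2 : |z - d| < 1 := abs_lt.mpr ⟨by linarith, by linarith⟩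
  obtain ⟨s1, s2⟩ := abs_div_lt h1 h2
  have n1 : 0 < 1 + z := by linarith
  have n2 : 0 < 1 - z := by linarith
  have n3 : 0 < 1 - z ^ 2 := by nlinarith
  refine ⟨((phi k (d / (1 + z)) - d / (1 + z) * dphi k (d / (1 + z))) -
      (phi k (d / (1 - z)) - d / (1 - z) * dphi k (d / (1 - z)))) / 2 +
      (1 - k / 2) * (2 * (d / (1 - z ^ 2)) ^ 2 * z) - k * A z,
    (dphi k (d / (1 + z)) + dphi k (d / (1 - z))) / 2 + (1 - k / 2) * (2 * (d / (1 - z ^ 2))),
    fun Z D H1 H2 => ?_⟩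
  obtain ⟨a1, a2⟩ := abs_lt.mp H1
  obtain ⟨b1, b2⟩ := abs_lt.mp H2
  obtain ⟨t1, t2⟩ := abs_div_lt H1 H2
  have hZ : |Z| < 1 := abs_lt.mpr ⟨by linarith, by linarith⟩
  have m3 : 0 < 1 - Z ^ 2 := by nlinarith
  have p1 := persp hk (show 0 < 1 + Z by linarith) s1 t1
  have p2 := persp hk (show 0 < 1 - Z by linarith) s2 t2
  have p3 := hc Z hZ
  have e1 : (1 + z) * (d / (1 + z)) = d := by field_simp
  have e2 : (1 - z) * (d / (1 - z)) = d := by field_simp
  have e3 : d ^ 2 / (1 - z ^ 2) = d / (1 - z ^ 2) * d := by ring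
  have e4 : (1 - z ^ 2) * (d / (1 - z ^ 2)) = d := by field_simp
  rw [decomp k h1 h2, decomp k H1 H2, e3]
  generalize d / (1 - z ^ 2) = l at p3 e4 ⊢
  have p4 : 2 * l * D - l ^ 2 * (1 - Z ^ 2) ≤ D ^ 2 / (1 - Z ^ 2) := by
    rw [le_div_iff₀ m3]
    nlinarith [sq_nonneg (D - l * (1 - Z ^ 2))]
  have p5 := mul_le_mul_of_nonneg_left p4 (show 0 ≤ 1 - k / 2 by linarith)
  generalize D ^ 2 / (1 - Z ^ 2) = W at p5 ⊢
  generalize phi k (D / (1 + Z)) = F1 at p1 ⊢
  generalize phi k (D / (1 - Z)) = F2 at p2 ⊢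
  generalize phi k (d / (1 + z)) = f1 at p1 ⊢
  generalize phi k (d / (1 - z)) = f2 at p2 ⊢
  generalize dphi k (d / (1 + z)) = g1 at p1 ⊢
  generalize dphi k (d / (1 - z)) = g2 at p2 ⊢
  generalize d / (1 + z) = u1 at p1 e1 ⊢
  generalize d / (1 - z) = u2 at p2 e2 ⊢
  simp only [H]
  have q1 : g1 * ((1 + z) * u1) = g1 * d := by rw [e1]
  have q2 : g2 * ((1 - z) * u2) = g2 * d := by rw [e2]
  have q3 : (1 - k / 2) * l * ((1 - z ^ 2) * l) = (1 - k / 2) * l * d := by rw [e4]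
  linarith

end CT

theorem costT {z d : ℝ} (hz : 0 ≤ z) (hd : 0 < d) (h : z + d < 1) :
    ∃ a b : ℝ, ∀ X Y : ℝ, |X| < 1 → |Y| < 1 →
      J (z + d) (z - d) + tau z d * Hb z d + a * ((X + Y) / 2 - z) + b * ((X - Y) / 2 - d) ≤
        J X Y + tau z d * ((H X + H Y) / 2) := by
  have n1 : 0 < 1 + z := by linarith
  have n2 : 0 < 1 - z := by linarith
  have hl : 0 < log (2 / (1 + z)) := by have := CT.log_ge hz; linarith
  have hk : 0 < kT z d := by unfold kT; positivity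
  have e : tau z d = kT z d * (1 - tau z d / 2) := by
    unfold tau; field_simp; ring
  have ht : tau z d ≤ 2 := by
    unfold tau; rw [div_le_iff₀ (by positivity)]; linarith
  obtain ⟨a, b, hab⟩ := CT.main hz hd h ht (fun Z hZ => by
    have c := c_lemma hz (by linarith) hZ
    have c2 : kT z d * (ell Z - ell z - A z * (Z - z)) ≤ (d / (1 - z ^ 2)) ^ 2 * (Z - z) ^ 2 := by
      have c3 := mul_le_mul_of_nonneg_left c
        (show 0 ≤ kT z d / (1 - z) ^ 2 by positivity)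
      have g1 : kT z d / (1 - z) ^ 2 * ((1 - z) ^ 2 * (ell Z - ell z - A z * (Z - z))) =
          kT z d * (ell Z - ell z - A z * (Z - z)) := by field_simp
      have g2 : kT z d / (1 - z) ^ 2 * (log (2 / (1 + z)) * (Z - z) ^ 2) =
          (d / (1 - z ^ 2)) ^ 2 * (Z - z) ^ 2 := by
        rw [show 1 - z ^ 2 = (1 + z) * (1 - z) by ring, kT]
        field_simp
      linarith
    have c4 := mul_le_mul_of_nonneg_left c2 (show 0 ≤ 1 - tau z d / 2 by linarith)
    calc _ = (1 - tau z d / 2) * (kT z d * (ell Z - ell z - A z * (Z - z))) := by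
          rw [← mul_assoc, mul_comm (1 - tau z d / 2), ← e]
      _ ≤ _ := c4)
  refine ⟨a, b, fun X Y hX hY => ?_⟩
  have e1 : (X + Y) / 2 + (X - Y) / 2 = X := by ring
  have e2 : (X + Y) / 2 - (X - Y) / 2 = Y := by ring
  have := hab ((X + Y) / 2) ((X - Y) / 2) (by rwa [e1]) (by rwa [e2])
  rwa [Hb, Hb, e1, e2] at this

end Vale.Agent.P322.CK
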