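import Vale.Agent.P322.Step

/-! The entropy production inequality on the cube. -/

namespace Vale.Agent.P322.CK

open Real Set

/-- flip coordinate `i` -/
def fl {n : ℕ} (i : Fin n) (x : Fin n → Bool) : Fin n → Bool := Function.update x i (!x i)

/-- mean entropy -/
noncomputable def Sent {n : ℕ} (u : (Fin n → Bool) → ℝ) : ℝ := av fun x => H (u x)

/-- entropy production -/
noncomputable def En {n : ℕ} (u : (Fin n → Bool) → ℝ) : ℝ :=
  ∑ i, av fun x => J (u x) (u (fl i x))

namespace Cb

theorem av_cons {n : ℕ} (f : (Fin (n + 1) → Bool) → ℝ) :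
    av f = (av (fun o : Fin n → Bool => f (Fin.cons true o))
      + av (fun o : Fin n → Bool => f (Fin.cons false o))) / 2 := by
  have e : ∑ x, f x = ∑ o : Fin n → Bool, f (Fin.cons true o)
      + ∑ o : Fin n → Bool, f (Fin.cons false o) := by
    rw [← (Fin.consEquiv fun _ => Bool).sum_comp, Fintype.sum_prod_type, Fintype.sum_bool]
    rfl
  simp only [av, e, Fintype.card_pi, Fintype.card_bool, Finset.prod_const, Finset.card_univ,
    Fintype.card_fin]
  push_cast
  field_simp
  ring

theorem fl_zero {n : ℕ} (b : Bool) (o : Fin n → Bool) :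
    fl 0 (Fin.cons b o : Fin (n + 1) → Bool) = Fin.cons (!b) o := by
  rw [fl, Fin.update_cons_zero, Fin.cons_zero]

theorem fl_succ {n : ℕ} (b : Bool) (o : Fin n → Bool) (i : Fin n) :
    fl i.succ (Fin.cons b o : Fin (n + 1) → Bool) = Fin.cons b (fl i o) := by
  rw [fl, fl, Fin.cons_update, Fin.cons_succ]

theorem En_cons {n : ℕ} (u : (Fin (n + 1) → Bool) → ℝ) :
    En u = av (fun o : Fin n → Bool => J (u (Fin.cons true o)) (u (Fin.cons false o)))
      + (En (fun o : Fin n → Bool => u (Fin.cons true o))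
        + En (fun o : Fin n → Bool => u (Fin.cons false o))) / 2 := by
  unfold En
  rw [Fin.sum_univ_succ]
  simp only [av_cons, fl_zero, fl_succ, Bool.not_true, Bool.not_false,
    J_comm (u (Fin.cons false _)) (u (Fin.cons true _)), ← Finset.sum_div, Finset.sum_add_distrib]
  ring

end Cb

theorem club {n : ℕ} (u : (Fin n → Bool) → ℝ) (hu : ∀ x, |u x| < 1) {r : ℝ} (h0 : 0 ≤ r)
    (h1 : r < 1) :
    w (av u) * beta r + 2 * (H (av u) - log 2 * w (av u)) ≤ En u + mu r * Sent u := by
  induction n generalizing r with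
  | zero =>
    have e : ∀ f : (Fin 0 → Bool) → ℝ, av f = f default := fun f => by
      rw [← St.av_const (Ω := Fin 0 → Bool) (f default)]
      exact congrArg av (funext fun x => congrArg f (Subsingleton.elim _ _))
    rw [Sent, e, e, En]
    have a1 := L7 (hu default)
    have a2 := two_le_mu h0 h1
    have a3 := le_mu_ell h0 h1
    have a4 := w_pos (hu default)
    have a5 : beta r ≤ mu r * log 2 := by
      rw [beta, show H r = log 2 - ell r from rfl]; linarith
    have a6 := mul_le_mul_of_nonneg_left a5 a4.le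
    have a7 := mul_le_mul_of_nonneg_left a1 (sub_nonneg.2 a2)
    simp only [Finset.univ_eq_empty, Finset.sum_empty]
    linarith
  | succ n ih =>
    obtain ⟨X, hX⟩ : ∃ X : (Fin n → Bool) → ℝ, X = fun o => u (Fin.cons true o) := ⟨_, rfl⟩
    obtain ⟨Y, hY⟩ : ∃ Y : (Fin n → Bool) → ℝ, Y = fun o => u (Fin.cons false o) := ⟨_, rfl⟩
    have bX : ∀ o, |X o| < 1 := fun o => by rw [hX]; exact hu _
    have bY : ∀ o, |Y o| < 1 := fun o => by rw [hY]; exact hu _
    have e1 : av u = (av X + av Y) / 2 := by rw [hX, hY]; exact Cb.av_cons u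
    have e2 : En u = av (fun o => J (X o) (Y o)) + (En X + En Y) / 2 := by
      rw [hX, hY]; exact Cb.En_cons u
    have e3 : (av fun o => (H (X o) + H (Y o)) / 2) = (Sent X + Sent Y) / 2 := by
      rw [St.av_div, St.av_add]; rfl
    have e4 : Sent u = (Sent X + Sent Y) / 2 := by rw [hX, hY]; exact Cb.av_cons _
    have k := step2 X Y bX bY
    have sp := St.av_Hb_pos bX bY
    rw [e3, ← e4] at k sp
    rw [← e1] at k
    have q := Q_ge (w_pos (St.abs_av_lt hu)) sp h0 h1
    have i1 := ih X bX (rho_nonneg ((w (av X) + w (av Y)) / 2 / Sent u)) (rho_lt_one _)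
    have i2 := ih Y bY (rho_nonneg ((w (av X) + w (av Y)) / 2 / Sent u)) (rho_lt_one _)
    rw [Q.eq_1 ((w (av X) + w (av Y)) / 2)] at k
    generalize rho ((w (av X) + w (av Y)) / 2 / Sent u) = r' at k i1 i2
    have e5 : mu r' * Sent u = (mu r' * Sent X + mu r' * Sent Y) / 2 := by rw [e4]; ring
    rw [e2]
    linarith

end Vale.Agent.P322.CK
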