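import Mathlib

/-! Definitions for the Courtade-Kumar problem. The cube is `Fin n → Bool`. -/

namespace Vale.Agent.P322

open Finset

/-- binary entropy in bits -/
noncomputable def h2 (p : ℝ) : ℝ := -p * Real.logb 2 p - (1 - p) * Real.logb 2 (1 - p)

/-- transition probability of `n` independent binary symmetric channels with crossover `ε` -/
noncomputable def chan {n : ℕ} (ε : ℝ) (x y : Fin n → Bool) : ℝ :=
  ∏ i, if x i = y i then 1 - ε else ε

/-- joint law `P(f(X) = b, Y = y)` for `X` uniform on the cube -/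
noncomputable def joint {n : ℕ} (ε : ℝ) (f : (Fin n → Bool) → Bool) (b : Bool)
    (y : Fin n → Bool) : ℝ :=
  ∑ x : Fin n → Bool, if f x = b then (1 / 2 ^ n) * chan ε x y else 0

/-- mutual information `I(f(X); Y)` in bits -/
noncomputable def mutInf {n : ℕ} (ε : ℝ) (f : (Fin n → Bool) → Bool) : ℝ :=
  ∑ b : Bool, ∑ y : Fin n → Bool, joint ε f b y *
    Real.logb 2 (joint ε f b y / ((∑ y', joint ε f b y') * (∑ b', joint ε f b' y)))

/-- flip the coordinates in `T` -/
def flip {n : ℕ} (T : Finset (Fin n)) (x : Fin n → Bool) : Fin n → Bool :=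
  fun i => if i ∈ T then !(x i) else x i

end Vale.Agent.P322
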