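import Vale.Agent.P322.KapA

/-! The step inequality at maximal entropy. -/

namespace Vale.Agent.P322.CK

open Real Set

theorem EA.ell_pos {x : ℝ} (h0 : 0 < x) (h1 : x < 1) : 0 < ell x :=
  lt_of_lt_of_le (by positivity) (ell_ge (KA.abs_lt_one_of h0.le h1).le)

theorem EA.ell_nonneg {x : ℝ} (h : |x| ≤ 1) : 0 ≤ ell x := le_trans (by positivity) (ell_ge h)

noncomputable def EA.U (x : ℝ) : ℝ := (mu x * ell x - x * A x) / ell x ^ 2

theorem EA.hasDerivAt_xA {x : ℝ} (h0 : 0 < x) (h1 : x < 1) :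
    HasDerivAt (fun x => x * A x) (mu x * A x) x := by
  have := (hasDerivAt_id' x).mul (hasDerivAt_A (KA.abs_lt_one_of h0.le h1))
  exact this.congr_deriv (by rw [mu_mul_A h0 h1]; ring)

theorem EA.hasDerivAt_U {x : ℝ} (h0 : 0 < x) (h1 : x < 1) : HasDerivAt EA.U
    ((dmu x * ell x ^ 2 - 2 * A x * (mu x * ell x - x * A x)) / ell x ^ 3) x := by
  have hl := hasDerivAt_ell (KA.abs_lt_one_of h0.le h1)
  have hp := EA.ell_pos h0 h1
  have := (((hasDerivAt_mu h0 h1).mul hl).sub (EA.hasDerivAt_xA h0 h1)).div (hl.pow 2)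
    (pow_pos hp 2).ne'
  refine this.congr_deriv ?_
  simp only [Pi.pow_apply, Pi.sub_apply, Pi.mul_apply]
  field_simp
  push_cast
  ring

theorem EA.U_mono {x y : ℝ} (h0 : 0 < x) (h : x ≤ y) (h1 : y < 1) : EA.U x ≤ EA.U y :=
  KA.le_of_deriv_nonneg h
    (fun _ ht => (EA.hasDerivAt_U (h0.trans_le ht.1) (ht.2.trans_lt h1)).continuousAt.continuousWithinAt)
    (fun _ ht => EA.hasDerivAt_U (h0.trans ht.1) (ht.2.trans h1))
    fun _ ht => div_nonneg (sub_nonneg.2 (L4 (h0.trans ht.1) (ht.2.trans h1)))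
      (pow_pos (EA.ell_pos (h0.trans ht.1) (ht.2.trans h1)) 3).le

theorem EA.hasDerivAt_p (b : ℝ) {x : ℝ} (h0 : 0 < x) (h1 : x < 1) :
    HasDerivAt (fun x => x * A x / ell x - b * ell x) (A x * (EA.U x - b)) x := by
  have hl := hasDerivAt_ell (KA.abs_lt_one_of h0.le h1)
  have hp := EA.ell_pos h0 h1
  have := ((EA.hasDerivAt_xA h0 h1).div hl hp.ne').sub (hl.const_mul b)
  refine this.congr_deriv ?_
  rw [EA.U]
  field_simp

theorem q_lemma {r v : ℝ} (h0 : 0 < r) (h1 : r < 1) (hv0 : 0 ≤ v) (hv1 : v < 1) :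
    (mu r - 2 - 2 * ((mu r * ell r - r * A r) / ell r)) * ell v +
      (mu r * ell r - r * A r) / ell r ^ 2 * ell v ^ 2 ≤ v * A v - 2 * ell v := by
  rcases hv0.eq_or_lt with rfl | hv0
  · simp [ell_zero]
  have h : r * A r / ell r - EA.U r * ell r ≤ v * A v / ell v - EA.U r * ell v := by
    rcases le_total r v with h | h
    · exact KA.le_of_deriv_nonneg (f := fun x => x * A x / ell x - EA.U r * ell x) h
        (fun _ ht => (EA.hasDerivAt_p _ (h0.trans_le ht.1)
          (ht.2.trans_lt hv1)).continuousAt.continuousWithinAt)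
        (fun _ ht => EA.hasDerivAt_p _ (h0.trans ht.1) (ht.2.trans hv1))
        fun _ ht => mul_nonneg (A_pos (h0.trans ht.1) (ht.2.trans hv1)).le
          (sub_nonneg.2 (EA.U_mono h0 ht.1.le (ht.2.trans hv1)))
    · exact KA.le_of_deriv_nonpos (f := fun x => x * A x / ell x - EA.U r * ell x) h
        (fun _ ht => (EA.hasDerivAt_p _ (hv0.trans_le ht.1)
          (ht.2.trans_lt h1)).continuousAt.continuousWithinAt)
        (fun _ ht => EA.hasDerivAt_p _ (hv0.trans ht.1) (ht.2.trans h1))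
        fun _ ht => mul_nonpos_of_nonneg_of_nonpos (A_pos (hv0.trans ht.1) (ht.2.trans h1)).le
          (sub_nonpos.2 (EA.U_mono (hv0.trans ht.1) ht.2.le h1))
  have hr := EA.ell_pos h0 h1
  have hv := EA.ell_pos hv0 hv1
  have e1 : r * A r / ell r - EA.U r * ell r
      = mu r - 2 * ((mu r * ell r - r * A r) / ell r) := by
    rw [EA.U]; field_simp; ring
  have h2 := mul_le_mul_of_nonneg_right h hv.le
  rw [e1, sub_mul (v * A v / ell v), div_mul_cancel₀ _ hv.ne'] at h2
  rw [← EA.U]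
  linarith

theorem EA.quad {z x y W : ℝ} (l : ℝ) (hz : 0 ≤ z) (hp : 0 ≤ 1 - z) (x0 : 0 ≤ x) (y0 : 0 ≤ y)
    (hxy : (1 + z) * x ≤ (1 - z) * y) (hw : 1 - z ^ 2 ≤ W) (hw0 : 0 < W) :
    0 ≤ (1 + z) / 2 * x ^ 2 + (1 - z) / 2 * y ^ 2
      - 2 * l * ((1 + z) / 2 * x + (1 - z) / 2 * y) + W * l ^ 2 := by
  have c2 := mul_le_mul_of_nonneg_right hw
    (by positivity : 0 ≤ (1 + z) / 2 * x ^ 2 + (1 - z) / 2 * y ^ 2)
  have c3 := mul_nonneg hz (mul_nonneg (sub_nonneg.2 hxy)
    (add_nonneg (mul_nonneg (by linarith : 0 ≤ 1 + z) x0) (mul_nonneg hp y0)))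
  refine nonneg_of_mul_nonneg_right ?_ hw0
  linarith [sq_nonneg ((1 + z) * x - (1 - z) * y),
    sq_nonneg ((1 + z) / 2 * x + (1 - z) / 2 * y - W * l)]

theorem E1 {z d : ℝ} (hz : 0 ≤ z) (hd : 0 < d) (h : z + d < 1) :
    RR z d (Hb z d) ≤ J (z + d) (z - d) := by
  have a1 : |z + d| < 1 := abs_lt.2 ⟨by linarith, h⟩
  have a2 : |z - d| < 1 := abs_lt.2 ⟨by linarith, by linarith⟩
  have a3 : |z| < 1 := abs_lt.2 ⟨by linarith, by linarith⟩
  have hP : 0 < 1 + z := by linarith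
  have hp : 0 < 1 - z := by linarith
  have u0 : 0 < d / (1 + z) := by positivity
  have uv : d / (1 + z) ≤ d / (1 - z) := div_le_div_of_nonneg_left hd.le hp (by linarith)
  have v1 : d / (1 - z) < 1 := (div_lt_one hp).2 (by linarith)
  have v0 := u0.trans_le uv
  have u1 := uv.trans_lt v1
  have hs := Hb_pos hz hd.le h
  have q0 := Q_ge (wb_pos hz hd.le h) hs le_rfl one_pos
  rw [beta_zero, mu_zero] at q0
  have r0 := rho_nonneg (w z / Hb z d)
  have r1 := rho_lt_one (w z / Hb z d)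
  have j1 := j_split a1 a2
  have j2 : J (z + d) (z - d) = (1 + z) / 2 * (d / (1 + z) * A (d / (1 + z)))
      + (1 - z) / 2 * (d / (1 - z) * A (d / (1 - z))) := by
    rw [J_split a1 a2]; field_simp
  have l7 := L7 a3
  have hw := w_ge a3.le
  have hw0 := w_pos a3
  have hm := ell_div_sq_mono u0.le uv v1
  have x0 := (EA.ell_pos u0 u1).le
  have y0 := (EA.ell_pos v0 v1).le
  rw [RR, Q, j2]
  set r := rho (w z / Hb z d)
  have m2 := two_le_mu r0 r1
  have key : 0 ≤ (1 + z) / 2 * (d / (1 + z) * A (d / (1 + z)))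
      + (1 - z) / 2 * (d / (1 - z) * A (d / (1 - z))) - mu r * (H z - Hb z d)
      + w z * (mu r * ell r - r * A r) := by
    rw [j1]
    rcases r0.eq_or_lt with h0 | h0
    · have b1 := mul_le_mul_of_nonneg_left (two_ell_le (KA.abs_lt_one_of u0.le u1)) hP.le
      have b2 := mul_le_mul_of_nonneg_left (two_ell_le (KA.abs_lt_one_of v0.le v1)) hp.le
      rw [← h0, mu_zero, ell_zero]
      linarith
    · have b1 := mul_le_mul_of_nonneg_left (q_lemma h0 r1 u0.le u1) hP.le
      have b2 := mul_le_mul_of_nonneg_left (q_lemma h0 r1 v0.le v1) hp.le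
      have hr := EA.ell_pos h0 r1
      have e0 := sub_nonneg.2 (le_mu_ell r0 r1)
      generalize d / (1 + z) * A (d / (1 + z)) = s at *
      generalize d / (1 - z) * A (d / (1 - z)) = t at *
      have hxy : (1 + z) * ell (d / (1 + z)) ≤ (1 - z) * ell (d / (1 - z)) := by
        rw [div_pow, div_pow, ← mul_div_assoc, ← mul_div_assoc,
          div_le_div_iff₀ (by positivity) (by positivity)] at hm
        have c1 : ell (d / (1 + z)) * (1 + z) ^ 2 ≤ ell (d / (1 - z)) * (1 - z) ^ 2 :=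
          le_of_mul_le_mul_left (by linarith) (by positivity : 0 < d ^ 2)
        have c2 := mul_nonneg (mul_nonneg y0 hp.le) hz
        exact le_of_mul_le_mul_left (by linarith) hP
      generalize ell (d / (1 + z)) = x at *
      generalize ell (d / (1 - z)) = y at *
      obtain ⟨b, hb⟩ : ∃ b, mu r * ell r - r * A r = b * ell r ^ 2 :=
        ⟨(mu r * ell r - r * A r) / ell r ^ 2, by field_simp⟩
      rw [hb] at b1 b2 e0 ⊢
      have hb0 : 0 ≤ b := nonneg_of_mul_nonneg_left e0 (pow_pos hr 2)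
      rw [mul_div_cancel_right₀ _ (pow_pos hr 2).ne',
        show b * ell r ^ 2 / ell r = b * ell r by field_simp] at b1 b2
      have c4 := EA.quad (ell r) hz hp.le x0 y0 hxy hw hw0
      have c5 := mul_nonneg hb0 c4
      linarith
  have k2 := mul_nonneg (sub_nonneg.2 m2) (sub_nonneg.2 l7)
  have e : beta r = r * A r + mu r * (log 2 - ell r) := rfl
  rw [e]
  linarith

end Vale.Agent.P322.CK
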