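import Vale.Agent.P322.KapA

/-! Monotonicity along the curve `s = d H t / t`. -/

namespace Vale.Agent.P322.CK

open Real Set

theorem kap_diff_le_nu {z d t : ℝ} (hz : 0 ≤ z) (hd : 0 < d) (h : z + d < 1) (ht : d ≤ t)
    (ht1 : t < 1) : kap (w z / (d * H t / t)) - kap (wb z d / (d * H t / t)) ≤ nu t := by
  have t0 : 0 < t := hd.trans_le ht
  have ta := KA.abs_lt_one_of t0.le ht1
  have hH := H_pos ta
  have hs : 0 < d * H t / t := by positivity
  have hL : 0 < log 2 := log_pos one_lt_two
  have hLam := hL.trans_le (le_Lam ta)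
  have h1t : 0 < 1 - t ^ 2 := by nlinarith
  have hG := mul_pos h1t hLam
  rcases le_total d (33 / 50) with hc | hc
  · refine (kap_lip (div_le_div_of_nonneg_right (wb_le hz hd.le h.le) hs.le)).trans ?_
    have key : 129 / 200 * Dh z d * d * ((1 - t ^ 2) * Lam t) ≤ t * H t := by
      rcases le_total t (13 / 25) with h2 | h2
      · have b1 := mul_le_mul_of_nonneg_right (L8a hz hd.le h.le (ht.trans h2)) hd.le
        have b2 : (1 - 23 / 50 * d ^ 2) * d ≤ (1 - 23 / 50 * t ^ 2) * t := by
          have : 0 ≤ 1 - 23 / 50 * (t ^ 2 + t * d + d ^ 2) := by nlinarith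
          nlinarith [mul_nonneg (sub_nonneg.2 ht) this]
        have b3 := mul_le_mul_of_nonneg_right (b1.trans b2) hG.le
        have b4 := mul_le_mul_of_nonneg_left (L5a t0.le h2) t0.le
        linarith
      · have b1 : 129 / 200 * Dh z d * d ≤ 23 / 50 := by
          rcases le_total d (13 / 25) with h3 | h3
          · have b1 := mul_le_mul_of_nonneg_right (L8a hz hd.le h.le h3) hd.le
            have : 0 ≤ 1 - 23 / 50 * ((13 / 25) ^ 2 + 13 / 25 * d + d ^ 2) := by nlinarith
            nlinarith [mul_nonneg (sub_nonneg.2 h3) this]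
          · exact L8b hz h3 h.le hc
        exact (mul_le_mul_of_nonneg_right b1 hG.le).trans (L5b h2 ht1)
    rw [← sub_div, dw_eq, nu, le_div_iff₀ hG]
    have e : 129 / 200 * (d ^ 2 * Dh z d / (d * H t / t)) * ((1 - t ^ 2) * Lam t)
        = 129 / 200 * Dh z d * d * ((1 - t ^ 2) * Lam t) * t / H t := by field_simp
    rw [e, div_le_iff₀ hH]
    have := mul_le_mul_of_nonneg_right key t0.le
    linarith
  · have za : |z| ≤ 1 := abs_le.2 ⟨by linarith, by linarith⟩
    have b1 := kap_mono (div_le_div_of_nonneg_right (w_le_one za) hs.le)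
    have b2 : 1 / H t ≤ 1 / (d * H t / t) := by
      refine one_div_le_one_div_of_le hs ?_
      rw [div_le_iff₀ t0]; nlinarith
    have b3 := kap_lip b2
    have b4 : kap (1 / H t) = mu t := by rw [kap, rho_H t0.le ht1]
    have b5 := kap_ge (wb z d / (d * H t / t))
    have b6 : 129 / 200 * (1 - d) ≤ 49 / 100 * wb z d := by
      have c1 := w_ge (a := z + d) (abs_le.2 ⟨by linarith, by linarith⟩)
      have c2 := w_ge (a := z - d) (abs_le.2 ⟨by linarith, by linarith⟩)
      have c3 : z ^ 2 ≤ (1 - d) ^ 2 := pow_le_pow_left₀ hz (by linarith) 2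
      have c4 := mul_nonneg (sub_nonneg.2 hc) (by linarith : 0 ≤ 1 - d)
      rw [wb]; linarith
    have b7 := div_le_div_of_nonneg_right b6 hs.le
    have hA := A_pos t0 ht1
    have b8 : t * H t / ((1 - t ^ 2) * Lam t * A t) + 49 / 100 / log 2 - 1
        ≤ 129 / 200 * (1 - t) / H t := by
      rw [le_div_iff₀ hH, mul_comm]; exact L5c (hc.trans ht) ht1
    have e1 : nu t = mu t - 1 - t * H t / ((1 - t ^ 2) * Lam t * A t) := by
      rw [nu, mu_eq t0]
      have := Lam_eq ta
      field_simp
      rw [this]; ring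
    have e2 : 129 / 200 * (1 / (d * H t / t) - 1 / H t) - 129 / 200 * (1 - d) / (d * H t / t)
        = -(129 / 200 * (1 - t) / H t) := by field_simp; ring
    have e3 : 49 / 100 * (wb z d / (d * H t / t) - 1 / log 2)
        = 49 / 100 * wb z d / (d * H t / t) - 49 / 100 / log 2 := by ring
    linarith

theorem EB.deriv {z d t : ℝ} (hz : 0 ≤ z) (hd : 0 < d) (h : z + d < 1) (ht : d ≤ t) (ht1 : t < 1) :
    HasDerivAt (fun t => d * A t - RR z d (d * H t / t)) (d * (Lam t / t ^ 2)
      * (nu t - (kap (w z / (d * H t / t)) - kap (wb z d / (d * H t / t))))) t := by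
  have t0 : 0 < t := hd.trans_le ht
  have ta := KA.abs_lt_one_of t0.le ht1
  have hH := H_pos ta
  have hs : 0 < d * H t / t := by positivity
  have hLam := (log_pos one_lt_two).trans_le (le_Lam ta)
  have h1t : 0 < 1 - t ^ 2 := by nlinarith
  have h1 : HasDerivAt (fun t => d * H t / t) (d * (-Lam t / t ^ 2)) t := by
    simp only [mul_div_assoc]
    exact (hasDerivAt_H_div t0 ht1).const_mul d
  have h2 := HasDerivAt.comp (h := fun t => d * H t / t) t
    (hasDerivAt_Q_s (w_pos (a := z) (abs_lt.2 ⟨by linarith, by linarith⟩)) hs) h1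
  have h3 := HasDerivAt.comp (h := fun t => d * H t / t) t
    (hasDerivAt_Q_s (wb_pos hz hd.le h) hs) h1
  have h4 := ((hasDerivAt_A ta).const_mul d).sub (((h2.sub h3).add_const
    (2 * (H z - Hb z d))).sub_const (2 * log 2 * (w z - wb z d)))
  refine h4.congr_deriv ?_
  rw [nu]
  field_simp

theorem E4 {z d : ℝ} (hz : 0 ≤ z) (hd : 0 < d) (h : z + d < 1) :
    MonotoneOn (fun t => d * A t - RR z d (d * H t / t)) (Ico d 1) := by
  intro a ha b hb hab
  refine KA.le_of_deriv_nonneg (f := fun t => d * A t - RR z d (d * H t / t)) hab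
    (fun _ ht => (EB.deriv hz hd h (ha.1.trans ht.1)
      (ht.2.trans_lt hb.2)).continuousAt.continuousWithinAt)
    (fun _ ht => EB.deriv hz hd h (ha.1.trans ht.1.le) (ht.2.trans hb.2)) fun t ht => ?_
  have t0 : 0 < t := hd.trans_le (ha.1.trans ht.1.le)
  have hLam := (log_pos one_lt_two).trans_le (le_Lam (KA.abs_lt_one_of t0.le (ht.2.trans hb.2)))
  exact mul_nonneg (by positivity)
    (sub_nonneg.2 (kap_diff_le_nu hz hd h (ha.1.trans ht.1.le) (ht.2.trans hb.2)))

end Vale.Agent.P322.CK
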