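import Mathlib

/-! Affine-form arithmetic with two noise symbols, fixed point scale `2^40`.
A signed number is a pair of naturals `(p, n)` standing for `p - n`. -/

namespace Vale.Agent.P322.Eng

noncomputable section

def frc {α : Type} (n : Nat) (k : Nat → α) : α :=
  Nat.rec (motive := fun _ => α) (k 0) (fun m _ => k (Nat.succ m)) n

inductive AF where
  | bad : AF
  | mk (cp cn ap an bp bn r : Nat) : AF

def AF.add (x y : AF) : AF :=
  AF.rec .bad (fun cp cn ap an bp bn r =>
    AF.rec .bad (fun cp' cn' ap' an' bp' bn' r' =>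
      let c1 := Nat.add cp cp'; let c2 := Nat.add cn cn'
      let a1 := Nat.add ap ap'; let a2 := Nat.add an an'
      let b1 := Nat.add bp bp'; let b2 := Nat.add bn bn'
      AF.mk (Nat.sub c1 c2) (Nat.sub c2 c1) (Nat.sub a1 a2) (Nat.sub a2 a1) (Nat.sub b1 b2)
        (Nat.sub b2 b1) (Nat.add r r')) y) x

def AF.neg (x : AF) : AF :=
  AF.rec .bad (fun cp cn ap an bp bn r => AF.mk cn cp an ap bn bp r) x

def AF.mul (x y : AF) : AF :=
  AF.rec .bad (fun cp cn ap an bp bn r =>
    AF.rec .bad (fun cp' cn' ap' an' bp' bn' r' =>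
      let s1 := Nat.add (Nat.add (Nat.mul ap ap') (Nat.mul an an'))
        (Nat.add (Nat.mul bp bp') (Nat.mul bn bn'))
      let s2 := Nat.add (Nat.add (Nat.mul ap an') (Nat.mul an ap'))
        (Nat.add (Nat.mul bp bn') (Nat.mul bn bp'))
      let c1 := Nat.add (Nat.mul 2 (Nat.add (Nat.mul cp cp') (Nat.mul cn cn'))) s1
      let c2 := Nat.add (Nat.mul 2 (Nat.add (Nat.mul cp cn') (Nat.mul cn cp'))) s2
      let a1 := Nat.add (Nat.add (Nat.mul cp ap') (Nat.mul cn an'))
        (Nat.add (Nat.mul cp' ap) (Nat.mul cn' an))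
      let a2 := Nat.add (Nat.add (Nat.mul cp an') (Nat.mul cn ap'))
        (Nat.add (Nat.mul cp' an) (Nat.mul cn' ap))
      let b1 := Nat.add (Nat.add (Nat.mul cp bp') (Nat.mul cn bn'))
        (Nat.add (Nat.mul cp' bp) (Nat.mul cn' bn))
      let b2 := Nat.add (Nat.add (Nat.mul cp bn') (Nat.mul cn bp'))
        (Nat.add (Nat.mul cp' bn) (Nat.mul cn' bp))
      let a := Nat.add ap an; let b := Nat.add bp bn
      let a' := Nat.add ap' an'; let b' := Nat.add bp' bn'
      AF.mk (Nat.shiftRight (Nat.sub c1 c2) 41) (Nat.shiftRight (Nat.sub c2 c1) 41)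
        (Nat.shiftRight (Nat.sub a1 a2) 40) (Nat.shiftRight (Nat.sub a2 a1) 40)
        (Nat.shiftRight (Nat.sub b1 b2) 40) (Nat.shiftRight (Nat.sub b2 b1) 40)
        (Nat.add (Nat.shiftRight (Nat.add (Nat.add
          (Nat.add (Nat.shiftRight (Nat.add s1 s2) 1) (Nat.add (Nat.mul a b') (Nat.mul b a')))
          (Nat.mul (Nat.add (Nat.add (Nat.add cp cn) r) (Nat.add a b)) r'))
          (Nat.mul (Nat.add (Nat.add cp' cn') (Nat.add a' b')) r)) 40) 5)) y) x

/-- multiplication by the rational `p / q` -/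
def AF.smul (p q : Nat) (x : AF) : AF :=
  AF.rec .bad (fun cp cn ap an bp bn r =>
    AF.mk (Nat.div (Nat.mul p cp) q) (Nat.div (Nat.mul p cn) q) (Nat.div (Nat.mul p ap) q)
      (Nat.div (Nat.mul p an) q) (Nat.div (Nat.mul p bp) q) (Nat.div (Nat.mul p bn) q)
      (Nat.add (Nat.div (Nat.mul p r) q) 4)) x

/-- denominator of the coefficient `c k = 1 / ((a k + b) (c k + d))` -/
def cden (a b c d k : Nat) : Nat := Nat.mul (Nat.add (Nat.mul a k) b) (Nat.add (Nat.mul c k) d)

def cfx (a b c d k : Nat) : Nat := Nat.div 1099511627776 (cden a b c d k)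

/-- Horner scheme for `sum_{j<n} c j x^j + acc x^n`, adding `o` units at every step -/
def horn (a b c d o x n : Nat) : Nat → Nat :=
  Nat.rec (motive := fun _ => Nat → Nat) (fun acc => acc)
    (fun k ih acc => ih (Nat.add (Nat.shiftRight (Nat.mul acc x) 40) (Nat.add (cfx a b c d k) o))) n

def nterms (x : Nat) : Nat :=
  cond (Nat.ble x 274877906944) (cond (Nat.ble x 68719476736) (cond (Nat.ble x 8589934592) 4 7) 12)
    (cond (Nat.ble x 549755813888) 20 (cond (Nat.ble x 824633720832) 36 60))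

def serD (a b c d x : Nat) : Nat := horn a b c d 0 x (nterms x) 0

/-- geometric tail constant -/
def tailG (a b c d x n : Nat) : Nat :=
  Nat.add (Nat.div 1208925819614629174706176
    (Nat.mul (cden a b c d n) (Nat.sub 1099511627776 x))) 1

def serU (a b c d x : Nat) : Nat :=
  frc (nterms x) fun n => horn a b c d 2 x n (tailG a b c d x n)

/-- upper bound for the series with coefficients `1 / ((2k+1)(2k+2))`, valid up to `x = 1` -/
def ellU (x : Nat) : Nat :=
  frc (nterms x) fun n =>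
    let t := Nat.add (Nat.div 1099511627776 (Nat.add (Nat.mul 4 n) 1)) 1
    horn 2 1 2 2 2 x n (cond (Nat.ble 1099511627776 x) t
      (Nat.sub t (Nat.sub t (tailG 2 1 2 2 x n))))

/-- a guess for the binary logarithm -/
def lg (n : Nat) : Nat :=
  cond (Nat.ble 274877906944 n)
    (cond (Nat.ble 1099511627776 n)
      (cond (Nat.ble 2199023255552 n) (cond (Nat.ble 4398046511104 n) (Nat.log2 n) 41) 40)
      (cond (Nat.ble 549755813888 n) 39 38))
    (cond (Nat.ble 68719476736 n) (cond (Nat.ble 137438953472 n) 37 36)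
      (cond (Nat.ble 17179869184 n) (cond (Nat.ble 34359738368 n) 35 34) (Nat.log2 n)))

/-- `logD n - 40 LU` is a lower bound of `log (n / S) * S` for `n > 0` -/
def logD (n : Nat) : Nat :=
  frc (lg n) fun e =>
  let m := Nat.shiftLeft 1 e
  cond (Nat.ble m n)
   (frc (Nat.div (Nat.shiftLeft (Nat.sub n m) 40) (Nat.add n m)) fun y =>
    Nat.add (Nat.mul e 762123384499)
      (Nat.shiftRight (Nat.mul y (horn 2 1 0 1 0 (Nat.shiftRight (Nat.mul y y) 40) 9 0)) 39)) 0

/-- `logU n - 40 LD` is an upper bound of `log (n / S) * S` for `n > 0` -/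
def logU (n : Nat) : Nat :=
  frc (lg n) fun e =>
  let m := Nat.shiftLeft 1 e
  frc (Nat.add (Nat.div (Nat.shiftLeft (Nat.sub n m) 40) (Nat.add n m)) 1) fun y =>
  frc (Nat.add (Nat.shiftRight (Nat.mul y y) 40) 1) fun v =>
  cond (Nat.ble v 549755813888)
   (Nat.add (Nat.mul e 762123385050)
    (Nat.add (Nat.shiftRight (Nat.mul y (horn 2 1 0 1 2 v 9 (tailG 2 1 0 1 v 9))) 39) 1))
   (Nat.shiftLeft n 40)

/-- three point affine enclosure of a convex function: `(ulp, uln)`, `(uhp, uhn)` are upper bounds at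
the two ends, `(lp, ln)` a lower bound at the centre, `R` the radius. -/
def three (ap an bp bn r R ulp uln uhp uhn lp ln : Nat) : AF :=
  let d1 := Nat.add uhp uln; let d2 := Nat.add uhn ulp
  let R2 := Nat.mul 2 R
  frc (Nat.div (Nat.shiftLeft (Nat.sub d1 d2) 40) R2) fun sp =>
  frc (Nat.div (Nat.shiftLeft (Nat.sub d2 d1) 40) R2) fun sn =>
  let wp := Nat.shiftRight (Nat.mul sp R) 40; let wn := Nat.shiftRight (Nat.mul sn R) 40
  let o := Nat.add (Nat.add (Nat.add uln uhn) (Nat.add wp wn)) (Nat.add (Nat.add ln ln) (Nat.add ulp uhp))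
  let u1 := Nat.sub (Nat.add (Nat.add o ulp) wp) (Nat.add uln wn)
  let u2 := Nat.sub (Nat.add (Nat.add o uhp) wn) (Nat.add uhn wp)
  let l0 := Nat.sub (Nat.add o lp) ln
  let l2 := Nat.add (Nat.add o lp) lp
  let l3 := Nat.add ln ln
  let l4 := Nat.sub (Nat.add l2 (Nat.add uln wn)) (Nat.add l3 (Nat.add ulp wp))
  let l5 := Nat.sub (Nat.add l2 (Nat.add uhn wp)) (Nat.add l3 (Nat.add uhp wn))
  let l6 := Nat.sub l4 (Nat.sub l4 l5)
  frc (Nat.add u1 (Nat.sub u2 u1)) fun U =>
  frc (Nat.sub l0 (Nat.sub l0 l6)) fun L =>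
  let m := Nat.shiftRight (Nat.add U L) 1
  let a1 := Nat.add (Nat.mul sp ap) (Nat.mul sn an); let a2 := Nat.add (Nat.mul sp an) (Nat.mul sn ap)
  let b1 := Nat.add (Nat.mul sp bp) (Nat.mul sn bn); let b2 := Nat.add (Nat.mul sp bn) (Nat.mul sn bp)
  AF.mk (Nat.sub m o) (Nat.sub o m) (Nat.shiftRight a1 40) (Nat.shiftRight a2 40)
    (Nat.shiftRight b1 40) (Nat.shiftRight b2 40)
    (Nat.add (Nat.add (Nat.shiftRight (Nat.mul (Nat.add sp sn) r) 40)
      (Nat.shiftRight (Nat.add (Nat.sub U L) (Nat.sub L U)) 1)) 7)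

inductive Fn where
  | sq | inv | nlog | pos | ell
  | ser (a b c d : Nat)
  | ser2 (a b c d : Nat)

def sqD (x : Nat) : Nat := Nat.shiftRight (Nat.mul x x) 40
def sqU (x : Nat) : Nat := Nat.shiftRight (Nat.add (Nat.mul x x) 1099511627775) 40

def AF.cvx (g : Fn) (x : AF) : AF :=
  AF.rec .bad (fun cp cn ap an bp bn r =>
    frc (Nat.add (Nat.add (Nat.add ap an) (Nat.add bp bn)) r) fun R =>
    frc (Nat.sub cp (Nat.add cn R)) fun lo =>
    frc (Nat.sub (Nat.add cp R) cn) fun hi =>
    frc (Nat.sub cp cn) fun c =>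
    Fn.rec (motive := fun _ => AF)
      (three ap an bp bn r R (sqU (Nat.add lo (Nat.sub (Nat.add cn R) cp))) 0
        (sqU (Nat.add hi (Nat.sub cn (Nat.add cp R)))) 0 (sqD (Nat.add c (Nat.sub cn cp))) 0)
      (cond (Nat.ble 1 lo) (three ap an bp bn r R
        (Nat.add (Nat.div 1208925819614629174706176 lo) 1) 0
        (Nat.add (Nat.div 1208925819614629174706176 hi) 1) 0
        (Nat.div 1208925819614629174706176 c) 0) .bad)
      (cond (Nat.ble 1 lo) (three ap an bp bn r R
        30484935402000 (logD lo) 30484935402000 (logD hi) 30484935379960 (logU c)) .bad)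
      (three ap an bp bn r R lo 0 hi 0 c 0)
      (cond (Nat.ble hi 1099511627776) (three ap an bp bn r R
        (frc (sqU lo) ellU) 0 (frc (sqU hi) ellU) 0 (frc (sqD c) (serD 2 1 2 2)) 0) .bad)
      (fun a b c' d => cond (Nat.ble hi 1099511627775 && Nat.ble 1 (Nat.mul b d)) (three ap an bp bn r R
        (serU a b c' d lo) 0 (serU a b c' d hi) 0 (serD a b c' d c) 0) .bad)
      (fun a b c' d => cond (Nat.ble hi 1099511627775 && Nat.ble 1 (Nat.mul b d)) (three ap an bp bn r R
        (frc (sqU lo) (serU a b c' d)) 0 (frc (sqU hi) (serU a b c' d)) 0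
        (frc (sqD c) (serD a b c' d)) 0) .bad) g) x

/-- `-1 / log x` -/
def AF.nlinv (x : AF) : AF :=
  AF.rec .bad (fun cp cn ap an bp bn r =>
    frc (Nat.add (Nat.add (Nat.add ap an) (Nat.add bp bn)) r) fun R =>
    cond (Nat.ble (Nat.add (Nat.add cn R) 1) cp)
      (AF.cvx .inv (AF.cvx .nlog (.mk cp cn ap an bp bn r)))
      (frc (Nat.sub 30484935379960 (logU (Nat.add (Nat.add (Nat.add cp cn) R) 1))) fun l =>
        cond (Nat.ble 1 l)
          (frc (Nat.add (Nat.div 604462909807314587353088 l) 1) fun h => AF.mk h 0 0 0 0 0 h)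
          .bad)) x

inductive Ex where
  | v (i : Nat)
  | q (p d : Nat)
  | L
  | add (a b : Ex)
  | neg (a : Ex)
  | mul (a b : Ex)
  | smul (p d : Nat) (a : Ex)
  | cvx (g : Fn) (a : Ex)
  | nlinv (a : Ex)

def nth (l : List AF) : Nat → AF :=
  List.rec (motive := fun _ => Nat → AF) (fun _ => .bad)
    (fun a _ ih n => Nat.rec (motive := fun _ => AF) a (fun m _ => ih m) n) l

def Ex.ev (env : List AF) (e : Ex) : AF :=
  Ex.rec (motive := fun _ => AF) (fun i => nth env i)
    (fun p d => AF.mk (Nat.div (Nat.shiftLeft p 40) d) 0 0 0 0 0 1)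
    (AF.mk 762123384775 0 0 0 0 0 276)
    (fun _ _ a b => AF.add a b) (fun _ a => AF.neg a) (fun _ _ a b => AF.mul a b)
    (fun p d _ a => AF.smul p d a) (fun g _ a => AF.cvx g a) (fun _ a => AF.nlinv a) e

def frcA {α : Type} (x : AF) (k : AF → α) : α :=
  AF.rec (k .bad) (fun cp cn ap an bp bn r =>
    frc cp fun cp => frc cn fun cn => frc ap fun ap => frc an fun an => frc bp fun bp =>
    frc bn fun bn => frc r fun r => k (.mk cp cn ap an bp bn r)) x

def run (p : List Ex) : List AF → List AF :=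
  List.rec (motive := fun _ => List AF → List AF) (fun env => env)
    (fun e _ ih env => frcA (e.ev env) fun x => ih (x :: env)) p

def AF.nn (x : AF) : Bool :=
  AF.rec false (fun cp cn ap an bp bn r =>
    Nat.ble (Nat.add (Nat.add cn r) (Nat.add (Nat.add ap an) (Nat.add bp bn))) cp) x

def allNN (n : Nat) (l : List AF) : Bool :=
  Nat.rec (motive := fun _ => Bool) true (fun m ih => cond (nth l m).nn ih false) n

/-- a box has centre `(x, y)` and radii `(rx, ry)` -/
def leaf (p : List Ex) (k x y rx ry : Nat) : Bool :=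
  allNN k (run p [AF.mk y 0 0 0 ry 0 0, AF.mk x 0 rx 0 0 0 0])

/-- returns `code' + 1` on success, `0` on failure -/
def chk (p : List Ex) (k f : Nat) : Nat → Nat → Nat → Nat → Nat → Nat :=
  Nat.rec (motive := fun _ => Nat → Nat → Nat → Nat → Nat → Nat) (fun _ _ _ _ _ => 0)
    (fun _ ih x y rx ry code =>
      frc (Nat.land code 3) fun dg => frc (Nat.shiftRight code 2) fun code =>
      cond (Nat.beq dg 0) (cond (leaf p k x y rx ry) (Nat.succ code) 0)
       (cond (Nat.beq dg 1)
        (frc (Nat.shiftRight rx 1) fun h => cond (Nat.beq (Nat.add h h) rx && Nat.ble h x)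
          (frc (Nat.sub x h) fun x1 => frc (Nat.add x h) fun x2 =>
           Nat.rec (motive := fun _ => Nat) 0 (fun c _ => ih x2 y h ry c) (ih x1 y h ry code)) 0)
        (frc (Nat.shiftRight ry 1) fun h => cond (Nat.beq (Nat.add h h) ry && Nat.ble h y)
          (frc (Nat.sub y h) fun y1 => frc (Nat.add y h) fun y2 =>
           Nat.rec (motive := fun _ => Nat) 0 (fun c _ => ih x y2 rx h c) (ih x y1 rx h code)) 0))) f

/-! ### Real semantics -/

/-- the power series with coefficients `1 / ((a k + b) (c k + d))`, at the positive part of `x` -/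
def serF (a b c d : ℕ) (x : ℝ) : ℝ :=
  ∑' k : ℕ, (max x 0) ^ k / (((a : ℝ) * k + b) * ((c : ℝ) * k + d))

def Fn.R : Fn → ℝ → ℝ
  | .sq, x => x ^ 2
  | .inv, x => x⁻¹
  | .nlog, x => -Real.log x
  | .pos, x => max x 0
  | .ell, x => serF 2 1 2 2 ((max x 0) ^ 2)
  | .ser a b c d, x => serF a b c d x
  | .ser2 a b c d, x => serF a b c d ((max x 0) ^ 2)

def nthR : List ℝ → ℕ → ℝ
  | [], _ => 0
  | a :: _, 0 => a
  | _ :: l, n + 1 => nthR l n

def Ex.R (env : List ℝ) : Ex → ℝ
  | .v i => nthR env i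
  | .q p d => (p : ℝ) / (d : ℝ)
  | .L => Real.log 2
  | .add a b => a.R env + b.R env
  | .neg a => -a.R env
  | .mul a b => a.R env * b.R env
  | .smul p d a => (p : ℝ) / (d : ℝ) * a.R env
  | .cvx g a => g.R (a.R env)
  | .nlinv a => (-Real.log (a.R env))⁻¹

def runR : List Ex → List ℝ → List ℝ
  | [], env => env
  | e :: p, env => runR p (e.R env :: env)

/-- the real `x` is enclosed by an affine form, for the values `e1`, `e2` of the noise symbols -/
def Mem (e1 e2 x : ℝ) : AF → Prop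
  | .bad => True
  | .mk cp cn ap an bp bn r =>
      |x * 2 ^ 40 - (((cp : ℝ) - cn) + ((ap : ℝ) - an) * e1 + ((bp : ℝ) - bn) * e2)| ≤ (r : ℝ)

end

end Vale.Agent.P322.Eng
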