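import Vale.Agent.P322.Eng

/-! Soundness of the linear operations, the product and the three point enclosure. -/

namespace Vale.Agent.P322.Eng

theorem frc_eq {α : Type} (n : Nat) (k : Nat → α) : frc n k = k n := by
  cases n <;> rfl

theorem frcA_eq {α : Type} (x : AF) (k : AF → α) : frcA x k = k x := by
  cases x
  · rfl
  · simp only [frcA, frc_eq]

namespace A

theorem sub_cast (a b : ℕ) : ((a - b : ℕ) : ℝ) - ((b - a : ℕ) : ℝ) = (a : ℝ) - b := by
  rcases le_total a b with h | h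
  · rw [Nat.sub_eq_zero_of_le h, Nat.cast_sub h]; simp
  · rw [Nat.sub_eq_zero_of_le h, Nat.cast_sub h]; simp

theorem div_le (x q : ℕ) : ((x / q : ℕ) : ℝ) ≤ (x : ℝ) / q := Nat.cast_div_le

theorem le_div (x q : ℕ) : (x : ℝ) / q ≤ ((x / q : ℕ) : ℝ) + 1 := by
  rcases Nat.eq_zero_or_pos q with h | h
  · subst h; simp
  · have h1 : (0 : ℝ) < q := by exact_mod_cast h
    rw [div_le_iff₀ h1]
    have h2 : x ≤ (x / q + 1) * q := by
      have := Nat.lt_div_mul_add (a := x) h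
      rw [add_mul, one_mul]; exact this.le
    exact_mod_cast h2

theorem pair_div (x y q : ℕ) :
    |((x : ℝ) - y) / q - (((x / q : ℕ) : ℝ) - ((y / q : ℕ) : ℝ))| ≤ 1 := by
  have := div_le x q
  have := div_le y q
  have := le_div x q
  have := le_div y q
  rw [sub_div, abs_le]; constructor <;> linarith

theorem pair_sub_div (x y q : ℕ) :
    |((x : ℝ) - y) / q - ((((x - y) / q : ℕ) : ℝ) - (((y - x) / q : ℕ) : ℝ))| ≤ 1 := by
  have := pair_div (x - y) (y - x) q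
  rwa [sub_cast] at this

theorem abs_pair (a b : ℕ) : |(a : ℝ) - b| ≤ (a : ℝ) + b := by
  have : (0 : ℝ) ≤ a := Nat.cast_nonneg a
  have : (0 : ℝ) ≤ b := Nat.cast_nonneg b
  rw [abs_le]; constructor <;> linarith

theorem abs_mul_le {x y a b : ℝ} (hx : |x| ≤ a) (hy : |y| ≤ b) : |x * y| ≤ a * b := by
  rw [abs_mul]; exact mul_le_mul hx hy (abs_nonneg _) ((abs_nonneg _).trans hx)

theorem round {e1 e2 z c a b c' a' b' T d : ℝ} (h1 : |e1| ≤ 1) (h2 : |e2| ≤ 1)
    (h : |z - (c + a * e1 + b * e2)| ≤ T) (hc : |c - c'| ≤ d) (ha : |a - a'| ≤ 1)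
    (hb : |b - b'| ≤ 1) : |z - (c' + a' * e1 + b' * e2)| ≤ T + d + 2 := by
  have k1 := abs_le.1 (abs_mul_le ha h1)
  have k2 := abs_le.1 (abs_mul_le hb h2)
  rw [abs_le] at h hc ⊢
  constructor <;> nlinarith

theorem mul_real {e1 e2 X Y c a b c' a' b' C A B r C' A' B' r' : ℝ} (h1 : |e1| ≤ 1)
    (h2 : |e2| ≤ 1) (hX : |X - (c + a * e1 + b * e2)| ≤ r) (hY : |Y - (c' + a' * e1 + b' * e2)| ≤ r')
    (hc : |c| ≤ C) (ha : |a| ≤ A) (hb : |b| ≤ B) (hc' : |c'| ≤ C') (ha' : |a'| ≤ A')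
    (hb' : |b'| ≤ B') :
    |X * Y - ((c * c' + (a * a' + b * b') / 2) + (c * a' + c' * a) * e1 + (c * b' + c' * b) * e2)|
      ≤ (A * A' + B * B') / 2 + (A * B' + B * A') + (C + r + (A + B)) * r' + (C' + (A' + B')) * r := by
  obtain ⟨p, rfl⟩ : ∃ p, X = c + a * e1 + b * e2 + p := ⟨X - (c + a * e1 + b * e2), by ring⟩
  obtain ⟨p', rfl⟩ : ∃ p, Y = c' + a' * e1 + b' * e2 + p := ⟨Y - (c' + a' * e1 + b' * e2), by ring⟩
  rw [add_sub_cancel_left] at hX hY
  have s1 : |e1 ^ 2 - 1 / 2| ≤ 1 / 2 := by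
    have := sq_le_one_iff_abs_le_one e1 |>.2 h1
    rw [abs_le]; constructor <;> nlinarith [sq_nonneg e1]
  have s2 : |e2 ^ 2 - 1 / 2| ≤ 1 / 2 := by
    have := sq_le_one_iff_abs_le_one e2 |>.2 h2
    rw [abs_le]; constructor <;> nlinarith [sq_nonneg e2]
  have t1 := abs_le.1 (abs_mul_le (abs_mul_le ha ha') s1)
  have t2 := abs_le.1 (abs_mul_le (abs_mul_le hb hb') s2)
  have t3 := abs_le.1 (abs_mul_le (abs_mul_le ha hb') (abs_mul_le h1 h2))
  have t4 := abs_le.1 (abs_mul_le (abs_mul_le hb ha') (abs_mul_le h1 h2))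
  have t5 := abs_le.1 (abs_mul_le hc hY)
  have t6 := abs_le.1 (abs_mul_le hX hY)
  have t7 := abs_le.1 (abs_mul_le (abs_mul_le ha h1) hY)
  have t8 := abs_le.1 (abs_mul_le (abs_mul_le hb h2) hY)
  have t9 := abs_le.1 (abs_mul_le hc' hX)
  have t10 := abs_le.1 (abs_mul_le (abs_mul_le ha' h1) hX)
  have t11 := abs_le.1 (abs_mul_le (abs_mul_le hb' h2) hX)
  rw [abs_le]
  constructor <;> linarith [t1.1, t1.2, t2.1, t2.2, t3.1, t3.2, t4.1, t4.2, t5.1, t5.2, t6.1, t6.2,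
    t7.1, t7.2, t8.1, t8.2, t9.1, t9.2, t10.1, t10.2, t11.1, t11.2]

theorem cvx_bounds {g : ℝ → ℝ} {s c R x ul uh l al w U L : ℝ} (hs : 0 < s)
    (hg : ConvexOn ℝ (Set.Icc ((c - R) / s) ((c + R) / s)) g) (ht : |x * s - c| ≤ R)
    (hl : g ((c - R) / s) * s ≤ ul) (hh : g ((c + R) / s) * s ≤ uh) (hc : l ≤ g (c / s) * s)
    (hw : |al * R / s - w| ≤ 1) (U1 : ul + w ≤ U) (U2 : uh - w ≤ U) (L0 : L ≤ l)
    (L1 : L ≤ 2 * l - ul - w) (L2 : L ≤ 2 * l - uh + w) :
    L - 1 ≤ g x * s - al * (x * s - c) / s ∧ g x * s - al * (x * s - c) / s ≤ U + 1 := by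
  have hR : 0 ≤ R := (abs_nonneg _).trans ht
  rw [abs_le] at ht hw
  rcases hR.eq_or_lt with h0 | h0
  · subst h0
    have e : x * s - c = 0 := by linarith [ht.1, ht.2]
    have e2 : x = c / s := by rw [eq_div_iff hs.ne']; linarith
    rw [e, e2]
    simp only [sub_zero, mul_zero, zero_div, zero_sub] at hl hw ⊢
    constructor <;> linarith [hw.1, hw.2]
  obtain ⟨θ, hθ⟩ : ∃ θ, x * s - c = θ * R := ⟨(x * s - c) / R, by field_simp⟩
  have θ1 : -1 ≤ θ := by by_contra h; nlinarith [ht.1]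
  have θ2 : θ ≤ 1 := by by_contra h; nlinarith [ht.2]
  have ex : x = (c + θ * R) / s := by rw [eq_div_iff hs.ne']; linarith
  have mlo : (c - R) / s ∈ Set.Icc ((c - R) / s) ((c + R) / s) :=
    ⟨le_rfl, div_le_div_of_nonneg_right (by linarith) hs.le⟩
  have mhi : (c + R) / s ∈ Set.Icc ((c - R) / s) ((c + R) / s) := ⟨mlo.2, le_rfl⟩
  have mx : x ∈ Set.Icc ((c - R) / s) ((c + R) / s) :=
    ⟨by rw [div_le_iff₀ hs]; linarith [ht.1], by rw [le_div_iff₀ hs]; linarith [ht.2]⟩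
  rw [hθ, show al * (θ * R) / s = θ * (al * R / s) by ring]
  generalize al * R / s = W at *
  constructor
  · rcases le_total 0 θ with h | h
    · have k := hg.2 mlo mx (show 0 ≤ θ / (1 + θ) by positivity) (show 0 ≤ 1 / (1 + θ) by positivity)
        (by field_simp; ring)
      have e : (θ / (1 + θ)) • ((c - R) / s) + (1 / (1 + θ)) • x = c / s := by
        rw [ex]; simp only [smul_eq_mul]; field_simp; ring
      rw [e] at k
      simp only [smul_eq_mul] at k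
      have k2 : (1 + θ) * (g (c / s) * s) ≤ θ * (g ((c - R) / s) * s) + g x * s := by
        have := mul_le_mul_of_nonneg_left k (by positivity : 0 ≤ (1 + θ) * s)
        have e2 : (1 + θ) * s * (θ / (1 + θ) * g ((c - R) / s) + 1 / (1 + θ) * g x)
            = θ * (g ((c - R) / s) * s) + g x * s := by field_simp
        linarith
      nlinarith [mul_le_mul_of_nonneg_left hl h, mul_le_mul_of_nonneg_left hc (by linarith : 0 ≤ 1 + θ),
        mul_le_mul_of_nonneg_left L1 h, mul_le_mul_of_nonneg_left L0 (by linarith : 0 ≤ 1 - θ),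
        mul_le_mul_of_nonneg_left hw.2 h]
    · have h' : 0 ≤ -θ := by linarith
      have h'' : 0 < 1 - θ := by linarith
      have k := hg.2 mhi mx (show 0 ≤ -θ / (1 - θ) by positivity) (show 0 ≤ 1 / (1 - θ) by positivity)
        (by field_simp; ring)
      have e : (-θ / (1 - θ)) • ((c + R) / s) + (1 / (1 - θ)) • x = c / s := by
        rw [ex]; simp only [smul_eq_mul]; field_simp; ring
      rw [e] at k
      simp only [smul_eq_mul] at k
      have k2 : (1 - θ) * (g (c / s) * s) ≤ -θ * (g ((c + R) / s) * s) + g x * s := by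
        have := mul_le_mul_of_nonneg_left k (by positivity : 0 ≤ (1 - θ) * s)
        have e2 : (1 - θ) * s * (-θ / (1 - θ) * g ((c + R) / s) + 1 / (1 - θ) * g x)
            = -θ * (g ((c + R) / s) * s) + g x * s := by field_simp
        linarith
      nlinarith [mul_le_mul_of_nonneg_left hh h', mul_le_mul_of_nonneg_left hc h''.le,
        mul_le_mul_of_nonneg_left L2 h', mul_le_mul_of_nonneg_left L0 (by linarith : 0 ≤ 1 + θ),
        mul_le_mul_of_nonneg_left hw.1 h']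
  · have a1 : 0 ≤ (1 - θ) / 2 := by linarith
    have a2 : 0 ≤ (1 + θ) / 2 := by linarith
    have k := hg.2 mlo mhi a1 a2 (by ring)
    have e : ((1 - θ) / 2) • ((c - R) / s) + ((1 + θ) / 2) • ((c + R) / s) = x := by
      rw [ex]; simp only [smul_eq_mul]; field_simp; ring
    rw [e] at k
    simp only [smul_eq_mul] at k
    have k2 := mul_le_mul_of_nonneg_right k hs.le
    nlinarith [mul_le_mul_of_nonneg_left hl a1, mul_le_mul_of_nonneg_left hh a2,
      mul_le_mul_of_nonneg_left U1 a1, mul_le_mul_of_nonneg_left U2 a2,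
      mul_le_mul_of_nonneg_left hw.1 a2, mul_le_mul_of_nonneg_left hw.2 a1]

end A

variable {e1 e2 : ℝ}

theorem Mem.add {x y : ℝ} {a b : AF} (ha : Mem e1 e2 x a) (hb : Mem e1 e2 y b) :
    Mem e1 e2 (x + y) (a.add b) := by
  rcases a with _ | ⟨cp, cn, ap, an, bp, bn, r⟩
  · trivial
  rcases b with _ | ⟨cp', cn', ap', an', bp', bn', r'⟩
  · trivial
  simp only [AF.add, Mem, Nat.add_eq, Nat.sub_eq, A.sub_cast] at ha hb ⊢
  push_cast
  rw [abs_le] at ha hb ⊢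
  constructor <;> linarith [ha.1, ha.2, hb.1, hb.2]

theorem Mem.neg {x : ℝ} {a : AF} (ha : Mem e1 e2 x a) : Mem e1 e2 (-x) a.neg := by
  rcases a with _ | ⟨cp, cn, ap, an, bp, bn, r⟩
  · trivial
  simp only [AF.neg, Mem] at ha ⊢
  rw [abs_le] at ha ⊢
  constructor <;> linarith [ha.1, ha.2]

theorem Mem.mul (h1 : |e1| ≤ 1) (h2 : |e2| ≤ 1) {x y : ℝ} {a b : AF} (ha : Mem e1 e2 x a)
    (hb : Mem e1 e2 y b) : Mem e1 e2 (x * y) (a.mul b) := by
  rcases a with _ | ⟨cp, cn, ap, an, bp, bn, r⟩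
  · trivial
  rcases b with _ | ⟨cp', cn', ap', an', bp', bn', r'⟩
  · trivial
  simp only [AF.mul, Mem, Nat.add_eq, Nat.sub_eq, Nat.mul_eq, Nat.shiftRight_eq,
    Nat.shiftRight_eq_div_pow] at ha hb ⊢
  have k := A.mul_real h1 h2 ha hb (A.abs_pair _ _) (A.abs_pair _ _) (A.abs_pair _ _)
    (A.abs_pair _ _) (A.abs_pair _ _) (A.abs_pair _ _)
  have hS : (0 : ℝ) < 2 ^ 40 := by positivity
  have k2 := div_le_div_of_nonneg_right k hS.le
  rw [← abs_of_pos hS, ← abs_div, abs_of_pos hS] at k2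
  refine le_trans (A.round h1 h2 (le_trans (le_of_eq ?_) k2) (A.pair_sub_div _ _ _)
    (A.pair_sub_div _ _ _) (A.pair_sub_div _ _ _)) ?_
  · congr 1; push_cast; ring
  · have f1 := A.le_div (ap * ap' + an * an' + (bp * bp' + bn * bn') + (ap * an' + an * ap' +
      (bp * bn' + bn * bp'))) (2 ^ 1)
    generalize (ap * ap' + an * an' + (bp * bp' + bn * bn') + (ap * an' + an * ap' +
      (bp * bn' + bn * bp'))) / 2 ^ 1 = h at f1 ⊢
    have f2 := A.le_div (h + ((ap + an) * (bp' + bn') + (bp + bn) * (ap' + an')) +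
      (cp + cn + r + (ap + an + (bp + bn))) * r' + (cp' + cn' + (ap' + an' + (bp' + bn'))) * r) (2 ^ 40)
    generalize (h + ((ap + an) * (bp' + bn') + (bp + bn) * (ap' + an')) +
      (cp + cn + r + (ap + an + (bp + bn))) * r' + (cp' + cn' + (ap' + an' + (bp' + bn'))) * r)
      / 2 ^ 40 = t at f2 ⊢
    push_cast at f1 f2 ⊢
    linarith

theorem Mem.smul (h1 : |e1| ≤ 1) (h2 : |e2| ≤ 1) (p q : ℕ) {x : ℝ} {a : AF} (ha : Mem e1 e2 x a) :
    Mem e1 e2 ((p : ℝ) / (q : ℝ) * x) (a.smul p q) := by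
  rcases a with _ | ⟨cp, cn, ap, an, bp, bn, r⟩
  · trivial
  have hd : ∀ x y : ℕ, Nat.div x y = x / y := fun _ _ => rfl
  simp only [AF.smul, Mem, Nat.add_eq, Nat.mul_eq, hd] at ha ⊢
  have hp : (0 : ℝ) ≤ (p : ℝ) / q := by positivity
  have k := mul_le_mul_of_nonneg_left ha hp
  rw [← abs_of_nonneg hp, ← abs_mul, abs_of_nonneg hp] at k
  refine le_trans (A.round h1 h2 (le_trans (le_of_eq ?_) k) (A.pair_div _ _ _)
    (A.pair_div _ _ _) (A.pair_div _ _ _)) ?_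
  · congr 1; push_cast; ring
  · have f1 := A.le_div (p * r) q
    generalize p * r / q = t at f1 ⊢
    push_cast at f1 ⊢
    rw [div_mul_eq_mul_div]
    linarith

theorem Mem.const (p d : ℕ) :
    Mem e1 e2 ((p : ℝ) / (d : ℝ)) (AF.mk (Nat.div (Nat.shiftLeft p 40) d) 0 0 0 0 0 1) := by
  have hd : ∀ x y : ℕ, Nat.div x y = x / y := fun _ _ => rfl
  simp only [Mem, hd, Nat.shiftLeft_eq', Nat.shiftLeft_eq]
  have f1 := A.le_div (p * 2 ^ 40) d
  have f2 := A.div_le (p * 2 ^ 40) d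
  generalize p * 2 ^ 40 / d = t at f1 f2 ⊢
  push_cast at f1 f2 ⊢
  rw [div_mul_eq_mul_div, _root_.abs_le]
  constructor <;> linarith

theorem Mem.log_two : Mem e1 e2 (Real.log 2) (AF.mk 762123384775 0 0 0 0 0 276) := by
  have f1 := Real.log_two_gt_d9
  have f2 := Real.log_two_lt_d9
  simp only [Mem]
  push_cast
  rw [_root_.abs_le]
  constructor <;> linarith

/-- the enclosed point lies within the radius of the centre -/
theorem Mem.abs_le (h1 : |e1| ≤ 1) (h2 : |e2| ≤ 1) {x : ℝ} {cp cn ap an bp bn r : ℕ}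
    (hx : Mem e1 e2 x (.mk cp cn ap an bp bn r)) :
    |x * 2 ^ 40 - ((cp : ℝ) - cn)| ≤ ((ap + an + (bp + bn) + r : ℕ) : ℝ) := by
  simp only [Mem] at hx
  have k1 := _root_.abs_le.1 (A.abs_mul_le (A.abs_pair ap an) h1)
  have k2 := _root_.abs_le.1 (A.abs_mul_le (A.abs_pair bp bn) h2)
  push_cast
  rw [_root_.abs_le] at hx ⊢
  constructor <;> linarith [hx.1, hx.2, k1.1, k1.2, k2.1, k2.2]

theorem three_sound (h1 : |e1| ≤ 1) (h2 : |e2| ≤ 1) {g : ℝ → ℝ} {x : ℝ}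
    {cp cn ap an bp bn r R ulp uln uhp uhn lp ln : ℕ}
    (hx : Mem e1 e2 x (.mk cp cn ap an bp bn r)) (hR : R = ap + an + (bp + bn) + r)
    (hg : ConvexOn ℝ (Set.Icc ((((cp : ℝ) - cn) - R) / 2 ^ 40) ((((cp : ℝ) - cn) + R) / 2 ^ 40)) g)
    (hl : g ((((cp : ℝ) - cn) - R) / 2 ^ 40) * 2 ^ 40 ≤ (ulp : ℝ) - uln)
    (hh : g ((((cp : ℝ) - cn) + R) / 2 ^ 40) * 2 ^ 40 ≤ (uhp : ℝ) - uhn)
    (hc : (lp : ℝ) - ln ≤ g (((cp : ℝ) - cn) / 2 ^ 40) * 2 ^ 40) :
    Mem e1 e2 (g x) (three ap an bp bn r R ulp uln uhp uhn lp ln) := by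
  have ht := Mem.abs_le h1 h2 hx
  rw [← hR] at ht
  simp only [three, frc_eq, Nat.add_eq, Nat.sub_eq, Nat.mul_eq, Nat.shiftRight_eq,
    Nat.shiftRight_eq_div_pow]
  generalize Nat.div (Nat.shiftLeft (uhp + uln - (uhn + ulp)) 40) (2 * R) = sp
  generalize Nat.div (Nat.shiftLeft (uhn + ulp - (uhp + uln)) 40) (2 * R) = sn
  have hw := A.pair_div (sp * R) (sn * R) (2 ^ 40)
  generalize sp * R / 2 ^ 40 = wp at hw ⊢
  generalize sn * R / 2 ^ 40 = wn at hw ⊢
  generalize ho : uln + uhn + (wp + wn) + (ln + ln + (ulp + uhp)) = o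
  generalize hU : o + ulp + wp - (uln + wn) + (o + uhp + wn - (uhn + wp) - (o + ulp + wp - (uln + wn))) = U
  generalize hL : o + lp - ln - (o + lp - ln - (o + lp + lp + (uln + wn) - (ln + ln + (ulp + wp)) -
    (o + lp + lp + (uln + wn) - (ln + ln + (ulp + wp)) - (o + lp + lp + (uhn + wp) -
      (ln + ln + (uhp + wn)))))) = L
  have U1 : o + ulp + wp ≤ U + (uln + wn) := by omega
  have U2 : o + uhp + wn ≤ U + (uhn + wp) := by omega
  have L0 : L + ln ≤ o + lp := by omega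
  have L1 : L + (ln + ln + (ulp + wp)) ≤ o + lp + lp + (uln + wn) := by omega
  have L2 : L + (ln + ln + (uhp + wn)) ≤ o + lp + lp + (uhn + wp) := by omega
  clear ho hU hL
  have U1' : (o : ℝ) + ulp + wp ≤ U + (uln + wn) := by exact_mod_cast U1
  have U2' : (o : ℝ) + uhp + wn ≤ U + (uhn + wp) := by exact_mod_cast U2
  have L0' : (L : ℝ) + ln ≤ o + lp := by exact_mod_cast L0
  have L1' : (L : ℝ) + (ln + ln + (ulp + wp)) ≤ o + lp + lp + (uln + wn) := by exact_mod_cast L1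
  have L2' : (L : ℝ) + (ln + ln + (uhp + wn)) ≤ o + lp + lp + (uhn + wp) := by exact_mod_cast L2
  have hS : (0 : ℝ) < 2 ^ 40 := by positivity
  obtain ⟨b1, b2⟩ := A.cvx_bounds (al := (sp : ℝ) - sn) (w := (wp : ℝ) - wn) (U := (U : ℝ) - o)
    (L := (L : ℝ) - o) hS hg ht hl hh hc
    (le_trans (le_of_eq (by congr 2; push_cast; ring)) hw)
    (by linarith) (by linarith) (by linarith) (by linarith) (by linarith)
  have m1 : 2 * ((U + L) / 2 ^ 1) ≤ U + L ∧ U + L ≤ 2 * ((U + L) / 2 ^ 1) + 1 := by omega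
  have m2 : U ≤ L + 2 * ((U - L + (L - U)) / 2 ^ 1) + 1 := by omega
  generalize (U + L) / 2 ^ 1 = m at m1 ⊢
  generalize (U - L + (L - U)) / 2 ^ 1 = hd at m2 ⊢
  have m3 : 2 * (m : ℝ) ≤ U + L := by exact_mod_cast m1.1
  have m4 : (U : ℝ) + L ≤ 2 * m + 1 := by exact_mod_cast m1.2
  have m5 : (U : ℝ) ≤ L + 2 * hd + 1 := by exact_mod_cast m2
  simp only [Mem, A.sub_cast] at hx ⊢
  have k := _root_.abs_le.1 (A.abs_mul_le (A.abs_pair sp sn) hx)
  have f1 := A.le_div ((sp + sn) * r) (2 ^ 40)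
  generalize (sp + sn) * r / 2 ^ 40 = t at f1 ⊢
  refine le_trans (A.round (c := (m : ℝ) - o) (d := 0) (T := t + hd + 4) h1 h2 ?_ (by simp)
    (A.pair_div _ _ _) (A.pair_div _ _ _)) (by push_cast; linarith)
  push_cast at f1 ⊢
  rw [_root_.abs_le]
  constructor <;> linarith [k.1, k.2]

end Vale.Agent.P322.Eng
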