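import Vale.Agent.P322.EngB

/-! Soundness of the evaluator and of the branch and bound checker. -/

namespace Vale.Agent.P322.Eng

namespace C

theorem sub_max (a b : ℕ) : ((a - b : ℕ) : ℝ) = max ((a : ℝ) - b) 0 := by
  rcases le_total a b with h | h
  · have : (a : ℝ) ≤ b := by exact_mod_cast h
    rw [Nat.sub_eq_zero_of_le h, max_eq_right (by linarith)]; simp
  · have : (b : ℝ) ≤ a := by exact_mod_cast h
    rw [Nat.cast_sub h, max_eq_left (by linarith)]

theorem max_div {z : ℝ} {n : ℕ} (h : (n : ℝ) = max z 0) : max (z / 2 ^ 40) 0 = (n : ℝ) / 2 ^ 40 := by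
  rw [h, ← max_div_div_right (by positivity), zero_div]

theorem sub_sq (a b : ℕ) : ((a - b + (b - a) : ℕ) : ℝ) ^ 2 = ((a : ℝ) - b) ^ 2 := by
  rcases le_total a b with h | h
  · rw [Nat.sub_eq_zero_of_le h, zero_add, Nat.cast_sub h]; ring
  · rw [Nat.sub_eq_zero_of_le h, add_zero, Nat.cast_sub h]

theorem sqD_le (x : ℕ) : (sqD x : ℝ) / 2 ^ 40 ≤ ((x : ℝ) / 2 ^ 40) ^ 2 := by
  have h := A.div_le (x * x) (2 ^ 40)
  have e : sqD x = x * x / 2 ^ 40 := Nat.shiftRight_eq_div_pow _ _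
  rw [e]
  generalize x * x / 2 ^ 40 = t at h ⊢
  push_cast at h
  nlinarith

theorem le_sqU (x : ℕ) : ((x : ℝ) / 2 ^ 40) ^ 2 ≤ (sqU x : ℝ) / 2 ^ 40 := by
  have e : sqU x = (x * x + 1099511627775) / 2 ^ 40 := Nat.shiftRight_eq_div_pow _ _
  have h : x * x ≤ sqU x * 1099511627776 := by rw [e]; omega
  have h2 : (x : ℝ) * x ≤ sqU x * 1099511627776 := by exact_mod_cast h
  nlinarith

theorem sqU_le {x m : ℕ} (h : x ≤ m) (hm : m ≤ 2 ^ 40) : sqU x ≤ m := by
  have e : sqU x = (x * x + 1099511627775) / 2 ^ 40 := Nat.shiftRight_eq_div_pow _ _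
  have h1 : x * x ≤ m * 2 ^ 40 := Nat.mul_le_mul h (h.trans hm)
  rw [e]; omega

theorem sqD_le' {x m : ℕ} (h : x ≤ m) (hm : m ≤ 2 ^ 40) : sqD x ≤ m := by
  have e : sqD x = x * x / 2 ^ 40 := Nat.shiftRight_eq_div_pow _ _
  have h1 : x * x ≤ m * 2 ^ 40 := Nat.mul_le_mul h (h.trans hm)
  rw [e]; omega

theorem serF_max (a b c d : ℕ) (x : ℝ) : serF a b c d (max x 0) = serF a b c d x := by
  simp only [serF, max_assoc, max_self]

theorem div_le_one {x : ℕ} (h : x ≤ 2 ^ 40) : (x : ℝ) / 2 ^ 40 ≤ 1 := by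
  rw [_root_.div_le_one (by positivity)]; exact_mod_cast h

theorem div_lt_one {x : ℕ} (h : x < 2 ^ 40) : (x : ℝ) / 2 ^ 40 < 1 := by
  rw [_root_.div_lt_one (by positivity)]; exact_mod_cast h

theorem inv_up {x : ℕ} : ((x : ℝ) / 2 ^ 40)⁻¹ * 2 ^ 40
    ≤ ((Nat.add (Nat.div 1208925819614629174706176 x) 1 : ℕ) : ℝ) - (0 : ℕ) := by
  have h := A.le_div 1208925819614629174706176 x
  have e : Nat.add (Nat.div 1208925819614629174706176 x) 1 = 1208925819614629174706176 / x + 1 := rfl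
  rw [e, inv_div]
  generalize 1208925819614629174706176 / x = t at h ⊢
  push_cast at h ⊢
  rw [div_eq_mul_inv] at h ⊢
  linarith

theorem inv_down {x : ℕ} : ((Nat.div 1208925819614629174706176 x : ℕ) : ℝ) - (0 : ℕ)
    ≤ ((x : ℝ) / 2 ^ 40)⁻¹ * 2 ^ 40 := by
  have h := A.div_le 1208925819614629174706176 x
  have e : Nat.div 1208925819614629174706176 x = 1208925819614629174706176 / x := rfl
  rw [e, inv_div]
  generalize 1208925819614629174706176 / x = t at h ⊢
  push_cast at h ⊢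
  rw [div_eq_mul_inv] at h ⊢
  linarith

theorem mem_cond {e1 e2 x : ℝ} {b : Bool} {a : AF} (h : b = true → Mem e1 e2 x a) :
    Mem e1 e2 x (cond b a .bad) := by
  cases b
  · trivial
  · exact h rfl

end C

variable {e1 e2 : ℝ}

theorem Mem.cvx (h1 : |e1| ≤ 1) (h2 : |e2| ≤ 1) (g : Fn) {x : ℝ} {a : AF} (ha : Mem e1 e2 x a) :
    Mem e1 e2 (g.R x) (a.cvx g) := by
  rcases a with _ | ⟨cp, cn, ap, an, bp, bn, r⟩
  · trivial
  simp only [AF.cvx, frc_eq, Nat.add_eq, Nat.sub_eq, Nat.mul_eq]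
  generalize hR : ap + an + (bp + bn) + r = R
  have hS : (0 : ℝ) < 2 ^ 40 := by positivity
  have elo : ((cp - (cn + R) : ℕ) : ℝ) = max ((cp : ℝ) - cn - R) 0 := by
    rw [C.sub_max]; push_cast; rw [sub_add_eq_sub_sub]
  have ehi : ((cp + R - cn : ℕ) : ℝ) = max ((cp : ℝ) - cn + R) 0 := by
    rw [C.sub_max]; push_cast; rw [add_sub_right_comm]
  have ec : ((cp - cn : ℕ) : ℝ) = max ((cp : ℝ) - cn) 0 := C.sub_max _ _
  have o1 : cp - (cn + R) ≤ cp + R - cn := by omega
  have o2 : cp - cn ≤ cp + R - cn := by omega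
  have pos : Nat.ble 1 (cp - (cn + R)) = true → (1 ≤ cp - (cn + R) ∧ 1 ≤ cp + R - cn ∧ 1 ≤ cp - cn) ∧
      (cp : ℝ) - cn - R = (cp - (cn + R) : ℕ) ∧ (cp : ℝ) - cn + R = (cp + R - cn : ℕ) ∧
      (cp : ℝ) - cn = (cp - cn : ℕ) ∧ Set.Icc (((cp : ℝ) - cn - R) / 2 ^ 40)
        (((cp : ℝ) - cn + R) / 2 ^ 40) ⊆ Set.Ioi 0 := by
    intro h
    have h3 := Nat.le_of_ble_eq_true h
    have h4 : (cp : ℝ) - cn - R = (cp - (cn + R) : ℕ) := by
      rw [Nat.cast_sub (by omega)]; push_cast; ring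
    refine ⟨by omega, h4, ?_, ?_, fun z hz => lt_of_lt_of_le ?_ hz.1⟩
    · rw [Nat.cast_sub (by omega)]; push_cast; ring
    · rw [Nat.cast_sub (by omega)]
    · rw [h4]; exact div_pos (by exact_mod_cast h3) hS
  have top : ((cp : ℝ) - cn + R) / 2 ^ 40 ≤ ((cp + R - cn : ℕ) : ℝ) / 2 ^ 40 := by
    rw [← C.max_div ehi]; exact le_max_left _ _
  cases g with
  | sq =>
    have up : ∀ (n : ℕ) (z : ℝ), (n : ℝ) ^ 2 = z ^ 2 →
        (z / 2 ^ 40) ^ 2 * 2 ^ 40 ≤ (sqU n : ℝ) - (0 : ℕ) := fun n z h => by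
      have := C.le_sqU n
      rw [div_pow, h, le_div_iff₀ hS, ← div_pow] at this
      simpa using this
    refine three_sound (g := fun x => x ^ 2) h1 h2 ha hR.symm
      ((Even.convexOn_pow (by decide)).subset (Set.subset_univ _) (convex_Icc _ _))
      (up _ _ ?_) (up _ _ ?_) ?_
    · rw [C.sub_sq]; push_cast; ring
    · rw [C.sub_sq]; push_cast; ring
    · have := C.sqD_le (cp - cn + (cn - cp))
      rw [div_pow, C.sub_sq, div_le_iff₀ hS, ← div_pow] at this
      simpa using this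
  | inv =>
    refine C.mem_cond fun h => ?_
    obtain ⟨-, p1, p2, p3, p4⟩ := pos h
    have cv : ConvexOn ℝ (Set.Ioi (0 : ℝ)) fun x => x⁻¹ := by simpa using convexOn_zpow (𝕜 := ℝ) (-1)
    refine three_sound (g := fun x => x⁻¹) h1 h2 ha hR.symm (cv.subset p4 (convex_Icc _ _)) ?_ ?_ ?_
    · rw [p1]; exact C.inv_up
    · rw [p2]; exact C.inv_up
    · rw [p3]; exact C.inv_down
  | nlog =>
    refine C.mem_cond fun h => ?_
    obtain ⟨⟨q1, q2, q3⟩, p1, p2, p3, p4⟩ := pos h
    refine three_sound (g := fun x => -Real.log x) h1 h2 ha hR.symm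
      (strictConcaveOn_log_Ioi.concaveOn.neg.subset p4 (convex_Icc _ _)) ?_ ?_ ?_
    · rw [p1]; have := logD_le q1; push_cast at this ⊢; linarith
    · rw [p2]; have := logD_le q2; push_cast at this ⊢; linarith
    · rw [p3]; have := le_logU q3; push_cast at this ⊢; linarith
  | pos =>
    refine three_sound (g := fun x => max x 0) h1 h2 ha hR.symm
      ((convexOn_id (convex_Icc _ _)).sup (convexOn_const 0 (convex_Icc _ _))) ?_ ?_ ?_
    · rw [C.max_div elo]; simp
    · rw [C.max_div ehi]; simp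
    · rw [C.max_div ec]; simp
  | ell =>
    refine C.mem_cond fun h => ?_
    have h3 : cp + R - cn ≤ 2 ^ 40 := Nat.le_of_ble_eq_true h
    have up : ∀ n : ℕ, n ≤ 2 ^ 40 → serF 2 1 2 2 (((n : ℝ) / 2 ^ 40) ^ 2) * 2 ^ 40
        ≤ (ellU (sqU n) : ℝ) - (0 : ℕ) := fun n hn => by
      have a1 := C.sqU_le hn le_rfl
      have a2 := mul_le_mul_of_nonneg_right (ell_mono (C.le_sqU n) (C.div_le_one a1)) hS.le
      simpa using a2.trans (le_ellU a1)
    refine three_sound (g := fun x => serF 2 1 2 2 ((max x 0) ^ 2)) h1 h2 ha hR.symm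
      (ell_convex.subset (fun z hz => (hz.2.trans top).trans (C.div_le_one h3)) (convex_Icc _ _))
      ?_ ?_ ?_
    · rw [C.max_div elo]; exact up _ (o1.trans h3)
    · rw [C.max_div ehi]; exact up _ h3
    · rw [C.max_div ec]
      have a1 := C.sqD_le' (o2.trans h3) le_rfl
      have a2 := mul_le_mul_of_nonneg_right (ell_mono (C.sqD_le (cp - cn))
        (pow_le_one₀ (by positivity) (C.div_le_one (o2.trans h3)))) hS.le
      simpa using (ellD_le a1).trans a2
  | ser a b c d =>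
    refine C.mem_cond fun h => ?_
    rw [Bool.and_eq_true] at h
    have h3 : cp + R - cn < 2 ^ 40 := Nat.lt_succ_of_le (Nat.le_of_ble_eq_true h.1)
    have h4 : 1 ≤ b * d := Nat.le_of_ble_eq_true h.2
    refine three_sound (g := serF a b c d) h1 h2 ha hR.symm
      ((serF_convex h4).subset (fun z hz => (hz.2.trans top).trans_lt (C.div_lt_one h3))
        (convex_Icc _ _)) ?_ ?_ ?_
    · rw [← C.serF_max, C.max_div elo]; simpa using le_serU h4 (o1.trans_lt h3)
    · rw [← C.serF_max, C.max_div ehi]; simpa using le_serU h4 h3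
    · rw [← C.serF_max, C.max_div ec]; simpa using serD_le h4 (o2.trans_lt h3)
  | ser2 a b c d =>
    refine C.mem_cond fun h => ?_
    rw [Bool.and_eq_true] at h
    have h3 : cp + R - cn < 2 ^ 40 := Nat.lt_succ_of_le (Nat.le_of_ble_eq_true h.1)
    have h4 : 1 ≤ b * d := Nat.le_of_ble_eq_true h.2
    have up : ∀ n : ℕ, n < 2 ^ 40 → serF a b c d (((n : ℝ) / 2 ^ 40) ^ 2) * 2 ^ 40
        ≤ (serU a b c d (sqU n) : ℝ) - (0 : ℕ) := fun n hn => by
      have a1 := (C.sqU_le le_rfl hn.le).trans_lt hn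
      have a2 := mul_le_mul_of_nonneg_right
        (serF_mono (a := a) (c := c) h4 (C.le_sqU n) (C.div_lt_one a1)) hS.le
      simpa using a2.trans (le_serU h4 a1)
    refine three_sound (g := fun x => serF a b c d ((max x 0) ^ 2)) h1 h2 ha hR.symm
      ((serF2_convex h4).subset (fun z hz => (hz.2.trans top).trans_lt (C.div_lt_one h3))
        (convex_Icc _ _)) ?_ ?_ ?_
    · rw [C.max_div elo]; exact up _ (o1.trans_lt h3)
    · rw [C.max_div ehi]; exact up _ h3
    · rw [C.max_div ec]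
      have a0 := o2.trans_lt h3
      have a1 := (C.sqD_le' le_rfl a0.le).trans_lt a0
      have a2 := mul_le_mul_of_nonneg_right (serF_mono (a := a) (c := c) h4 (C.sqD_le (cp - cn))
        (pow_lt_one₀ (by positivity) (C.div_lt_one a0) two_ne_zero)) hS.le
      simpa using (serD_le h4 a1).trans a2

theorem Mem.nlinv (h1 : |e1| ≤ 1) (h2 : |e2| ≤ 1) {x : ℝ} {a : AF} (ha : Mem e1 e2 x a) :
    Mem e1 e2 (-Real.log x)⁻¹ a.nlinv := by
  rcases a with _ | ⟨cp, cn, ap, an, bp, bn, r⟩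
  · trivial
  have ht := Mem.abs_le h1 h2 ha
  simp only [AF.nlinv, frc_eq, Nat.add_eq, Nat.sub_eq]
  generalize ap + an + (bp + bn) + r = R at ht ⊢
  cases Nat.ble (cn + R + 1) cp
  · refine C.mem_cond fun h => ?_
    have h3 := Nat.le_of_ble_eq_true h
    have h4 := le_logU (n := cp + cn + R + 1) (by omega)
    have h5 : ((30484935379960 - logU (cp + cn + R + 1) : ℕ) : ℝ)
        = 30484935379960 - logU (cp + cn + R + 1) := by rw [Nat.cast_sub (by omega)]; norm_num
    generalize 30484935379960 - logU (cp + cn + R + 1) = l at h3 h5 ⊢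
    have h6 := A.le_div 604462909807314587353088 l
    have e : Nat.div 604462909807314587353088 l = 604462909807314587353088 / l := rfl
    rw [e]
    generalize 604462909807314587353088 / l = t at h6 ⊢
    have hl : (0 : ℝ) < l := by exact_mod_cast h3
    have ht0 : (0 : ℝ) ≤ t := Nat.cast_nonneg t
    have key : 0 ≤ (-Real.log x)⁻¹ ∧ (-Real.log x)⁻¹ ≤ 2 ^ 40 / l := by
      by_cases hx : x = 0
      · subst hx; simp only [Real.log_zero, neg_zero, inv_zero]; exact ⟨le_rfl, by positivity⟩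
      have h7 : |x| ≤ ((cp + cn + R + 1 : ℕ) : ℝ) / 2 ^ 40 := by
        have := _root_.abs_le.1 (A.abs_pair cp cn)
        have := _root_.abs_le.1 ht
        rw [le_div_iff₀ (by positivity), ← abs_of_pos (by positivity : (0 : ℝ) < 2 ^ 40), ← abs_mul,
          _root_.abs_le]
        push_cast
        constructor <;> linarith
      have h8 := Real.log_le_log (abs_pos.2 hx) h7
      rw [Real.log_abs] at h8
      have h9 : (l : ℝ) / 2 ^ 40 ≤ -Real.log x := by
        rw [div_le_iff₀ (by positivity)]; linarith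
      have h10 : (0 : ℝ) < l / 2 ^ 40 := by positivity
      exact ⟨inv_nonneg.2 (h10.le.trans h9), (inv_anti₀ h10 h9).trans (inv_div _ _).le⟩
    simp only [Mem]
    push_cast at h6 ⊢
    rw [div_eq_mul_inv] at h6 key
    rw [_root_.abs_le]
    constructor <;> linarith [key.1, key.2]
  · exact Mem.cvx h1 h2 .inv (Mem.cvx h1 h2 .nlog ha)

theorem ev_sound (h1 : |e1| ≤ 1) (h2 : |e2| ≤ 1) {env : List AF} {envR : List ℝ}
    (h : ∀ i, Mem e1 e2 (nthR envR i) (nth env i)) (e : Ex) :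
    Mem e1 e2 (e.R envR) (e.ev env) := by
  induction e with
  | v i => exact h i
  | q p d => exact Mem.const p d
  | L => exact Mem.log_two
  | add a b ha hb => exact ha.add hb
  | neg a ha => exact ha.neg
  | mul a b ha hb => exact Mem.mul h1 h2 ha hb
  | smul p d a ha => exact Mem.smul h1 h2 p d ha
  | cvx g a ha => exact Mem.cvx h1 h2 g ha
  | nlinv a ha => exact Mem.nlinv h1 h2 ha

theorem run_sound (h1 : |e1| ≤ 1) (h2 : |e2| ≤ 1) (p : List Ex) {env : List AF} {envR : List ℝ}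
    (h : ∀ i, Mem e1 e2 (nthR envR i) (nth env i)) (i : ℕ) :
    Mem e1 e2 (nthR (runR p envR) i) (nth (run p env) i) := by
  induction p generalizing env envR with
  | nil => exact h i
  | cons e p ih =>
    have e0 : run (e :: p) env = run p (e.ev env :: env) :=
      frcA_eq (e.ev env) fun x => run p (x :: env)
    rw [e0]
    refine ih fun j => ?_
    cases j with
    | zero => exact ev_sound h1 h2 h e
    | succ j => exact h j

namespace C

theorem allNN_nn {n : ℕ} {l : List AF} (h : allNN n l = true) {i : ℕ} (hi : i < n) :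
    (nth l i).nn = true := by
  induction n with
  | zero => omega
  | succ n ih =>
    have e : allNN (n + 1) l = cond (nth l n).nn (allNN n l) false := rfl
    rw [e] at h
    cases hb : (nth l n).nn
    · rw [hb] at h; exact absurd h (by simp)
    · rw [hb] at h
      rcases Nat.lt_succ_iff_lt_or_eq.1 hi with h3 | h3
      · exact ih h h3
      · rw [h3, hb]

theorem nn_sound (h1 : |e1| ≤ 1) (h2 : |e2| ≤ 1) {x : ℝ} {a : AF} (ha : Mem e1 e2 x a)
    (h : a.nn = true) : 0 ≤ x := by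
  rcases a with _ | ⟨cp, cn, ap, an, bp, bn, r⟩
  · exact absurd h (by simp [AF.nn])
  have h3 : cn + r + (ap + an + (bp + bn)) ≤ cp := Nat.le_of_ble_eq_true h
  have h4 : (cn : ℝ) + r + (ap + an + (bp + bn)) ≤ cp := by exact_mod_cast h3
  have h5 := (abs_le.1 (Mem.abs_le h1 h2 ha)).1
  push_cast at h5
  linarith

theorem exists_noise {z : ℝ} {r : ℕ} (h : |z| ≤ (r : ℝ)) : ∃ e : ℝ, |e| ≤ 1 ∧ z = r * e := by
  rcases Nat.eq_zero_or_pos r with h0 | h0
  · subst h0
    exact ⟨0, by simp, by simpa using h⟩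
  · have h1 : (0 : ℝ) < r := by exact_mod_cast h0
    exact ⟨z / r, by rw [abs_div, abs_of_pos h1, _root_.div_le_one h1]; exact h, by field_simp⟩

theorem leaf_sound {p : List Ex} {k x y rx ry : ℕ} (h : leaf p k x y rx ry = true)
    (X Y : ℝ) (hX : |X * 2 ^ 40 - (x : ℝ)| ≤ (rx : ℝ)) (hY : |Y * 2 ^ 40 - (y : ℝ)| ≤ (ry : ℝ))
    (i : ℕ) (hi : i < k) : 0 ≤ nthR (runR p [Y, X]) i := by
  obtain ⟨e1, h1, a1⟩ := exists_noise hX
  obtain ⟨e2, h2, a2⟩ := exists_noise hY
  refine nn_sound h1 h2 (run_sound h1 h2 p (fun j => ?_) i) (allNN_nn h hi)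
  rcases j with _ | _ | j
  · change |_| ≤ _
    simp only [nthR, Nat.cast_zero, sub_zero, zero_mul, add_zero, abs_nonpos_iff]
    linarith
  · change |_| ≤ _
    simp only [nthR, Nat.cast_zero, sub_zero, zero_mul, add_zero, abs_nonpos_iff]
    linarith
  · trivial

theorem halves {x r h : ℕ} (hb : (Nat.beq (h + h) r && Nat.ble h x) = true) {z : ℝ}
    (hz : |z - x| ≤ (r : ℝ)) : |z - ((x - h : ℕ) : ℝ)| ≤ (h : ℝ) ∨ |z - ((x + h : ℕ) : ℝ)| ≤ (h : ℝ) := by
  rw [Bool.and_eq_true] at hb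
  have h1 : h + h = r := Nat.eq_of_beq_eq_true hb.1
  have h2 : h ≤ x := Nat.le_of_ble_eq_true hb.2
  subst h1
  rw [Nat.cast_sub h2]
  push_cast at hz ⊢
  simp only [abs_le] at hz ⊢
  rcases le_total z x with h3 | h3
  · left; constructor <;> linarith [hz.1]
  · right; constructor <;> linarith [hz.2]

theorem rec_ne {n : ℕ} {F : ℕ → ℕ}
    (h : Nat.rec (motive := fun _ => ℕ) 0 (fun c _ => F c) n ≠ 0) : n ≠ 0 ∧ ∃ c, F c ≠ 0 := by
  cases n with
  | zero => exact absurd rfl h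
  | succ n => exact ⟨n.succ_ne_zero, n, h⟩

theorem cond_ne {b : Bool} {n : ℕ} (h : cond b n 0 ≠ 0) : b = true ∧ n ≠ 0 := by
  cases b
  · exact absurd rfl h
  · exact ⟨rfl, h⟩

end C

theorem chk_sound (p : List Ex) (k f x y rx ry code : ℕ) (h : chk p k f x y rx ry code ≠ 0)
    (X Y : ℝ) (hX : |X * 2 ^ 40 - (x : ℝ)| ≤ (rx : ℝ)) (hY : |Y * 2 ^ 40 - (y : ℝ)| ≤ (ry : ℝ))
    (i : ℕ) (hi : i < k) :
    0 ≤ nthR (runR p [Y, X]) i := by
  induction f generalizing x y rx ry code with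
  | zero => exact absurd rfl h
  | succ f ih =>
    have e : chk p k (f + 1) x y rx ry code =
      frc (Nat.land code 3) fun dg => frc (Nat.shiftRight code 2) fun code =>
      cond (Nat.beq dg 0) (cond (leaf p k x y rx ry) (Nat.succ code) 0)
       (cond (Nat.beq dg 1)
        (frc (Nat.shiftRight rx 1) fun h => cond (Nat.beq (Nat.add h h) rx && Nat.ble h x)
          (frc (Nat.sub x h) fun x1 => frc (Nat.add x h) fun x2 =>
           Nat.rec (motive := fun _ => Nat) 0 (fun c _ => chk p k f x2 y h ry c)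
            (chk p k f x1 y h ry code)) 0)
        (frc (Nat.shiftRight ry 1) fun h => cond (Nat.beq (Nat.add h h) ry && Nat.ble h y)
          (frc (Nat.sub y h) fun y1 => frc (Nat.add y h) fun y2 =>
           Nat.rec (motive := fun _ => Nat) 0 (fun c _ => chk p k f x y2 rx h c)
            (chk p k f x y1 rx h code)) 0)) := rfl
    rw [e] at h
    simp only [frc_eq] at h
    revert h
    cases Nat.beq (Nat.land code 3) 0
    · cases Nat.beq (Nat.land code 3) 1
      · intro h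
        obtain ⟨a1, a2⟩ := C.cond_ne h
        obtain ⟨a3, c, a4⟩ := C.rec_ne a2
        rcases C.halves a1 hY with a5 | a5
        · exact ih _ _ _ _ _ a3 hX a5
        · exact ih _ _ _ _ _ a4 hX a5
      · intro h
        obtain ⟨a1, a2⟩ := C.cond_ne h
        obtain ⟨a3, c, a4⟩ := C.rec_ne a2
        rcases C.halves a1 hX with a5 | a5
        · exact ih _ _ _ _ _ a3 a5 hY
        · exact ih _ _ _ _ _ a4 a5 hY
    · intro h
      exact C.leaf_sound (C.cond_ne h).1 X Y hX hY i hi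

end Vale.Agent.P322.Eng
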