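import Vale.Agent.P322.EngC

/-! Certificates with affine parameters attached to the leaves. -/

namespace Vale.Agent.P322.Eng

inductive T where
  | leaf (a b c a' b' c' : Nat)
  | sx (l r : T)
  | sy (l r : T)

/-- an affine function of the two variables, which sit at positions `n + 1` and `n` -/
def aff (a b c n : Nat) : Ex :=
  .add (.add (.q a 4096) (.smul b 4096 (.v (Nat.succ n))))
    (.add (.smul c 4096 (.v n)) (.neg (.smul 16 1 (.add (.add (.q 1 1) (.v (Nat.succ n))) (.v n)))))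

noncomputable def chkT (mk : Nat → Nat → Nat → Nat → Nat → Nat → List Ex) (k : Nat) (t : T) :
    Nat → Nat → Nat → Nat → Bool :=
  T.rec (motive := fun _ => Nat → Nat → Nat → Nat → Bool)
    (fun a b c a' b' c' x y rx ry => Nat.ble 1 (chk (mk a b c a' b' c') k 1 x y rx ry 0))
    (fun _ _ l r x y rx ry => frc (Nat.shiftRight rx 1) fun h =>
      cond (Nat.beq (Nat.add h h) rx && Nat.ble h x)
        (frc (Nat.sub x h) fun x1 => frc (Nat.add x h) fun x2 => cond (l x1 y h ry) (r x2 y h ry) false)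
        false)
    (fun _ _ l r x y rx ry => frc (Nat.shiftRight ry 1) fun h =>
      cond (Nat.beq (Nat.add h h) ry && Nat.ble h y)
        (frc (Nat.sub y h) fun y1 => frc (Nat.add y h) fun y2 => cond (l x y1 rx h) (r x y2 rx h) false)
        false) t

theorem half_cases {X : ℝ} {x h r : ℕ} (h1 : h + h = r) (h2 : h ≤ x) (hX : |X - (x : ℝ)| ≤ (r : ℝ)) :
    |X - ((x - h : ℕ) : ℝ)| ≤ (h : ℝ) ∨ |X - ((x + h : ℕ) : ℝ)| ≤ (h : ℝ) := by
  rw [Nat.cast_sub h2, Nat.cast_add]
  have : (r : ℝ) = h + h := by rw [← h1]; push_cast; ring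
  rw [abs_le] at hX
  rcases le_total X x with h | h
  · left; rw [abs_le]; constructor <;> linarith [hX.1, hX.2]
  · right; rw [abs_le]; constructor <;> linarith [hX.1, hX.2]

theorem chkT_sound (mk : Nat → Nat → Nat → Nat → Nat → Nat → List Ex) (k : Nat) (t : T) (X Y : ℝ) :
    ∀ x y rx ry : ℕ, chkT mk k t x y rx ry = true → |X * 2 ^ 40 - (x : ℝ)| ≤ (rx : ℝ) →
      |Y * 2 ^ 40 - (y : ℝ)| ≤ (ry : ℝ) →
      ∃ a b c a' b' c', ∀ i < k, 0 ≤ nthR (runR (mk a b c a' b' c') [Y, X]) i := by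
  induction t with
  | leaf a b c a' b' c' =>
    intro x y rx ry h hX hY
    refine ⟨a, b, c, a', b', c', fun i hi => chk_sound _ k 1 x y rx ry 0 ?_ X Y hX hY i hi⟩
    have h' : Nat.ble 1 (chk (mk a b c a' b' c') k 1 x y rx ry 0) = true := h
    rw [Nat.ble_eq] at h'
    omega
  | sx l r ihl ihr =>
    intro x y rx ry h hX hY
    have h' : cond (Nat.beq (Nat.add (Nat.shiftRight rx 1) (Nat.shiftRight rx 1)) rx &&
        Nat.ble (Nat.shiftRight rx 1) x)
        (cond (chkT mk k l (x - Nat.shiftRight rx 1) y (Nat.shiftRight rx 1) ry)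
          (chkT mk k r (x + Nat.shiftRight rx 1) y (Nat.shiftRight rx 1) ry) false) false = true := by
      have e : chkT mk k (.sx l r) x y rx ry = frc (Nat.shiftRight rx 1) fun h =>
        cond (Nat.beq (Nat.add h h) rx && Nat.ble h x)
          (frc (Nat.sub x h) fun x1 => frc (Nat.add x h) fun x2 =>
            cond (chkT mk k l x1 y h ry) (chkT mk k r x2 y h ry) false) false := rfl
      rw [e] at h
      simp only [frc_eq] at h
      exact h
    generalize Nat.shiftRight rx 1 = hh at h'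
    simp only [Bool.cond_eq_ite, Bool.and_eq_true, Nat.beq_eq, Nat.ble_eq, Nat.add_eq,
      Bool.if_false_right, Bool.decide_and, decide_eq_true_eq, Bool.decide_eq_true] at h'
    obtain ⟨⟨h1, h2⟩, h3, h4⟩ := h'
    rcases half_cases h1 h2 hX with h5 | h5
    · exact ihl _ _ _ _ h3 h5 hY
    · exact ihr _ _ _ _ h4 h5 hY
  | sy l r ihl ihr =>
    intro x y rx ry h hX hY
    have h' : cond (Nat.beq (Nat.add (Nat.shiftRight ry 1) (Nat.shiftRight ry 1)) ry &&
        Nat.ble (Nat.shiftRight ry 1) y)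
        (cond (chkT mk k l x (y - Nat.shiftRight ry 1) rx (Nat.shiftRight ry 1))
          (chkT mk k r x (y + Nat.shiftRight ry 1) rx (Nat.shiftRight ry 1)) false) false = true := by
      have e : chkT mk k (.sy l r) x y rx ry = frc (Nat.shiftRight ry 1) fun h =>
        cond (Nat.beq (Nat.add h h) ry && Nat.ble h y)
          (frc (Nat.sub y h) fun y1 => frc (Nat.add y h) fun y2 =>
            cond (chkT mk k l x y1 rx h) (chkT mk k r x y2 rx h) false) false := rfl
      rw [e] at h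
      simp only [frc_eq] at h
      exact h
    generalize Nat.shiftRight ry 1 = hh at h'
    simp only [Bool.cond_eq_ite, Bool.and_eq_true, Nat.beq_eq, Nat.ble_eq, Nat.add_eq,
      Bool.if_false_right, Bool.decide_and, decide_eq_true_eq, Bool.decide_eq_true] at h'
    obtain ⟨⟨h1, h2⟩, h3, h4⟩ := h'
    rcases half_cases h1 h2 hY with h5 | h5
    · exact ihl _ _ _ _ h3 hX h5
    · exact ihr _ _ _ _ h4 hX h5

theorem runR_cons {e : Ex} {p : List Ex} {env : List ℝ} (x : ℝ) (h : x = e.R env) :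
    runR (e :: p) env = runR p (x :: env) := by
  rw [h]; rfl

theorem box_of {X lo hi : ℝ} {x r : ℕ} (h0 : lo ≤ X) (h1 : X ≤ hi) (e0 : (x : ℝ) - r = lo * 2 ^ 40)
    (e1 : (x : ℝ) + r = hi * 2 ^ 40) : |X * 2 ^ 40 - (x : ℝ)| ≤ (r : ℝ) := by
  rw [abs_le]
  constructor <;> nlinarith

end Vale.Agent.P322.Eng
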