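import Mathlib

namespace Vale.Agent.P322

open Real Set

theorem log_ratio_ge {p : ℝ} (h0 : 0 < p) (h1 : p < 1 / 2) :
    2 * (1 - 2 * p) ≤ log (1 - p) - log p := by
  have key : AntitoneOn (fun p => log (1 - p) - log p - 2 * (1 - 2 * p)) (Icc p (1 / 2)) := by
    have hd : ∀ x ∈ Icc p (1 / 2), HasDerivAt (fun p => log (1 - p) - log p - 2 * (1 - 2 * p))
        (-1 / (1 - x) - x⁻¹ - 2 * (-2)) x := by
      intro x hx
      have hx0 : x ≠ 0 := by linarith [hx.1]
      have hx1 : 1 - x ≠ 0 := by linarith [hx.2]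
      have a1 := ((hasDerivAt_id x).const_sub 1).log hx1
      have a2 := hasDerivAt_log hx0
      have a3 := (((hasDerivAt_id x).const_mul 2).const_sub 1).const_mul 2
      refine HasDerivAt.congr_deriv ((a1.sub a2).sub a3) ?_
      simp
    refine antitoneOn_of_deriv_nonpos (convex_Icc _ _)
      (fun x hx => (hd x hx).continuousAt.continuousWithinAt)
      (fun x hx => (hd x (interior_subset hx)).differentiableAt.differentiableWithinAt) ?_
    intro x hx
    have hx' := interior_subset hx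
    rw [(hd x hx').deriv]
    have hx0 : 0 < x := by linarith [hx'.1]
    have hx1 : 0 < 1 - x := by linarith [hx'.2]
    have : -1 / (1 - x) - x⁻¹ - 2 * (-2) = -(1 - 2 * x) ^ 2 / (x * (1 - x)) := by
      field_simp; ring
    rw [this]
    exact div_nonpos_of_nonpos_of_nonneg (by nlinarith [sq_nonneg (1 - 2 * x)]) (by positivity)
  have := key ⟨le_rfl, h1.le⟩ ⟨h1.le, le_rfl⟩ h1.le
  norm_num at this
  linarith

noncomputable def kk (p : ℝ) : ℝ := √(p * (1 - p)) * (log (1 - p) - log p) / (1 - 2 * p)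

theorem sqrt_deriv {x : ℝ} (h0 : 0 < x) (h1 : x < 1) :
    HasDerivAt (fun p => √(p * (1 - p))) ((1 - 2 * x) / (2 * √(x * (1 - x)))) x := by
  have : HasDerivAt (fun p : ℝ => p * (1 - p)) (1 - 2 * x) x := by
    refine HasDerivAt.congr_deriv ((hasDerivAt_id x).mul ((hasDerivAt_id x).const_sub 1)) ?_
    simp; ring
  exact this.sqrt (by have : 0 < 1 - x := by linarith
                      positivity)

theorem kk_mono : MonotoneOn kk (Ioo 0 (1 / 2)) := by
  have hd : ∀ x ∈ Ioo (0 : ℝ) (1 / 2), HasDerivAt kk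
      (((log (1 - x) - log x) - 2 * (1 - 2 * x)) / (2 * √(x * (1 - x)) * (1 - 2 * x) ^ 2)) x := by
    intro x hx
    have hx0 : 0 < x := hx.1
    have hx1 : 0 < 1 - x := by linarith [hx.2]
    have hx2 : 0 < 1 - 2 * x := by linarith [hx.2]
    have a0 := sqrt_deriv hx0 (by linarith)
    have a1 := ((hasDerivAt_id x).const_sub 1).log hx1.ne'
    have a2 := hasDerivAt_log hx0.ne'
    have a3 := ((hasDerivAt_id x).const_mul 2).const_sub 1
    have hw : 0 < √(x * (1 - x)) := sqrt_pos.2 (by positivity)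
    have hw2 : √(x * (1 - x)) ^ 2 = x * (1 - x) := sq_sqrt (by positivity)
    refine HasDerivAt.congr_deriv ((a0.mul (a1.sub a2)).div a3 hx2.ne') ?_
    simp only [id, Pi.sub_apply, Pi.mul_apply]
    set w := √(x * (1 - x))
    set L := log (1 - x) - log x
    have e : -1 / (1 - x) - x⁻¹ = -1 / w ^ 2 := by rw [hw2]; field_simp; ring
    rw [e]
    field_simp
    linear_combination (4 * L) * hw2
  refine monotoneOn_of_deriv_nonneg (convex_Ioo _ _)
    (fun x hx => (hd x hx).continuousAt.continuousWithinAt)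
    (fun x hx => (hd x (interior_subset hx)).differentiableAt.differentiableWithinAt) ?_
  intro x hx
  have hx' := interior_subset hx
  rw [(hd x hx').deriv]
  exact div_nonneg (by linarith [log_ratio_ge hx'.1 hx'.2]) (by positivity)

/-- tangent line inequality: entropy as a convex function of `√(p(1-p))` -/
theorem ent_tangent {ε : ℝ} (h0 : 0 < ε) (h1 : ε < 1 / 2) {p : ℝ} (hp0 : 0 ≤ p) (hp1 : p ≤ 1) :
    binEntropy ε - 2 * kk ε * √(ε * (1 - ε)) ≤ binEntropy p - 2 * kk ε * √(p * (1 - p)) := by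
  set g : ℝ → ℝ := fun p => binEntropy p - 2 * kk ε * √(p * (1 - p)) with hg
  have hc : Continuous g := by simp only [hg]; fun_prop
  have hd : ∀ x ∈ Ioo (0 : ℝ) (1 / 2), HasDerivAt g
      ((1 - 2 * x) / √(x * (1 - x)) * (kk x - kk ε)) x := by
    intro x hx
    have hx0 : 0 < x := hx.1
    have hx1 : 0 < 1 - x := by linarith [hx.2]
    have hx2 : 0 < 1 - 2 * x := by linarith [hx.2]
    have hw : 0 < √(x * (1 - x)) := sqrt_pos.2 (by positivity)
    refine HasDerivAt.congr_deriv ((hasDerivAt_binEntropy hx0.ne' (by linarith)).sub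
      ((sqrt_deriv hx0 (by linarith)).const_mul (2 * kk ε))) ?_
    have e : (1 - 2 * x) * kk x = √(x * (1 - x)) * (log (1 - x) - log x) := by
      unfold kk; rw [mul_div_cancel₀ _ hx2.ne']
    field_simp
    linear_combination -e
  have hpos : ∀ x ∈ Ioo (0 : ℝ) (1 / 2), 0 ≤ (1 - 2 * x) / √(x * (1 - x)) := fun x hx =>
    div_nonneg (by linarith [hx.2]) (sqrt_nonneg _)
  have half : ∀ p, 0 ≤ p → p ≤ 1 / 2 → g ε ≤ g p := by
    intro p hp0 hp1
    rcases le_total p ε with h | h
    · have : AntitoneOn g (Icc 0 ε) := by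
        refine antitoneOn_of_deriv_nonpos (convex_Icc _ _) hc.continuousOn ?_ ?_
        · intro x hx
          rw [interior_Icc] at hx
          exact (hd x ⟨hx.1, hx.2.trans h1⟩).differentiableAt.differentiableWithinAt
        · intro x hx
          rw [interior_Icc] at hx
          have hx' : x ∈ Ioo (0 : ℝ) (1 / 2) := ⟨hx.1, hx.2.trans h1⟩
          rw [(hd x hx').deriv]
          exact mul_nonpos_of_nonneg_of_nonpos (hpos x hx')
            (sub_nonpos.2 (kk_mono hx' ⟨h0, h1⟩ hx.2.le))
      exact this ⟨hp0, h⟩ ⟨h0.le, le_rfl⟩ h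
    · have : MonotoneOn g (Icc ε (1 / 2)) := by
        refine monotoneOn_of_deriv_nonneg (convex_Icc _ _) hc.continuousOn ?_ ?_
        · intro x hx
          rw [interior_Icc] at hx
          exact (hd x ⟨h0.trans hx.1, hx.2⟩).differentiableAt.differentiableWithinAt
        · intro x hx
          rw [interior_Icc] at hx
          have hx' : x ∈ Ioo (0 : ℝ) (1 / 2) := ⟨h0.trans hx.1, hx.2⟩
          rw [(hd x hx').deriv]
          exact mul_nonneg (hpos x hx') (sub_nonneg.2 (kk_mono ⟨h0, h1⟩ hx' hx.1.le))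
      exact this ⟨le_rfl, h1.le⟩ ⟨h, hp1⟩ h
  rcases le_total p (1 / 2) with h | h
  · exact half p hp0 h
  · have := half (1 - p) (by linarith) (by linarith)
    simp only [hg, binEntropy_one_sub, sub_sub_cancel] at this
    rwa [mul_comm (1 - p) p] at this

theorem kk_nonneg {ε : ℝ} (h0 : 0 < ε) (h1 : ε < 1 / 2) : 0 ≤ kk ε :=
  div_nonneg (mul_nonneg (sqrt_nonneg _) (by linarith [log_ratio_ge h0 h1])) (by linarith)

end Vale.Agent.P322
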