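import Mathlib

/-! One variable functions used in the proof of the Courtade-Kumar inequality (in nats). -/

namespace Vale.Agent.P322.CK

open Real Set

noncomputable section

def A (u : ℝ) : ℝ := (log (1 + u) - log (1 - u)) / 2
def ell (u : ℝ) : ℝ := ((1 + u) * log (1 + u) + (1 - u) * log (1 - u)) / 2
def H (u : ℝ) : ℝ := log 2 - ell u
def mu (r : ℝ) : ℝ := if r = 0 then 2 else 1 + r / ((1 - r ^ 2) * A r)
def dmu (r : ℝ) : ℝ := ((1 + r ^ 2) * A r - r) / ((1 - r ^ 2) ^ 2 * A r ^ 2)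
def beta (r : ℝ) : ℝ := r * A r + mu r * H r
def Lam (t : ℝ) : ℝ := log 2 - log (1 - t ^ 2) / 2
def nu (t : ℝ) : ℝ := t ^ 2 / ((1 - t ^ 2) * Lam t)
def gam (t : ℝ) : ℝ := A t + nu t * H t / t
def w (a : ℝ) : ℝ := (1 - a ^ 2) * (1 + (1 - 1 / (2 * log 2)) * a ^ 2 - a ^ 4 / 5)
def J (x y : ℝ) : ℝ := (x - y) * (A x - A y) / 4
def Hb (z d : ℝ) : ℝ := (H (z + d) + H (z - d)) / 2
def wb (z d : ℝ) : ℝ := (w (z + d) + w (z - d)) / 2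
def Dh (z d : ℝ) : ℝ := 1 / (2 * log 2) + (6 / 5 - 1 / (2 * log 2)) * (6 * z ^ 2 + d ^ 2)
  - (15 * (z ^ 2 * (z ^ 2 + d ^ 2)) + d ^ 4) / 5
def kT (z d : ℝ) : ℝ := d ^ 2 / ((1 + z) ^ 2 * log (2 / (1 + z)))
def tau (z d : ℝ) : ℝ := kT z d / (1 + kT z d / 2)

end

end Vale.Agent.P322.CK
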