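import Vale.Agent.P322.Fun

/-! Calculus of `A`, `ell`, `H`, `w`. -/

namespace Vale.Agent.P322.CK

open Real Set

theorem FA.le_of_der {f f' : ℝ → ℝ} {a b : ℝ} (hab : a ≤ b) (hc : ContinuousOn f (Icc a b))
    (hd : ∀ x ∈ Ioo a b, HasDerivAt f (f' x) x) (h0 : ∀ x ∈ Ioo a b, 0 ≤ f' x) : f a ≤ f b := by
  rcases hab.eq_or_lt with rfl | h
  · exact le_rfl
  obtain ⟨c, hc, e⟩ := exists_hasDerivAt_eq_slope f f' h hc hd
  have := h0 c hc
  rw [e, le_div_iff₀ (sub_pos.2 h)] at this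
  linarith

theorem FA.le_of_der' {f f' : ℝ → ℝ} {a b : ℝ} (hab : a ≤ b)
    (hd : ∀ x ∈ Icc a b, HasDerivAt f (f' x) x) (h0 : ∀ x ∈ Ioo a b, 0 ≤ f' x) : f a ≤ f b :=
  FA.le_of_der hab (fun x hx => (hd x hx).continuousAt.continuousWithinAt)
    (fun x hx => hd x (Ioo_subset_Icc_self hx)) h0

theorem FA.one_sub_sq_pos {u : ℝ} (h : |u| < 1) : 0 < 1 - u ^ 2 :=
  sub_pos.2 ((sq_lt_one_iff_abs_lt_one u).2 h)

theorem FA.abs_lt_of {a b x : ℝ} (ha : -1 < a) (hb : b < 1) (hx : x ∈ Icc a b) : |x| < 1 :=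
  abs_lt.2 ⟨ha.trans_le hx.1, hx.2.trans_lt hb⟩

theorem FA.c_bd : 0.7213 < 1 / (2 * log 2) ∧ 1 / (2 * log 2) < 0.7214 := by
  have h1 := log_two_gt_d9
  have h2 := log_two_lt_d9
  rw [lt_div_iff₀ (by linarith), div_lt_iff₀ (by linarith)]
  constructor <;> linarith

theorem hasDerivAt_A {u : ℝ} (h : |u| < 1) : HasDerivAt A (1 / (1 - u ^ 2)) u := by
  obtain ⟨h1, h2⟩ := abs_lt.1 h
  have a : 1 + u ≠ 0 := by linarith
  have b : 1 - u ≠ 0 := by linarith
  have c : 1 - u ^ 2 ≠ 0 := (FA.one_sub_sq_pos h).ne'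
  refine (((((hasDerivAt_id' u).const_add 1).log a).fun_sub
    (((hasDerivAt_id' u).const_sub 1).log b)).div_const 2).congr_deriv ?_
  field_simp
  ring

theorem hasDerivAt_ell {u : ℝ} (h : |u| < 1) : HasDerivAt ell (A u) u := by
  obtain ⟨h1, h2⟩ := abs_lt.1 h
  have a : 1 + u ≠ 0 := by linarith
  have b : 1 - u ≠ 0 := by linarith
  have p := (hasDerivAt_id' u).const_add 1
  have q := (hasDerivAt_id' u).const_sub 1
  refine (((p.fun_mul (p.log a)).fun_add (q.fun_mul (q.log b))).div_const 2).congr_deriv ?_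
  unfold A
  field_simp
  ring

theorem hasDerivAt_H {u : ℝ} (h : |u| < 1) : HasDerivAt H (-A u) u := by
  exact (hasDerivAt_ell h).const_sub _

theorem A_zero : A 0 = 0 := by simp [A]
theorem ell_zero : ell 0 = 0 := by simp [ell]
theorem H_zero : H 0 = log 2 := by simp [H, ell]
theorem A_neg (u : ℝ) : A (-u) = -A u := by simp only [A, sub_neg_eq_add, ← sub_eq_add_neg]; ring
theorem ell_neg (u : ℝ) : ell (-u) = ell u := by
  simp only [ell, sub_neg_eq_add, ← sub_eq_add_neg]; ring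
theorem H_neg (u : ℝ) : H (-u) = H u := by simp only [H, ell_neg]
theorem w_neg (u : ℝ) : w (-u) = w u := by simp only [w]; ring
theorem J_comm (x y : ℝ) : J x y = J y x := by simp only [J]; ring
theorem J_neg (x y : ℝ) : J (-x) (-y) = J x y := by simp only [J, A_neg]; ring
theorem ell_one : ell 1 = log 2 := by norm_num [ell]
theorem H_one : H 1 = 0 := by simp [H, ell_one]

theorem continuous_ell : Continuous ell := by
  exact ((continuous_mul_log.comp (continuous_const.add continuous_id)).add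
    (continuous_mul_log.comp (continuous_const.sub continuous_id))).div_const 2

theorem continuous_H : Continuous H := by
  exact continuous_const.sub continuous_ell

theorem A_mono {x y : ℝ} (hx : -1 < x) (hxy : x ≤ y) (hy : y < 1) : A x ≤ A y := by
  have a := log_le_log (by linarith : 0 < 1 + x) (by linarith : 1 + x ≤ 1 + y)
  have b := log_le_log (by linarith : 0 < 1 - y) (by linarith : 1 - y ≤ 1 - x)
  unfold A
  linarith

theorem J_nonneg {x y : ℝ} (hx : |x| < 1) (hy : |y| < 1) : 0 ≤ J x y := by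
  obtain ⟨h1, h2⟩ := abs_lt.1 hx
  obtain ⟨h3, h4⟩ := abs_lt.1 hy
  unfold J
  rcases le_total x y with h | h
  · nlinarith [A_mono h1 h h4]
  · nlinarith [A_mono h3 h h2]

theorem le_A {r : ℝ} (h0 : 0 ≤ r) (h1 : r < 1) : r ≤ A r := by
  have := FA.le_of_der' (f := fun x => A x - x) h0
    (fun x hx => (hasDerivAt_A (FA.abs_lt_of (by norm_num) h1 hx)).fun_sub (hasDerivAt_id' x))
    fun x hx => by
      have := FA.one_sub_sq_pos (FA.abs_lt_of (by norm_num) h1 (Ioo_subset_Icc_self hx))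
      rw [sub_nonneg, le_div_iff₀ this]
      nlinarith
  simp only [A_zero] at this
  linarith

theorem A_pos {r : ℝ} (h0 : 0 < r) (h1 : r < 1) : 0 < A r := by
  exact h0.trans_le (le_A h0.le h1)

theorem A_le {r : ℝ} (h0 : 0 ≤ r) (h1 : r < 1) : (1 - r ^ 2) * A r ≤ r := by
  have := FA.le_of_der' (f := fun x => x - (1 - x ^ 2) * A x) (f' := fun x => 2 * x * A x) h0
    (fun x hx => by
      have a := FA.abs_lt_of (by norm_num) h1 hx
      have b := (FA.one_sub_sq_pos a).ne'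
      refine ((hasDerivAt_id' x).fun_sub ((((hasDerivAt_id' x).fun_pow 2).const_sub 1).fun_mul
        (hasDerivAt_A a))).congr_deriv ?_
      field_simp
      ring)
    fun x hx => by
      have := A_pos hx.1 (hx.2.trans h1)
      have := hx.1
      positivity
  simp only [A_zero] at this
  linarith

theorem A_big {r : ℝ} (h0 : 15 / 17 ≤ r) (h1 : r < 1) : 2 * log 2 ≤ A r := by
  refine le_trans (le_of_eq ?_) (A_mono (by norm_num) h0 h1)
  unfold A
  rw [← log_div (by norm_num) (by norm_num), show ((1 : ℝ) + 15 / 17) / (1 - 15 / 17) = 2 ^ 4 by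
    norm_num, log_pow]
  norm_num
  ring

theorem ell_ge4 {u : ℝ} (h : |u| ≤ 1) : u ^ 2 / 2 + u ^ 4 / 12 ≤ ell u := by
  have k : ∀ r : ℝ, 0 ≤ r → r < 1 → r + r ^ 3 / 3 ≤ A r := fun r h0 h1 => by
    have := FA.le_of_der' (f := fun x => A x - (x + x ^ 3 / 3)) h0
      (fun x hx => (hasDerivAt_A (FA.abs_lt_of (by norm_num) h1 hx)).fun_sub
        ((hasDerivAt_id' x).fun_add (((hasDerivAt_id' x).fun_pow 3).div_const 3)))
      fun x hx => by
        have := FA.one_sub_sq_pos (FA.abs_lt_of (by norm_num) h1 (Ioo_subset_Icc_self hx))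
        rw [sub_nonneg, le_div_iff₀ this]
        norm_num
        nlinarith [sq_nonneg (x ^ 2)]
    simp only [A_zero] at this
    linarith
  wlog h0 : 0 ≤ u generalizing u
  · have := this (u := -u) (by rwa [abs_neg]) (by linarith)
    rw [ell_neg] at this
    linarith
  have h1 := (abs_le.1 h).2
  have := FA.le_of_der (f := fun x => ell x - (x ^ 2 / 2 + x ^ 4 / 12))
    (f' := fun x => A x - (x + x ^ 3 / 3)) h0
    (continuous_ell.sub (by fun_prop)).continuousOn
    (fun x hx => ((hasDerivAt_ell (abs_lt.2 ⟨by linarith [hx.1], by linarith [hx.2]⟩)).fun_sub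
      ((((hasDerivAt_id' x).fun_pow 2).div_const 2).fun_add
        (((hasDerivAt_id' x).fun_pow 4).div_const 12))).congr_deriv (by norm_num; ring))
    fun x hx => sub_nonneg.2 (k x hx.1.le (hx.2.trans_le h1))
  simp only [ell_zero] at this
  linarith

theorem ell_ge {u : ℝ} (h : |u| ≤ 1) : u ^ 2 / 2 ≤ ell u := by
  have := ell_ge4 h
  have : 0 ≤ u ^ 4 := by positivity
  linarith

theorem H_le {u : ℝ} (h : |u| ≤ 1) : H u ≤ log 2 := by
  have := ell_ge h
  have := sq_nonneg u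
  unfold H
  linarith

theorem H_strictAnti : StrictAntiOn H (Icc 0 1) := by
  refine strictAntiOn_of_deriv_neg (convex_Icc 0 1) continuous_H.continuousOn fun x hx => ?_
  rw [interior_Icc] at hx
  rw [(hasDerivAt_H (abs_lt.2 ⟨by linarith [hx.1], hx.2⟩)).deriv]
  linarith [A_pos hx.1 hx.2]

theorem H_pos {u : ℝ} (h : |u| < 1) : 0 < H u := by
  have := H_strictAnti ⟨abs_nonneg u, h.le⟩ ⟨zero_le_one, le_rfl⟩ h
  rw [H_one] at this
  rcases abs_choice u with e | e <;> rw [e] at this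
  · exact this
  · rwa [H_neg] at this

theorem H_nonneg {u : ℝ} (h : |u| ≤ 1) : 0 ≤ H u := by
  rcases h.eq_or_lt with e | e
  · rcases eq_or_eq_neg_of_abs_eq e with rfl | rfl
    · exact H_one.ge
    · rw [H_neg]; exact H_one.ge
  · exact (H_pos e).le

/-- tangent line bound (concavity of `H`) -/
theorem H_tangent {a u : ℝ} (ha : |a| < 1) (hu : |u| ≤ 1) : H u ≤ H a - A a * (u - a) := by
  obtain ⟨a1, a2⟩ := abs_lt.1 ha
  obtain ⟨u1, u2⟩ := abs_le.1 hu
  rcases le_total u a with h | h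
  · have := FA.le_of_der (f := fun x => H x + A a * x) h
      (continuous_H.add (by fun_prop)).continuousOn
      (fun x hx => (hasDerivAt_H (abs_lt.2 ⟨by linarith [hx.1], by linarith [hx.2]⟩)).fun_add
        ((hasDerivAt_id' x).const_mul _))
      fun x hx => by linarith [A_mono (by linarith [hx.1]) hx.2.le a2]
    linarith
  · have := FA.le_of_der (f := fun x => -(H x + A a * x)) h
      (continuous_H.add (by fun_prop)).neg.continuousOn
      (fun x hx => ((hasDerivAt_H (abs_lt.2 ⟨by linarith [hx.1], by linarith [hx.2]⟩)).fun_add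
        ((hasDerivAt_id' x).const_mul _)).fun_neg)
      fun x hx => by linarith [A_mono a1 hx.1.le (by linarith [hx.2])]
    linarith

theorem Hb_le {z d : ℝ} (hz : 0 ≤ z) (hd : 0 ≤ d) (h : z + d < 1) : Hb z d ≤ H d := by
  have hd' : |d| < 1 := abs_lt.2 ⟨by linarith, by linarith⟩
  have a := H_tangent hd' (u := z + d) (abs_le.2 ⟨by linarith, by linarith⟩)
  have b := H_tangent hd' (u := -(z - d)) (abs_le.2 ⟨by linarith, by linarith⟩)
  rw [H_neg] at b
  unfold Hb
  linarith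

theorem Hb_pos {z d : ℝ} (hz : 0 ≤ z) (hd : 0 ≤ d) (h : z + d < 1) : 0 < Hb z d := by
  have a := H_pos (u := z + d) (abs_lt.2 ⟨by linarith, by linarith⟩)
  have b := H_pos (u := z - d) (abs_lt.2 ⟨by linarith, by linarith⟩)
  unfold Hb
  linarith

theorem two_ell_le {u : ℝ} (h : |u| < 1) : 2 * ell u ≤ u * A u := by
  wlog h0 : 0 ≤ u generalizing u
  · have := this (u := -u) (by rwa [abs_neg]) (by linarith)
    rw [ell_neg, A_neg] at this
    linarith
  have h1 := (abs_lt.1 h).2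
  have := FA.le_of_der' (f := fun x => x * A x - 2 * ell x) h0
    (fun x hx => ((hasDerivAt_id' x).fun_mul (hasDerivAt_A (FA.abs_lt_of (by norm_num) h1 hx))).fun_sub
      ((hasDerivAt_ell (FA.abs_lt_of (by norm_num) h1 hx)).const_mul 2))
    fun x hx => by
      have a := FA.one_sub_sq_pos (FA.abs_lt_of (by norm_num) h1 (Ioo_subset_Icc_self hx))
      have b := (le_div_iff₀' a).2 (A_le hx.1.le (hx.2.trans h1))
      rw [mul_one_div]
      linarith
  simp only [ell_zero] at this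
  linarith

theorem ell_div_sq_mono {x y : ℝ} (hx : 0 ≤ x) (hxy : x ≤ y) (hy : y < 1) :
    ell x * y ^ 2 ≤ ell y * x ^ 2 := by
  rcases hx.eq_or_lt with rfl | h0
  · simp [ell_zero]
  have := FA.le_of_der' (f := fun t => ell t / t ^ 2) (f' := fun t => (t * A t - 2 * ell t) / t ^ 3) hxy
    (fun t ht => by
      have a : t ≠ 0 := (h0.trans_le ht.1).ne'
      refine ((hasDerivAt_ell (FA.abs_lt_of (by linarith) hy ht)).fun_div
        ((hasDerivAt_id' t).fun_pow 2) (pow_ne_zero 2 a)).congr_deriv ?_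
      field_simp
      ring)
    fun t ht => div_nonneg (sub_nonneg.2 (two_ell_le (FA.abs_lt_of (by linarith) hy
      (Ioo_subset_Icc_self ht)))) (pow_nonneg (h0.trans ht.1).le 3)
  rwa [div_le_div_iff₀ (pow_pos h0 2) (pow_pos (h0.trans_le hxy) 2)] at this

theorem H_eq {z : ℝ} (h : |z| < 1) : H z = (1 - z) * A z + log (2 / (1 + z)) := by
  obtain ⟨h1, h2⟩ := abs_lt.1 h
  rw [log_div (by norm_num) (by linarith)]
  unfold H ell A
  ring

theorem Lam_eq {t : ℝ} (h : |t| < 1) : Lam t = H t + t * A t := by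
  obtain ⟨h1, h2⟩ := abs_lt.1 h
  unfold Lam H ell A
  rw [show 1 - t ^ 2 = (1 + t) * (1 - t) by ring, log_mul (by linarith) (by linarith)]
  ring

theorem le_Lam {t : ℝ} (h : |t| < 1) : log 2 ≤ Lam t := by
  have := log_nonpos (FA.one_sub_sq_pos h).le (by nlinarith)
  unfold Lam
  linarith

theorem FA.log_split {z d : ℝ} (h1 : |z + d| < 1) (h2 : |z - d| < 1) :
    1 + z ≠ 0 ∧ 1 - z ≠ 0 ∧ log (1 + d / (1 + z)) = log (1 + (z + d)) - log (1 + z) ∧
      log (1 - d / (1 + z)) = log (1 + (z - d)) - log (1 + z) ∧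
      log (1 + d / (1 - z)) = log (1 - (z - d)) - log (1 - z) ∧
      log (1 - d / (1 - z)) = log (1 - (z + d)) - log (1 - z) := by
  obtain ⟨a1, a2⟩ := abs_lt.1 h1
  obtain ⟨b1, b2⟩ := abs_lt.1 h2
  have p : 1 + z ≠ 0 := by linarith
  have q : 1 - z ≠ 0 := by linarith
  refine ⟨p, q, ?_, ?_, ?_, ?_⟩ <;> rw [← log_div (by linarith) (by assumption)] <;> congr 1 <;>
    field_simp <;> ring

theorem j_split {z d : ℝ} (h1 : |z + d| < 1) (h2 : |z - d| < 1) :
    H z - Hb z d = (1 + z) / 2 * ell (d / (1 + z)) + (1 - z) / 2 * ell (d / (1 - z)) := by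
  obtain ⟨p, q, e1, e2, e3, e4⟩ := FA.log_split h1 h2
  unfold Hb H ell
  rw [e1, e2, e3, e4]
  field_simp
  ring

theorem J_split {z d : ℝ} (h1 : |z + d| < 1) (h2 : |z - d| < 1) :
    J (z + d) (z - d) = d / 2 * (A (d / (1 + z)) + A (d / (1 - z))) := by
  obtain ⟨p, q, e1, e2, e3, e4⟩ := FA.log_split h1 h2
  unfold J A
  rw [e1, e2, e3, e4]
  ring

theorem w_ge {a : ℝ} (h : |a| ≤ 1) : 1 - a ^ 2 ≤ w a := by
  have a1 : a ^ 2 ≤ 1 := (sq_le_one_iff_abs_le_one a).2 h
  have a2 := sq_nonneg a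
  refine le_mul_of_one_le_right (by linarith) ?_
  have := FA.c_bd.2
  nlinarith [mul_nonneg a2 (sub_nonneg.2 a1)]

theorem w_pos {a : ℝ} (h : |a| < 1) : 0 < w a := by
  exact (FA.one_sub_sq_pos h).trans_le (w_ge h.le)

theorem w_le_one {a : ℝ} (h : |a| ≤ 1) : w a ≤ 1 := by
  have a1 : a ^ 2 ≤ 1 := (sq_le_one_iff_abs_le_one a).2 h
  have a2 := sq_nonneg a
  have := FA.c_bd.1
  have b : 1 + (1 - 1 / (2 * log 2)) * a ^ 2 - a ^ 4 / 5 ≤ 1 + a ^ 2 := by
    nlinarith [sq_nonneg (a ^ 2)]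
  exact (mul_le_mul_of_nonneg_left b (by linarith)).trans (by nlinarith [sq_nonneg (a ^ 2)])

theorem wb_pos {z d : ℝ} (hz : 0 ≤ z) (hd : 0 ≤ d) (h : z + d < 1) : 0 < wb z d := by
  have a := w_pos (a := z + d) (abs_lt.2 ⟨by linarith, by linarith⟩)
  have b := w_pos (a := z - d) (abs_lt.2 ⟨by linarith, by linarith⟩)
  unfold wb
  linarith

theorem dw_eq (z d : ℝ) : w z - wb z d = d ^ 2 * Dh z d := by
  simp only [w, wb, Dh]; ring

theorem Dh_nonneg {z d : ℝ} (hz : 0 ≤ z) (hd : 0 ≤ d) (h : z + d ≤ 1) : 0 ≤ Dh z d := by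
  obtain ⟨c1, c2⟩ := FA.c_bd
  have a1 : z ^ 2 + d ^ 2 ≤ 1 := by nlinarith [mul_nonneg hz hd]
  have a2 := sq_nonneg z
  have a3 := sq_nonneg d
  have a4 : z ^ 2 * (z ^ 2 + d ^ 2) ≤ z ^ 2 := mul_le_of_le_one_right a2 a1
  have a5 : d ^ 4 ≤ 1 := pow_le_one₀ hd (by linarith)
  have a6 : 0.4786 * (6 * z ^ 2 + d ^ 2) ≤ (6 / 5 - 1 / (2 * log 2)) * (6 * z ^ 2 + d ^ 2) :=
    mul_le_mul_of_nonneg_right (by linarith) (by linarith)
  unfold Dh
  linarith

theorem wb_le {z d : ℝ} (hz : 0 ≤ z) (hd : 0 ≤ d) (h : z + d ≤ 1) : wb z d ≤ w z := by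
  have := dw_eq z d
  have := mul_nonneg (sq_nonneg d) (Dh_nonneg hz hd h)
  linarith

/-- the curve `t ↦ d H t / t` sweeps `(0, H d]` -/
theorem exists_t {d s : ℝ} (hd : 0 < d) (hd1 : d < 1) (hs : 0 < s) (hs1 : s ≤ H d) :
    ∃ t, d ≤ t ∧ t < 1 ∧ d * H t / t = s := by
  have hc : ContinuousOn (fun t => d * H t / t) (Icc d 1) :=
    (continuous_H.const_mul d).continuousOn.div continuousOn_id fun t ht => (hd.trans_le ht.1).ne'
  obtain ⟨t, ht, e⟩ := intermediate_value_Icc' hd1.le hc (show s ∈ Icc _ _ from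
    ⟨by simp [H_one, hs.le], by rwa [mul_div_cancel_left₀ _ hd.ne']⟩)
  refine ⟨t, ht.1, ht.2.lt_of_ne ?_, e⟩
  rintro rfl
  simp only [H_one] at e
  simp at e
  linarith

end Vale.Agent.P322.CK
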