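import Vale.Agent.P322.FunA

/-! Calculus of `mu`, `beta`, `nu`, `gam`. -/

namespace Vale.Agent.P322.CK

open Real Set

theorem mu_zero : mu 0 = 2 := by simp [mu]

theorem beta_zero : beta 0 = 2 * log 2 := by simp [beta, mu_zero, H_zero]

theorem mu_eq {r : ℝ} (h0 : 0 < r) : mu r = 1 + r / ((1 - r ^ 2) * A r) := by
  simp [mu, h0.ne']

theorem FB.ab {r : ℝ} (h0 : 0 ≤ r) (h1 : r < 1) : |r| < 1 := abs_lt.2 ⟨by linarith, h1⟩

theorem FB.mu_le {r : ℝ} (h0 : 0 ≤ r) (h1 : r < 1) : mu r ≤ 1 + 1 / (1 - r ^ 2) := by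
  have a := FA.one_sub_sq_pos (FB.ab h0 h1)
  rcases h0.eq_or_lt with rfl | h
  · norm_num [mu_zero]
  have b := A_pos h h1
  rw [mu_eq h, add_le_add_iff_left, div_le_div_iff₀ (by positivity) a]
  nlinarith [le_A h0 h1]

theorem two_le_mu {r : ℝ} (h0 : 0 ≤ r) (h1 : r < 1) : 2 ≤ mu r := by
  have a := FA.one_sub_sq_pos (FB.ab h0 h1)
  rcases h0.eq_or_lt with rfl | h
  · exact mu_zero.ge
  have b := A_pos h h1
  have := (one_le_div (by positivity)).2 (A_le h0 h1)
  rw [mu_eq h]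
  linarith

theorem hasDerivAt_mu {r : ℝ} (h0 : 0 < r) (h1 : r < 1) : HasDerivAt mu (dmu r) r := by
  have a := FB.ab h0.le h1
  have b := (FA.one_sub_sq_pos a).ne'
  have c := (A_pos h0 h1).ne'
  refine ((((hasDerivAt_id' r).fun_div ((((hasDerivAt_id' r).fun_pow 2).const_sub 1).fun_mul
    (hasDerivAt_A a)) (mul_ne_zero b c)).const_add 1).congr_deriv ?_).congr_of_eventuallyEq
    ((lt_mem_nhds h0).mono fun x hx => mu_eq hx)
  unfold dmu
  field_simp
  ring

theorem continuousOn_mu : ContinuousOn mu (Ico 0 1) := by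
  intro r hr
  rcases hr.1.eq_or_lt with rfl | h
  · have t : Filter.Tendsto (fun r : ℝ => 1 + 1 / (1 - r ^ 2)) (nhdsWithin 0 (Ico 0 1)) (nhds 2) := by
      have : ContinuousAt (fun r : ℝ => 1 + 1 / (1 - r ^ 2)) 0 := by
        fun_prop (disch := norm_num)
      have := this.tendsto.mono_left (nhdsWithin_le_nhds (s := Ico 0 1))
      norm_num at this ⊢
      exact this
    rw [ContinuousWithinAt, mu_zero]
    exact tendsto_of_tendsto_of_tendsto_of_le_of_le' tendsto_const_nhds t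
      (Filter.eventually_of_mem self_mem_nhdsWithin fun x hx => two_le_mu hx.1 hx.2)
      (Filter.eventually_of_mem self_mem_nhdsWithin fun x hx => FB.mu_le hx.1 hx.2)
  · exact (hasDerivAt_mu h hr.2).continuousAt.continuousWithinAt

theorem continuousOn_beta : ContinuousOn beta (Ico 0 1) := by
  exact (continuousOn_id.mul fun x hx =>
    (hasDerivAt_A (FB.ab hx.1 hx.2)).continuousAt.continuousWithinAt).add
    (continuousOn_mu.mul continuous_H.continuousOn)

theorem dmu_nonneg {r : ℝ} (h0 : 0 < r) (h1 : r < 1) : 0 ≤ dmu r := by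
  have := le_A h0.le h1
  exact div_nonneg (by nlinarith [mul_nonneg (sq_nonneg r) (h0.le.trans this)]) (by positivity)

theorem mu_mul_A {r : ℝ} (h0 : 0 < r) (h1 : r < 1) : mu r * A r = A r + r / (1 - r ^ 2) := by
  have b := (FA.one_sub_sq_pos (FB.ab h0.le h1)).ne'
  have c := (A_pos h0 h1).ne'
  rw [mu_eq h0]
  field_simp

theorem hasDerivAt_beta {r : ℝ} (h0 : 0 < r) (h1 : r < 1) :
    HasDerivAt beta (H r * dmu r) r := by
  have a := FB.ab h0.le h1
  refine (((hasDerivAt_id' r).fun_mul (hasDerivAt_A a)).fun_add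
    ((hasDerivAt_mu h0 h1).fun_mul (hasDerivAt_H a))).congr_deriv ?_
  linear_combination -mu_mul_A h0 h1

theorem le_mu_ell {r : ℝ} (h0 : 0 ≤ r) (h1 : r < 1) : r * A r ≤ mu r * ell r := by
  have := FA.le_of_der (f := fun x => mu x * ell x - x * A x) (f' := fun x => dmu x * ell x) h0
    (((continuousOn_mu.mono (Icc_subset_Ico_right h1)).mul continuous_ell.continuousOn).sub
      (continuousOn_id.mul fun x hx =>
        (hasDerivAt_A (FB.ab hx.1 (hx.2.trans_lt h1))).continuousAt.continuousWithinAt))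
    (fun x hx => by
      have x1 := hx.2.trans h1
      have a := FB.ab hx.1.le x1
      refine (((hasDerivAt_mu hx.1 x1).fun_mul (hasDerivAt_ell a)).fun_sub
        ((hasDerivAt_id' x).fun_mul (hasDerivAt_A a))).congr_deriv ?_
      linear_combination mu_mul_A hx.1 x1)
    fun x hx => mul_nonneg (dmu_nonneg hx.1 (hx.2.trans h1))
      (le_trans (by positivity) (ell_ge (FB.ab hx.1.le (hx.2.trans h1)).le))
  simp only [ell_zero] at this
  linarith

theorem FB.Lam_gt {t : ℝ} (h : |t| < 1) : 1 / 2 < Lam t := by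
  linarith [le_Lam h, log_two_gt_d9]

theorem FB.der_Lam {t : ℝ} (h : |t| < 1) : HasDerivAt Lam (t / (1 - t ^ 2)) t := by
  have b := (FA.one_sub_sq_pos h).ne'
  refine ((((((hasDerivAt_id' t).fun_pow 2).const_sub 1).log b).div_const 2).const_sub
    (log 2)).congr_deriv ?_
  field_simp
  ring

theorem nu_nonneg {t : ℝ} (h : |t| < 1) : 0 ≤ nu t := by
  have := FB.Lam_gt h
  have := FA.one_sub_sq_pos h
  exact div_nonneg (sq_nonneg t) (mul_nonneg (by linarith) (by linarith))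

theorem nu_mono : MonotoneOn nu (Ioo 0 1) := by
  intro x hx y hy hxy
  refine FA.le_of_der' (f' := fun t => t * (2 * Lam t - t ^ 2) / ((1 - t ^ 2) * Lam t) ^ 2) hxy
    (fun t ht => ?_) fun t ht => ?_
  · have a := FB.ab (hx.1.le.trans ht.1) (ht.2.trans_lt hy.2)
    have b := (FA.one_sub_sq_pos a).ne'
    have c : Lam t ≠ 0 := by linarith [FB.Lam_gt a]
    refine (((hasDerivAt_id' t).fun_pow 2).fun_div ((((hasDerivAt_id' t).fun_pow 2).const_sub
      1).fun_mul (FB.der_Lam a)) (mul_ne_zero b c)).congr_deriv ?_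
    field_simp
    ring
  · have a := FB.ab (hx.1.trans ht.1).le (ht.2.trans hy.2)
    exact div_nonneg (mul_nonneg (hx.1.trans ht.1).le
      (by linarith [FB.Lam_gt a, FA.one_sub_sq_pos a])) (sq_nonneg _)

theorem hasDerivAt_H_div {t : ℝ} (h0 : 0 < t) (h1 : t < 1) :
    HasDerivAt (fun t => H t / t) (-Lam t / t ^ 2) t := by
  have a := FB.ab h0.le h1
  refine ((hasDerivAt_H a).fun_div (hasDerivAt_id' t) h0.ne').congr_deriv ?_
  rw [Lam_eq a]
  ring

theorem gam_le {t t' : ℝ} (h0 : 0 < t) (h1 : t < 1) (h0' : 0 < t') (h1' : t' < 1) :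
    gam t ≤ A t' + nu t * H t' / t' := by
  have d : ∀ x : ℝ, 0 < x → x < 1 → HasDerivAt (fun x => A x + nu t * (H x / x))
      (Lam x / x ^ 2 * (nu x - nu t)) x := fun x x0 x1 => by
    have a := FB.ab x0.le x1
    have b := (FA.one_sub_sq_pos a).ne'
    have c : Lam x ≠ 0 := by linarith [FB.Lam_gt a]
    refine ((hasDerivAt_A a).fun_add ((hasDerivAt_H_div x0 x1).const_mul _)).congr_deriv ?_
    rw [show nu x = x ^ 2 / ((1 - x ^ 2) * Lam x) from rfl]
    field_simp
    ring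
  have p : ∀ x : ℝ, 0 < x → x < 1 → 0 ≤ Lam x / x ^ 2 := fun x x0 x1 =>
    div_nonneg (by linarith [FB.Lam_gt (FB.ab x0.le x1)]) (sq_nonneg x)
  unfold gam
  rw [mul_div_assoc, mul_div_assoc]
  rcases le_total t t' with h | h
  · exact FA.le_of_der' h (fun x hx => d x (h0.trans_le hx.1) (hx.2.trans_lt h1')) fun x hx =>
      mul_nonneg (p x (h0.trans hx.1) (hx.2.trans h1'))
        (sub_nonneg.2 (nu_mono ⟨h0, h1⟩ ⟨h0.trans hx.1, hx.2.trans h1'⟩ hx.1.le))
  · exact neg_le_neg_iff.1 (FA.le_of_der' (f := fun x => -(A x + nu t * (H x / x))) h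
      (fun x hx => (d x (h0'.trans_le hx.1) (hx.2.trans_lt h1)).fun_neg) fun x hx =>
      neg_nonneg.2 (mul_nonpos_of_nonneg_of_nonpos (p x (h0'.trans hx.1) (hx.2.trans h1))
        (sub_nonpos.2 (nu_mono ⟨h0'.trans hx.1, hx.2.trans h1⟩ ⟨h0, h1⟩ hx.2.le))))

end Vale.Agent.P322.CK
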