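import Vale.Agent.P322.OneD

/-! The Legendre type function `Q` and its derivative `kap` in the entropy variable. -/

namespace Vale.Agent.P322.CK

open Real Set

open Classical in
/-- the solution `r` of `y * H r = 1`, and `0` if there is none -/
noncomputable def rho (y : ℝ) : ℝ :=
  if h : ∃ r, 0 ≤ r ∧ r < 1 ∧ y * H r = 1 then h.choose else 0

noncomputable def kap (y : ℝ) : ℝ := mu (rho y)

noncomputable def Q (v s : ℝ) : ℝ := v * beta (rho (v / s)) - mu (rho (v / s)) * s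

/-- the quantity that the cost of one coordinate has to dominate -/
noncomputable def RR (z d s : ℝ) : ℝ :=
  Q (w z) s - Q (wb z d) s + 2 * (H z - Hb z d) - 2 * log 2 * (w z - wb z d)

theorem rho_nonneg (y : ℝ) : 0 ≤ rho y := by
  unfold rho
  split_ifs with h
  · exact h.choose_spec.1
  · exact le_rfl

theorem rho_lt_one (y : ℝ) : rho y < 1 := by
  unfold rho
  split_ifs with h
  · exact h.choose_spec.2.1
  · exact one_pos

theorem KA.abs_lt_one_of {r : ℝ} (h0 : 0 ≤ r) (h1 : r < 1) : |r| < 1 := by rwa [abs_of_nonneg h0]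

theorem KA.H_pos' {r : ℝ} (h0 : 0 ≤ r) (h1 : r < 1) : 0 < H r := H_pos (KA.abs_lt_one_of h0 h1)

theorem KA.H_anti {x y : ℝ} (h0 : 0 ≤ x) (h : x ≤ y) (h1 : y < 1) : H y ≤ H x :=
  H_strictAnti.antitoneOn ⟨h0, by linarith⟩ ⟨by linarith, h1.le⟩ h

theorem KA.H_rho_pos (y : ℝ) : 0 < H (rho y) := KA.H_pos' (rho_nonneg y) (rho_lt_one y)

theorem KA.rho_eq {y r : ℝ} (h0 : 0 ≤ r) (h1 : r < 1) (h : y * H r = 1) : rho y = r := by
  have he : ∃ r, 0 ≤ r ∧ r < 1 ∧ y * H r = 1 := ⟨r, h0, h1, h⟩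
  have hs := he.choose_spec
  have hy : y ≠ 0 := by rintro rfl; simp at h
  unfold rho
  rw [dif_pos he]
  exact H_strictAnti.injOn ⟨hs.1, hs.2.1.le⟩ ⟨h0, h1.le⟩
    (mul_left_cancel₀ hy (hs.2.2.trans h.symm))

theorem rho_spec {y : ℝ} (h : 1 ≤ log 2 * y) : y * H (rho y) = 1 := by
  have hl : 0 < log 2 := log_pos one_lt_two
  have hy : 0 < y := by
    by_contra hn
    push Not at hn
    nlinarith
  have h1 : 1 / y ∈ Icc (H 1) (H 0) := by
    rw [H_one, H_zero]
    exact ⟨by positivity, by rw [div_le_iff₀ hy]; exact h⟩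
  obtain ⟨r, hr, e⟩ := intermediate_value_Icc' zero_le_one continuous_H.continuousOn h1
  have hr1 : r < 1 := by
    refine lt_of_le_of_ne hr.2 ?_
    rintro rfl
    rw [H_one] at e
    exact absurd e (by positivity)
  have e' : y * H r = 1 := by rw [e]; field_simp
  rw [KA.rho_eq hr.1 hr1 e', e']

theorem rho_small {y : ℝ} (h : log 2 * y ≤ 1) : rho y = 0 := by
  by_cases he : ∃ r, 0 ≤ r ∧ r < 1 ∧ y * H r = 1
  · obtain ⟨r, h0, h1, e⟩ := he
    have hp := KA.H_pos' h0 h1
    have hy : 0 < y := by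
      by_contra hn
      push Not at hn
      nlinarith
    have h2 := KA.H_anti le_rfl h0 h1
    rw [H_zero] at h2
    refine KA.rho_eq le_rfl one_pos ?_
    rw [H_zero]
    nlinarith
  · unfold rho
    rw [dif_neg he]

/-- always `y * H (rho y) ≤ 1` -/
theorem KA.mul_H_rho_le (y : ℝ) : y * H (rho y) ≤ 1 := by
  rcases le_total 1 (log 2 * y) with h | h
  · exact (rho_spec h).le
  · rw [rho_small h, H_zero]; linarith

theorem KA.rho_pos_spec {y : ℝ} (h : 0 < rho y) : y * H (rho y) = 1 := by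
  rcases le_total 1 (log 2 * y) with h1 | h1
  · exact rho_spec h1
  · exact absurd (rho_small h1) h.ne'

theorem KA.le_inv_H_rho (y : ℝ) : y ≤ 1 / H (rho y) := by
  rw [le_div_iff₀ (KA.H_rho_pos y)]; exact KA.mul_H_rho_le y

theorem KA.eq_inv_H_rho {y : ℝ} (h : 0 < rho y) : y = 1 / H (rho y) := by
  rw [eq_div_iff (KA.H_rho_pos y).ne']; exact KA.rho_pos_spec h

theorem rho_H {t : ℝ} (h0 : 0 ≤ t) (h1 : t < 1) : rho (1 / H t) = t :=
  KA.rho_eq h0 h1 (by have := KA.H_pos' h0 h1; field_simp)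

theorem rho_mono {y1 y2 : ℝ} (h : y1 ≤ y2) : rho y1 ≤ rho y2 := by
  by_contra hn
  push Not at hn
  have h1 := KA.rho_pos_spec ((rho_nonneg y2).trans_lt hn)
  have h2 := KA.mul_H_rho_le y2
  have h3 := H_strictAnti ⟨rho_nonneg y2, (rho_lt_one y2).le⟩ ⟨rho_nonneg y1, (rho_lt_one y1).le⟩ hn
  have h4 := KA.H_rho_pos y1
  have hy : 0 < y1 := by
    by_contra hn
    push Not at hn
    nlinarith
  nlinarith

/-- comparison of end values from the sign of the derivative -/
theorem KA.le_of_deriv_nonneg {f f' : ℝ → ℝ} {a b : ℝ} (hab : a ≤ b) (hc : ContinuousOn f (Icc a b))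
    (hd : ∀ x ∈ Ioo a b, HasDerivAt f (f' x) x) (h : ∀ x ∈ Ioo a b, 0 ≤ f' x) : f a ≤ f b := by
  rcases hab.eq_or_lt with rfl | hlt
  · exact le_rfl
  obtain ⟨c, hc1, hc2⟩ := exists_hasDerivAt_eq_slope f f' hlt hc hd
  have := h c hc1
  rw [hc2, le_div_iff₀ (by linarith)] at this
  linarith

theorem KA.le_of_deriv_nonpos {f f' : ℝ → ℝ} {a b : ℝ} (hab : a ≤ b) (hc : ContinuousOn f (Icc a b))
    (hd : ∀ x ∈ Ioo a b, HasDerivAt f (f' x) x) (h : ∀ x ∈ Ioo a b, f' x ≤ 0) : f b ≤ f a := by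
  have := KA.le_of_deriv_nonneg (f := fun x => -f x) (f' := fun x => -f' x) hab hc.neg
    (fun x hx => (hd x hx).neg) (fun x hx => neg_nonneg.2 (h x hx))
  linarith

theorem KA.Icc_sub {a b : ℝ} (h0 : 0 ≤ a) (h1 : b < 1) : Icc a b ⊆ Ico 0 1 :=
  fun _ hx => ⟨h0.trans hx.1, hx.2.trans_lt h1⟩

theorem KA.g_le {y r : ℝ} (hy : 0 < y) (h0 : 0 ≤ r) (h1 : r < 1) :
    y * beta r - mu r ≤ y * beta (rho y) - mu (rho y) := by
  have p0 := rho_nonneg y
  have p1 := rho_lt_one y
  have hc : ContinuousOn (fun r => y * beta r - mu r) (Ico 0 1) :=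
    (continuousOn_const.mul continuousOn_beta).sub continuousOn_mu
  have hd : ∀ x, 0 < x → x < 1 →
      HasDerivAt (fun r => y * beta r - mu r) (dmu x * (y * H x - 1)) x := fun x x0 x1 =>
    (((hasDerivAt_beta x0 x1).const_mul y).sub (hasDerivAt_mu x0 x1)).congr_deriv (by ring)
  rcases le_total r (rho y) with h | h
  · refine KA.le_of_deriv_nonneg h (hc.mono (KA.Icc_sub h0 p1))
      (fun x hx => hd x (h0.trans_lt hx.1) (hx.2.trans p1)) fun x hx => ?_
    have x0 : 0 < x := h0.trans_lt hx.1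
    have e := KA.rho_pos_spec (x0.trans hx.2)
    have := KA.H_anti x0.le hx.2.le p1
    exact mul_nonneg (dmu_nonneg x0 (hx.2.trans p1)) (by nlinarith)
  · refine KA.le_of_deriv_nonpos h (hc.mono (KA.Icc_sub p0 h1))
      (fun x hx => hd x (p0.trans_lt hx.1) (hx.2.trans h1)) fun x hx => ?_
    have x0 : 0 < x := p0.trans_lt hx.1
    have e := KA.mul_H_rho_le y
    have := KA.H_anti p0 hx.1.le (hx.2.trans h1)
    exact mul_nonpos_of_nonneg_of_nonpos (dmu_nonneg x0 (hx.2.trans h1)) (by nlinarith)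

theorem Q_ge {v s r : ℝ} (hv : 0 < v) (hs : 0 < s) (h0 : 0 ≤ r) (h1 : r < 1) :
    v * beta r - mu r * s ≤ Q v s := by
  have h := mul_le_mul_of_nonneg_left (KA.g_le (div_pos hv hs) h0 h1) hs.le
  have e : ∀ b m : ℝ, s * (v / s * b - m) = v * b - m * s := fun b m => by field_simp
  rw [e, e] at h
  exact h

theorem KA.mu_mono {x y : ℝ} (h0 : 0 ≤ x) (h : x ≤ y) (h1 : y < 1) : mu x ≤ mu y :=
  KA.le_of_deriv_nonneg h (continuousOn_mu.mono (KA.Icc_sub h0 h1))
    (fun _ ht => hasDerivAt_mu (h0.trans_lt ht.1) (ht.2.trans h1))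
    (fun _ ht => dmu_nonneg (h0.trans_lt ht.1) (ht.2.trans h1))

theorem KA.continuousOn_inv_H : ContinuousOn (fun r => 1 / H r) (Ico 0 1) :=
  continuousOn_const.div continuous_H.continuousOn fun _ hx => (KA.H_pos' hx.1 hx.2).ne'

theorem KA.hasDerivAt_inv_H {r : ℝ} (h0 : 0 ≤ r) (h1 : r < 1) :
    HasDerivAt (fun r => 1 / H r) (A r / H r ^ 2) r := by
  have := (hasDerivAt_H (KA.abs_lt_one_of h0 h1)).inv (KA.H_pos' h0 h1).ne'
  simp only [one_div]
  exact this.congr_deriv (by ring)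

theorem KA.mu_diff_le {x y : ℝ} (h0 : 0 ≤ x) (h : x ≤ y) (h1 : y < 1) :
    mu y - mu x ≤ 129 / 200 * (1 / H y - 1 / H x) := by
  have := KA.le_of_deriv_nonneg (f := fun r => 129 / 200 * (1 / H r) - mu r)
    (f' := fun r => 129 / 200 * (A r / H r ^ 2) - dmu r) h
    (((continuousOn_const.mul KA.continuousOn_inv_H).sub continuousOn_mu).mono (KA.Icc_sub h0 h1))
    (fun t ht => ((KA.hasDerivAt_inv_H (h0.trans ht.1.le) (ht.2.trans h1)).const_mul _).sub
      (hasDerivAt_mu (h0.trans_lt ht.1) (ht.2.trans h1)))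
    (fun t ht => by
      have hp := KA.H_pos' (h0.trans ht.1.le) (ht.2.trans h1)
      have := L1 (h0.trans_lt ht.1) (ht.2.trans h1)
      rw [sub_nonneg, ← mul_div_assoc, le_div_iff₀ (by positivity)]
      linarith)
  linarith

theorem KA.le_mu_diff {x y : ℝ} (h0 : 0 ≤ x) (h : x ≤ y) (h1 : y < 1) :
    49 / 100 * (1 / H y - 1 / H x) ≤ mu y - mu x := by
  have := KA.le_of_deriv_nonpos (f := fun r => 49 / 100 * (1 / H r) - mu r)
    (f' := fun r => 49 / 100 * (A r / H r ^ 2) - dmu r) h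
    (((continuousOn_const.mul KA.continuousOn_inv_H).sub continuousOn_mu).mono (KA.Icc_sub h0 h1))
    (fun t ht => ((KA.hasDerivAt_inv_H (h0.trans ht.1.le) (ht.2.trans h1)).const_mul _).sub
      (hasDerivAt_mu (h0.trans_lt ht.1) (ht.2.trans h1)))
    (fun t ht => by
      have hp := KA.H_pos' (h0.trans ht.1.le) (ht.2.trans h1)
      have := L2 (h0.trans_lt ht.1) (ht.2.trans h1)
      rw [sub_nonpos, ← mul_div_assoc, div_le_iff₀ (by positivity)]
      linarith)
  linarith

theorem two_le_kap (y : ℝ) : 2 ≤ kap y := two_le_mu (rho_nonneg y) (rho_lt_one y)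

theorem kap_mono {y1 y2 : ℝ} (h : y1 ≤ y2) : kap y1 ≤ kap y2 :=
  KA.mu_mono (rho_nonneg y1) (rho_mono h) (rho_lt_one y2)

theorem kap_lip {y1 y2 : ℝ} (h : y1 ≤ y2) : kap y2 - kap y1 ≤ 129 / 200 * (y2 - y1) := by
  unfold kap
  rcases (rho_nonneg y2).eq_or_lt with h0 | h0
  · have : rho y1 = rho y2 := le_antisymm (rho_mono h) (h0 ▸ rho_nonneg y1)
    rw [this]; linarith
  · have h1 := KA.mu_diff_le (rho_nonneg y1) (rho_mono h) (rho_lt_one y2)
    have h2 := KA.le_inv_H_rho y1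
    have h3 := KA.eq_inv_H_rho h0
    linarith

theorem kap_ge (y : ℝ) : 2 + 49 / 100 * (y - 1 / log 2) ≤ kap y := by
  have h1 := KA.le_mu_diff le_rfl (rho_nonneg y) (rho_lt_one y)
  have h2 := KA.le_inv_H_rho y
  rw [mu_zero, H_zero] at h1
  unfold kap
  linarith

theorem KA.continuous_kap : Continuous kap := by
  refine (LipschitzWith.of_dist_le' (K := 129 / 200) fun x y => ?_).continuous
  rw [Real.dist_eq, Real.dist_eq]
  rcases le_total x y with h | h
  · have h1 := kap_mono h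
    have h2 := kap_lip h
    rw [abs_of_nonpos (by linarith), abs_of_nonpos (by linarith)]; linarith
  · have h1 := kap_mono h
    have h2 := kap_lip h
    rw [abs_of_nonneg (by linarith), abs_of_nonneg (by linarith)]; linarith

/-- a continuous subgradient is the derivative -/
theorem hasDerivAt_of_subgrad {f g : ℝ → ℝ} {x : ℝ} (hx : 0 < x)
    (h : ∀ a b, 0 < a → 0 < b → f a + g a * (b - a) ≤ f b) (hg : ContinuousAt g x) :
    HasDerivAt f (g x) x := by
  rw [hasDerivAt_iff_isLittleO, Asymptotics.isLittleO_iff]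
  intro c hc
  have h1 : ∀ᶠ b in nhds x, dist (g b) (g x) < c := Metric.tendsto_nhds.1 hg c hc
  filter_upwards [h1, lt_mem_nhds hx] with b hb hb0
  have e1 := h x b hx hb0
  have e2 := h b x hb0 hx
  rw [Real.dist_eq] at hb
  rw [Real.norm_eq_abs, Real.norm_eq_abs, smul_eq_mul, abs_of_nonneg (by linarith)]
  calc f b - f x - (b - x) * g x ≤ (g b - g x) * (b - x) := by linarith
    _ ≤ |g b - g x| * |b - x| := by rw [← abs_mul]; exact le_abs_self _
    _ ≤ c * |b - x| := mul_le_mul_of_nonneg_right hb.le (abs_nonneg _)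

theorem hasDerivAt_Q_s {v s : ℝ} (hv : 0 < v) (hs : 0 < s) :
    HasDerivAt (fun s => Q v s) (-kap (v / s)) s := by
  refine hasDerivAt_of_subgrad (f := fun s => Q v s) (g := fun s => -kap (v / s)) hs
    (fun a b ha hb => ?_) ?_
  · have := Q_ge hv hb (rho_nonneg (v / a)) (rho_lt_one (v / a))
    simp only [Q, kap] at this ⊢
    linarith
  · exact (KA.continuous_kap.continuousAt.comp (continuousAt_const.div continuousAt_id hs.ne')).neg

theorem KA.mu_tangent {r t : ℝ} (h0 : 0 < r) (h1 : r < 1) (t0 : 0 ≤ t) (t1 : t < 1) :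
    mu r + H r * dmu r / A r * log (H r) ≤ mu t + H r * dmu r / A r * log (H t) := by
  set k := H r * dmu r / A r with hk
  have hc : ContinuousOn (fun x => mu x + k * log (H x)) (Ico 0 1) :=
    continuousOn_mu.add (continuousOn_const.mul
      (continuous_H.continuousOn.log fun _ hx => (KA.H_pos' hx.1 hx.2).ne'))
  have hd : ∀ x, 0 < x → x < 1 → HasDerivAt (fun x => mu x + k * log (H x))
      (A x / H x * (H x * dmu x / A x - k)) x := fun x x0 x1 => by
    have hH := KA.H_pos' x0.le x1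
    have hA := A_pos x0 x1
    exact ((hasDerivAt_mu x0 x1).add
      (((hasDerivAt_H (KA.abs_lt_one_of x0.le x1)).log hH.ne').const_mul k)).congr_deriv
      (by field_simp; ring)
  rcases le_total r t with h | h
  · refine KA.le_of_deriv_nonneg h (hc.mono (KA.Icc_sub h0.le t1))
      (fun x hx => hd x (h0.trans hx.1) (hx.2.trans t1)) fun x hx => ?_
    have x0 : 0 < x := h0.trans hx.1
    have x1 : x < 1 := hx.2.trans t1
    have := L3 ⟨h0, h1⟩ ⟨x0, x1⟩ hx.1.le
    exact mul_nonneg (div_pos (A_pos x0 x1) (KA.H_pos' x0.le x1)).le (sub_nonneg.2 this)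
  · refine KA.le_of_deriv_nonpos h (hc.mono (KA.Icc_sub t0 h1))
      (fun x hx => hd x (t0.trans_lt hx.1) (hx.2.trans h1)) fun x hx => ?_
    have x0 : 0 < x := t0.trans_lt hx.1
    have x1 : x < 1 := hx.2.trans h1
    have := L3 ⟨x0, x1⟩ ⟨h0, h1⟩ hx.2.le
    exact mul_nonpos_of_nonneg_of_nonpos (div_pos (A_pos x0 x1) (KA.H_pos' x0.le x1)).le
      (sub_nonpos.2 this)

theorem KA.kap_subgrad (x : ℝ) : ∃ k : ℝ, ∀ y, kap (exp x) + k * (y - x) ≤ kap (exp y) := by
  rcases (rho_nonneg (exp x)).eq_or_lt with h0 | h0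
  · refine ⟨0, fun y => ?_⟩
    have := two_le_kap (exp y)
    rw [kap, ← h0, mu_zero]
    linarith
  have h1 := rho_lt_one (exp x)
  refine ⟨H (rho (exp x)) * dmu (rho (exp x)) / A (rho (exp x)), fun y => ?_⟩
  have h2 := KA.mu_tangent h0 h1 (rho_nonneg (exp y)) (rho_lt_one (exp y))
  have hk : 0 ≤ H (rho (exp x)) * dmu (rho (exp x)) / A (rho (exp x)) :=
    div_nonneg (mul_nonneg (KA.H_rho_pos _).le (dmu_nonneg h0 h1)) (A_pos h0 h1).le
  have e1 : log (H (rho (exp x))) = -x := by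
    have := congrArg log (KA.rho_pos_spec h0)
    rw [log_mul (exp_pos x).ne' (KA.H_rho_pos _).ne', log_exp, log_one] at this
    linarith
  have e2 : log (H (rho (exp y))) ≤ -y := by
    have := log_nonpos (mul_pos (exp_pos y) (KA.H_rho_pos _)).le (KA.mul_H_rho_le (exp y))
    rw [log_mul (exp_pos y).ne' (KA.H_rho_pos _).ne', log_exp] at this
    linarith
  rw [e1] at h2
  have := mul_le_mul_of_nonneg_left e2 hk
  unfold kap
  linarith

theorem KA.four_point {T g : ℝ → ℝ} (h : ∀ x y, T x + g x * (y - x) ≤ T y) {a m M c : ℝ}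
    (h1 : a ≤ m) (h2 : m ≤ M) (e : a + c = m + M) : T m + T M ≤ T a + T c := by
  have e1 := h m a
  have e2 := h M c
  have hg : g m ≤ g M := by
    rcases h2.eq_or_lt with rfl | h3
    · exact le_rfl
    have e3 := h m M
    have e4 := h M m
    by_contra hn
    push Not at hn
    nlinarith
  have e5 : c - M = m - a := by linarith
  rw [e5] at e2
  nlinarith [mul_le_mul_of_nonneg_right hg (sub_nonneg.2 h1)]

theorem kap_diff_anti {v1 v2 s1 s2 : ℝ} (hv : 0 < v1) (hv' : v1 ≤ v2) (hs : 0 < s1) (hs' : s1 ≤ s2) :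
    kap (v2 / s2) - kap (v1 / s2) ≤ kap (v2 / s1) - kap (v1 / s1) := by
  choose g hg using KA.kap_subgrad
  have hv2 : 0 < v2 := hv.trans_le hv'
  have hs2 : 0 < s2 := hs.trans_le hs'
  have a1 := log_le_log hv hv'
  have a2 := log_le_log hs hs'
  have key : ∀ p q : ℝ, 0 < p → 0 < q → kap (p / q) = kap (exp (log p - log q)) := by
    intro p q hp hq
    rw [exp_sub, exp_log hp, exp_log hq]
  rw [key _ _ hv2 hs2, key _ _ hv hs2, key _ _ hv2 hs, key _ _ hv hs]
  rcases le_total (log v2 - log s2) (log v1 - log s1) with h | h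
  · have := KA.four_point (T := fun x => kap (exp x)) hg (a := log v1 - log s2)
      (c := log v2 - log s1) (by linarith) h (by ring)
    linarith
  · have := KA.four_point (T := fun x => kap (exp x)) hg (a := log v1 - log s2)
      (c := log v2 - log s1) (by linarith) h (by ring)
    linarith

end Vale.Agent.P322.CK
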