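import Vale.Agent.P322.KapA

/-! Upper and lower bounds for `Q` in the weight variable. -/

namespace Vale.Agent.P322.CK

open Real Set

theorem KB.continuousOn_log_H : ContinuousOn (fun r => log (H r)) (Ico 0 1) :=
  continuous_H.continuousOn.log fun _ hx => (KA.H_pos' hx.1 hx.2).ne'

theorem KB.hasDerivAt_log_H {r : ℝ} (h0 : 0 ≤ r) (h1 : r < 1) :
    HasDerivAt (fun r => log (H r)) (-A r / H r) r :=
  (hasDerivAt_H (KA.abs_lt_one_of h0 h1)).log (KA.H_pos' h0 h1).ne'

theorem beta_diff_le {r1 r2 : ℝ} (h0 : 0 ≤ r1) (h : r1 ≤ r2) (h1 : r2 < 1) :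
    beta r2 - beta r1 ≤ 129 / 200 * (log (H r1) - log (H r2)) := by
  have := KA.le_of_deriv_nonpos (f := fun r => beta r + 129 / 200 * log (H r))
    (f' := fun r => H r * dmu r + 129 / 200 * (-A r / H r)) h
    ((continuousOn_beta.add (continuousOn_const.mul KB.continuousOn_log_H)).mono (KA.Icc_sub h0 h1))
    (fun t ht => (hasDerivAt_beta (h0.trans_lt ht.1) (ht.2.trans h1)).add
      ((KB.hasDerivAt_log_H (h0.trans ht.1.le) (ht.2.trans h1)).const_mul _))
    (fun t ht => by
      have hp := KA.H_pos' (h0.trans ht.1.le) (ht.2.trans h1)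
      have := L1 (h0.trans_lt ht.1) (ht.2.trans h1)
      have e : H t * dmu t + 129 / 200 * (-A t / H t) =
          (H t ^ 2 * dmu t - 129 / 200 * A t) / H t := by field_simp; ring
      rw [e]
      exact div_nonpos_of_nonpos_of_nonneg (by linarith) hp.le)
  linarith

theorem le_beta_diff {r1 r2 : ℝ} (h0 : 0 ≤ r1) (h : r1 ≤ r2) (h1 : r2 < 1) :
    49 / 100 * (log (H r1) - log (H r2)) ≤ beta r2 - beta r1 := by
  have := KA.le_of_deriv_nonneg (f := fun r => beta r + 49 / 100 * log (H r))
    (f' := fun r => H r * dmu r + 49 / 100 * (-A r / H r)) h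
    ((continuousOn_beta.add (continuousOn_const.mul KB.continuousOn_log_H)).mono (KA.Icc_sub h0 h1))
    (fun t ht => (hasDerivAt_beta (h0.trans_lt ht.1) (ht.2.trans h1)).add
      ((KB.hasDerivAt_log_H (h0.trans ht.1.le) (ht.2.trans h1)).const_mul _))
    (fun t ht => by
      have hp := KA.H_pos' (h0.trans ht.1.le) (ht.2.trans h1)
      have := L2 (h0.trans_lt ht.1) (ht.2.trans h1)
      have e : H t * dmu t + 49 / 100 * (-A t / H t) =
          (H t ^ 2 * dmu t - 49 / 100 * A t) / H t := by field_simp; ring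
      rw [e]
      exact div_nonneg (by linarith) hp.le)
  linarith

theorem KB.beta_mono {r1 r2 : ℝ} (h0 : 0 ≤ r1) (h : r1 ≤ r2) (h1 : r2 < 1) : beta r1 ≤ beta r2 := by
  have h2 := le_beta_diff h0 h h1
  have h3 := log_le_log (KA.H_pos' (h0.trans h) h1) (KA.H_anti h0 h h1)
  linarith

theorem KB.log_H_rho_le {y : ℝ} (hy : 0 < y) : log (H (rho y)) ≤ -log y := by
  have := log_nonpos (mul_pos hy (KA.H_rho_pos _)).le (KA.mul_H_rho_le y)
  rw [log_mul hy.ne' (KA.H_rho_pos _).ne'] at this
  linarith

theorem KB.log_H_rho_eq {y : ℝ} (h : y * H (rho y) = 1) : log (H (rho y)) = -log y := by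
  have hy : y ≠ 0 := by rintro rfl; simp at h
  have := congrArg log h
  rw [log_mul hy (KA.H_rho_pos _).ne', log_one] at this
  linarith

/-- `beta (rho y)` is monotone and Lipschitz in `log y` -/
theorem KB.br_lip {y1 y2 : ℝ} (h0 : 0 < y1) (h : y1 ≤ y2) :
    beta (rho y2) - beta (rho y1) ≤ 129 / 200 * (log y2 - log y1) := by
  have hl := log_le_log h0 h
  rcases (rho_nonneg y2).eq_or_lt with h2 | h2
  · have : rho y1 = rho y2 := le_antisymm (rho_mono h) (h2 ▸ rho_nonneg y1)
    rw [this]; linarith
  · have h3 := beta_diff_le (rho_nonneg y1) (rho_mono h) (rho_lt_one y2)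
    have h4 := KB.log_H_rho_le h0
    have h5 := KB.log_H_rho_eq (KA.rho_pos_spec h2)
    linarith

theorem KB.br_mono {y1 y2 : ℝ} (h : y1 ≤ y2) : beta (rho y1) ≤ beta (rho y2) :=
  KB.beta_mono (rho_nonneg y1) (rho_mono h) (rho_lt_one y2)

theorem KB.continuousAt_br {y : ℝ} (hy : 0 < y) : ContinuousAt (fun y => beta (rho y)) y := by
  have h1 : Filter.Tendsto (fun x => 129 / 200 * |log x - log y|) (nhds y) (nhds 0) := by
    have : ContinuousAt (fun x => 129 / 200 * |log x - log y|) y :=
      continuousAt_const.mul ((continuousAt_log hy.ne').sub continuousAt_const).abs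
    simpa using this.tendsto
  rw [ContinuousAt, tendsto_iff_dist_tendsto_zero]
  refine squeeze_zero' (Filter.Eventually.of_forall fun _ => dist_nonneg) ?_ h1
  filter_upwards [lt_mem_nhds hy] with x hx
  rw [Real.dist_eq]
  rcases le_total x y with h | h
  · have a1 := KB.br_mono h
    have a2 := KB.br_lip hx h
    have a3 := log_le_log hx h
    rw [abs_of_nonpos (by linarith), abs_of_nonpos (by linarith)]; linarith
  · have a1 := KB.br_mono h
    have a2 := KB.br_lip hy h
    have a3 := log_le_log hy h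
    rw [abs_of_nonneg (by linarith), abs_of_nonneg (by linarith)]; linarith

theorem hasDerivAt_Q_w {v s : ℝ} (hv : 0 < v) (hs : 0 < s) :
    HasDerivAt (fun v => Q v s) (beta (rho (v / s))) v := by
  refine hasDerivAt_of_subgrad (f := fun v => Q v s) (g := fun v => beta (rho (v / s))) hv
    (fun a b ha hb => ?_) ?_
  · have := Q_ge hb hs (rho_nonneg (a / s)) (rho_lt_one (a / s))
    simp only [Q] at this ⊢
    linarith
  · exact ContinuousAt.comp (f := fun v => v / s) (KB.continuousAt_br (div_pos hv hs))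
      (continuousAt_id.div_const s)

theorem KB.continuousOn_Q {s a b : ℝ} (hs : 0 < s) (ha : 0 < a) :
    ContinuousOn (fun v => Q v s) (Icc a b) := fun _ hx =>
  (hasDerivAt_Q_w (ha.trans_le hx.1) hs).continuousAt.continuousWithinAt

theorem KB.log_sub_le {x y : ℝ} (hx : 0 < x) (hy : 0 < y) : log x - log y ≤ (x - y) / y := by
  have := log_le_sub_one_of_pos (div_pos hx hy)
  rw [log_div hx.ne' hy.ne'] at this
  rw [sub_div, div_self hy.ne']
  exact this

theorem KB.log_div_sub {x y s : ℝ} (hx : 0 < x) (hy : 0 < y) (hs : 0 < s) :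
    log (x / s) - log (y / s) = log x - log y := by
  rw [log_div hx.ne' hs.ne', log_div hy.ne' hs.ne']; ring

theorem Q_upper {v l t : ℝ} (hv : 0 < v) (hl : 0 < l) (h0 : 0 ≤ t) (h1 : t < 1) :
    Q v (l * H t) ≤ v * beta t - mu t * (l * H t) + 129 / 200 * ((v - l) ^ 2 / (2 * min l v)) := by
  have hH := KA.H_pos' h0 h1
  have hs : 0 < l * H t := mul_pos hl hH
  set s := l * H t with hsd
  have hr : rho (l / s) = t := by
    rw [← rho_H h0 h1]; congr 1; rw [hsd]; field_simp
  have hQ : Q l s = l * beta t - mu t * s := by rw [Q, hr]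
  have hd : ∀ (c x : ℝ), 0 < x → HasDerivAt (fun x => Q x s - x * beta t - 129 / 200 * ((x - l) ^ 2 / (2 * c)))
      (beta (rho (x / s)) - beta (rho (l / s)) - 129 / 200 * ((x - l) / c)) x := fun c x hx => by
    rw [hr]
    refine (((hasDerivAt_Q_w hx hs).sub ((hasDerivAt_id x).mul_const (beta t))).sub
      (((((hasDerivAt_id x).sub_const l).pow 2).div_const (2 * c)).const_mul _)).congr_deriv ?_
    simp only [id]
    ring
  have hc : ∀ (c a b : ℝ), 0 < a → ContinuousOn
      (fun x => Q x s - x * beta t - 129 / 200 * ((x - l) ^ 2 / (2 * c))) (Icc a b) :=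
    fun c a b ha x hx => (hd c x (ha.trans_le hx.1)).continuousAt.continuousWithinAt
  rcases le_total l v with h | h
  · rw [min_eq_left h]
    have := KA.le_of_deriv_nonpos h (hc l l v hl) (fun x hx => hd l x (hl.trans hx.1)) fun x hx => by
      have x0 : 0 < x := hl.trans hx.1
      have a1 := KB.br_lip (div_pos hl hs) (div_le_div_of_nonneg_right hx.1.le hs.le)
      rw [KB.log_div_sub x0 hl hs] at a1
      have a2 := KB.log_sub_le x0 hl
      linarith
    simp only [hQ, sub_self] at this
    norm_num at this ⊢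
    linarith
  · rw [min_eq_right h]
    have := KA.le_of_deriv_nonneg h (hc v v l hv) (fun x hx => hd v x (hv.trans hx.1)) fun x hx => by
      have x0 : 0 < x := hv.trans hx.1
      have a1 := KB.br_lip (div_pos x0 hs) (div_le_div_of_nonneg_right hx.2.le hs.le)
      rw [KB.log_div_sub hl x0 hs] at a1
      have a2 := KB.log_sub_le hl x0
      have a3 : (l - x) / x ≤ (l - x) / v :=
        div_le_div_of_nonneg_left (sub_nonneg.2 hx.2.le) hv hx.1.le
      have a4 : (x - l) / v = -((l - x) / v) := by ring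
      linarith
    simp only [hQ, sub_self] at this
    norm_num at this ⊢
    linarith

theorem KB.le_log {M : ℝ} (h : 1 ≤ M) : 2 * (M - 1) / (M + 1) ≤ log M := by
  have := KA.le_of_deriv_nonneg (f := fun x => log x - 2 * (x - 1) / (x + 1))
    (f' := fun x => (x - 1) ^ 2 / (x * (x + 1) ^ 2)) h
    (fun x hx => by
      have x0 : 0 < x := one_pos.trans_le hx.1
      exact ((continuousAt_log x0.ne').sub (ContinuousAt.div (by fun_prop) (by fun_prop)
        (by positivity))).continuousWithinAt)
    (fun x hx => by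
      have x0 : 0 < x := one_pos.trans hx.1
      refine ((hasDerivAt_log x0.ne').sub ((((hasDerivAt_id x).sub_const 1).const_mul 2).div
        ((hasDerivAt_id x).add_const 1) (by simp only [id]; positivity))).congr_deriv ?_
      simp only [id]
      field_simp
      ring)
    (fun x hx => by
      have x0 : 0 < x := one_pos.trans hx.1
      positivity)
  simp only [log_one, sub_self, mul_zero, zero_div] at this
  linarith

theorem KB.hasDerivAt_xlog {c x : ℝ} (hc : 0 < c) (hx : 0 < x) :
    HasDerivAt (fun x => x * log (c * x) - x) (log (c * x)) x := by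
  refine (((hasDerivAt_id x).mul (((hasDerivAt_id x).const_mul c).log
    (by simp only [id]; positivity))).sub (hasDerivAt_id x)).congr_deriv ?_
  simp only [id]
  field_simp
  ring

theorem KB.br_bounds {y : ℝ} (h : 1 ≤ log 2 * y) :
    49 / 100 * log (log 2 * y) ≤ beta (rho y) - 2 * log 2 ∧
      beta (rho y) - 2 * log 2 ≤ 129 / 200 * log (log 2 * y) := by
  have hl : 0 < log 2 := log_pos one_lt_two
  have hy : 0 < y := by
    by_contra hn
    push Not at hn
    nlinarith
  have a1 := le_beta_diff le_rfl (rho_nonneg y) (rho_lt_one y)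
  have a2 := beta_diff_le le_rfl (rho_nonneg y) (rho_lt_one y)
  rw [beta_zero, H_zero, KB.log_H_rho_eq (rho_spec h)] at a1 a2
  rw [log_mul hl.ne' hy.ne']
  constructor <;> linarith

theorem Q_lower {v s m : ℝ} (hv : 0 < v) (hs : 0 < s) (hm : m = max (log 2 * v / s - 1) 0) :
    2 * log 2 * v - 2 * s + 49 / 100 * (v * m ^ 2 / ((1 + m) * (2 + m))) ≤ Q v s := by
  have hl : 0 < log 2 := log_pos one_lt_two
  have hQ : ∀ x, 0 < x → 2 * log 2 * x - 2 * s ≤ Q x s := fun x hx => by
    have := Q_ge hx hs le_rfl one_pos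
    rw [beta_zero, mu_zero] at this
    linarith
  rcases le_total (log 2 * v / s - 1) 0 with h | h
  · rw [max_eq_right h] at hm
    have := hQ v hv
    simp only [hm]
    norm_num
    linarith
  rw [max_eq_left h] at hm
  have hc : 0 < log 2 / s := div_pos hl hs
  have h0 : 0 < s / log 2 := div_pos hs hl
  have hle : s / log 2 ≤ v := by
    rw [div_le_iff₀ hl]
    have : 1 ≤ log 2 * v / s := by linarith
    rw [le_div_iff₀ hs] at this
    linarith
  have hd : ∀ x : ℝ, 0 < x → HasDerivAt
      (fun x => Q x s - 2 * log 2 * x - 49 / 100 * (x * log (log 2 / s * x) - x))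
      (beta (rho (x / s)) - 2 * log 2 - 49 / 100 * log (log 2 / s * x)) x := fun x hx =>
    (((hasDerivAt_Q_w hx hs).sub ((hasDerivAt_id x).const_mul (2 * log 2))).sub
      ((KB.hasDerivAt_xlog hc hx).const_mul _)).congr_deriv (by ring)
  have := KA.le_of_deriv_nonneg hle
    (fun x hx => (hd x (h0.trans_le hx.1)).continuousAt.continuousWithinAt)
    (fun x hx => hd x (h0.trans hx.1)) fun x hx => by
      have e : log 2 / s * x = log 2 * (x / s) := by ring
      have a1 : 1 ≤ log 2 * (x / s) := by
        have := hx.1.le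
        rw [div_le_iff₀ hl] at this
        rw [← mul_div_assoc, le_div_iff₀ hs]
        linarith
      have := (KB.br_bounds a1).1
      rw [e]
      linarith
  have e1 : log 2 / s * (s / log 2) = 1 := by field_simp
  have e2 : log 2 / s * v = 1 + m := by rw [hm]; ring
  have hm0 : 0 ≤ m := by rw [hm]; exact h
  have e3 : s / log 2 = v / (1 + m) := by rw [← e2]; field_simp
  simp only [e1, e2, log_one] at this
  have a1 := hQ _ h0
  have a2 := KB.le_log (M := 1 + m) (by linarith)
  have a3 : v * m ^ 2 / ((1 + m) * (2 + m)) =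
      v * (2 * (1 + m - 1) / (1 + m + 1)) - v + v / (1 + m) := by
    have : (1 + m + 1) = 2 + m := by ring
    rw [this]
    field_simp
    ring
  have a4 := mul_le_mul_of_nonneg_left a2 hv.le
  rw [a3, ← e3]
  linarith

theorem Q_diff {v1 v2 s : ℝ} (hv : 0 < v1) (hv' : v1 ≤ v2) (hs : 0 < s) (hs' : s ≤ log 2 * v1) :
    Q v2 s - Q v1 s ≤ 2 * log 2 * (v2 - v1) +
      129 / 200 * ((v2 - v1) * log (log 2 * v1 / s) + v2 * log (v2 / v1) - (v2 - v1)) := by
  have hl : 0 < log 2 := log_pos one_lt_two
  have hc : 0 < log 2 / s := div_pos hl hs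
  have hv2 : 0 < v2 := hv.trans_le hv'
  have hd : ∀ x : ℝ, 0 < x → HasDerivAt
      (fun x => Q x s - 2 * log 2 * x - 129 / 200 * (x * log (log 2 / s * x) - x))
      (beta (rho (x / s)) - 2 * log 2 - 129 / 200 * log (log 2 / s * x)) x := fun x hx =>
    (((hasDerivAt_Q_w hx hs).sub ((hasDerivAt_id x).const_mul (2 * log 2))).sub
      ((KB.hasDerivAt_xlog hc hx).const_mul _)).congr_deriv (by ring)
  have := KA.le_of_deriv_nonpos hv'
    (fun x hx => (hd x (hv.trans_le hx.1)).continuousAt.continuousWithinAt)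
    (fun x hx => hd x (hv.trans hx.1)) fun x hx => by
      have e : log 2 / s * x = log 2 * (x / s) := by ring
      have a1 : 1 ≤ log 2 * (x / s) := by
        rw [← mul_div_assoc, le_div_iff₀ hs]
        nlinarith [hx.1]
      have := (KB.br_bounds a1).2
      rw [e]
      linarith
  have e1 : log (log 2 / s * v1) = log (log 2 * v1 / s) := by congr 1; ring
  have e2 : log (log 2 / s * v2) = log (log 2 * v1 / s) + log (v2 / v1) := by
    rw [← log_mul (by positivity) (by positivity)]; congr 1; field_simp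
  simp only [e1, e2] at this
  linarith

end Vale.Agent.P322.CK
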