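import Vale.Agent.P322.Odd
import Vale.Agent.P322.Ent

namespace Vale.Agent.P322

open Finset

variable {n : ℕ}

noncomputable def post (ε : ℝ) (f : (Fin n → Bool) → Bool) (b : Bool) (y : Fin n → Bool) : ℝ :=
  ∑ x, if f x = b then chan ε x y else 0

theorem post_nonneg {ε : ℝ} (h0 : 0 ≤ ε) (h1 : ε ≤ 1) (f : (Fin n → Bool) → Bool) (b : Bool)
    (y : Fin n → Bool) : 0 ≤ post ε f b y :=
  sum_nonneg fun x _ => by split_ifs; exacts [chan_nonneg h0 h1 x y, le_rfl]

theorem post_add (ε : ℝ) (f : (Fin n → Bool) → Bool) (y : Fin n → Bool) :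
    post ε f true y + post ε f false y = 1 := by
  rw [← sum_chan' ε y]
  unfold post
  rw [← sum_add_distrib]
  refine sum_congr rfl fun x _ => ?_
  cases f x <;> simp

theorem joint_eq (ε : ℝ) (f : (Fin n → Bool) → Bool) (b : Bool) (y : Fin n → Bool) :
    joint ε f b y = 1 / 2 ^ n * post ε f b y := by
  unfold joint post
  rw [mul_sum]
  refine sum_congr rfl fun x _ => ?_
  split_ifs <;> simp

section blocks

variable (T : (Fin n → Bool) → Finset (Fin n))
  (hT : ∀ x y, (∀ i ∉ T x, y i = x i) → T y = T x)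

include hT

theorem block_symm {x y : Fin n → Bool} (h : ∀ i ∉ T x, y i = x i) : ∀ i ∉ T y, x i = y i := by
  rw [hT x y h]; exact fun i hi => (h i hi).symm

theorem sum_blocks (g : (Fin n → Bool) → ℝ) :
    ∑ x, (1 / 2 ^ (T x).card) * ∑ y, (if ∀ i ∉ T x, y i = x i then g y else 0) = ∑ y, g y := by
  simp_rw [mul_sum]
  rw [sum_comm]
  refine sum_congr rfl fun y _ => ?_
  have : ∀ x, (1 / 2 ^ (T x).card) * (if ∀ i ∉ T x, y i = x i then g y else 0) =
      g y / 2 ^ (T y).card * (if ∀ i ∉ T y, x i = y i then (1 : ℝ) else 0) := by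
    intro x
    by_cases h : ∀ i ∉ T x, y i = x i
    · rw [if_pos h, if_pos (block_symm T hT h), hT x y h]; ring
    · rw [if_neg h, if_neg (fun h' => h (block_symm T hT h'))]; ring
  simp_rw [this]
  rw [← mul_sum, card_block]
  field_simp

theorem post_blocks (ε : ℝ) (f : (Fin n → Bool) → Bool) (b : Bool) (y : Fin n → Bool) :
    ∑ x, (1 / 2 ^ (T x).card) * pb ε f (T x) x b y = post ε f b y := by
  unfold post
  rw [← sum_blocks T hT (fun x => if f x = b then chan ε x y else 0)]
  refine sum_congr rfl fun x _ => ?_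
  unfold pb
  refine congrArg _ ?_
  refine sum_congr rfl fun x' _ => ?_
  by_cases h1 : ∀ i ∉ T x, x' i = x i
  · rw [if_pos h1]
    by_cases h2 : f x' = b
    · rw [if_pos ⟨h1, h2⟩, if_pos h2]
    · rw [if_neg (fun h => h2 h.2), if_neg h2]
  · rw [if_neg h1, if_neg (fun h => h1 h.1)]

theorem hellinger {ε : ℝ} (h0 : 0 ≤ ε) (h1 : ε ≤ 1) (f : (Fin n → Bool) → Bool)
    (hne : ∀ x, (T x).Nonempty) (hodd : ∀ x, f (flip (T x) x) = !f x) :
    2 ^ n * √(ε * (1 - ε)) ≤ ∑ y, √(post ε f true y * post ε f false y) := by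
  have hpb : ∀ x b y, 0 ≤ pb ε f (T x) x b y := fun x b y =>
    sum_nonneg fun x' _ => by split_ifs; exacts [chan_nonneg h0 h1 x' y, le_rfl]
  have step : ∀ y, ∑ x, (1 / 2 ^ (T x).card) * √(pb ε f (T x) x true y * pb ε f (T x) x false y) ≤
      √(post ε f true y * post ε f false y) := by
    intro y
    rw [← post_blocks T hT, ← post_blocks T hT]
    refine Real.le_sqrt_of_sq_le ?_
    have := sum_mul_sq_le_sq_mul_sq univ
      (fun x => √((1 / 2 ^ (T x).card) * pb ε f (T x) x true y))
      (fun x => √((1 / 2 ^ (T x).card) * pb ε f (T x) x false y))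
    have e1 : ∀ b x, √((1 / 2 ^ (T x).card) * pb ε f (T x) x b y) ^ 2 =
        (1 / 2 ^ (T x).card) * pb ε f (T x) x b y := fun b x =>
      Real.sq_sqrt (mul_nonneg (by positivity) (hpb x b y))
    simp_rw [e1] at this
    refine le_trans (le_of_eq ?_) this
    congr 1
    refine sum_congr rfl fun x _ => ?_
    rw [← Real.sqrt_mul (mul_nonneg (by positivity) (hpb x true y)), mul_mul_mul_comm,
      Real.sqrt_mul (x := 1 / 2 ^ (T x).card * (1 / 2 ^ (T x).card)) (by positivity),
      Real.sqrt_mul_self (by positivity)]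
  refine le_trans ?_ (sum_le_sum fun y _ => step y)
  rw [sum_comm]
  simp_rw [← mul_sum]
  have : ∀ x, √(ε * (1 - ε)) ≤ (1 / 2 ^ (T x).card) *
      ∑ y, √(pb ε f (T x) x true y * pb ε f (T x) x false y) := by
    intro x
    have := block_bound h0 h1 f (T x) (hne x) x (fun x' hx' => by
      rw [← hT x x' hx']; exact hodd x')
    rw [Real.sqrt_mul h0, mul_comm, one_div, le_inv_mul_iff₀ (by positivity)]
    exact this
  refine le_trans (le_of_eq ?_) (sum_le_sum fun x _ => this x)
  simp

theorem balanced (f : (Fin n → Bool) → Bool) (hodd : ∀ x, f (flip (T x) x) = !f x) (b : Bool) :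
    ∑ x : Fin n → Bool, (if f x = b then (1 : ℝ) else 0) = 2 ^ n / 2 := by
  have hinv : Function.Involutive (fun x => flip (T x) x) := by
    intro x
    have : T (flip (T x) x) = T x := hT x _ fun i hi => by simp [flip, hi]
    simp only [this, flip_flip]
  have e := Equiv.sum_comp (Function.Involutive.toPerm _ hinv)
    (fun x => if f x = b then (1 : ℝ) else 0)
  simp only [Function.Involutive.coe_toPerm, hodd] at e
  have e2 : ∑ x : Fin n → Bool, ((if f x = b then (1 : ℝ) else 0) +
      if (!f x) = b then (1 : ℝ) else 0) = 2 ^ n := by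
    rw [sum_congr rfl (g := fun _ => (1 : ℝ))]
    · simp
    · intro x _; cases f x <;> cases b <;> simp
  rw [sum_add_distrib, e] at e2
  linarith

end blocks

theorem h2_eq (p : ℝ) : h2 p = Real.binEntropy p / Real.log 2 := by
  unfold h2 Real.binEntropy Real.logb
  rw [Real.log_inv, Real.log_inv]; ring

theorem mutInf_balanced {ε : ℝ} (f : (Fin n → Bool) → Bool)
    (hb : ∀ b, ∑ x : Fin n → Bool, (if f x = b then (1 : ℝ) else 0) = 2 ^ n / 2) :
    mutInf ε f = 1 - (1 / 2 ^ n * ∑ y, Real.binEntropy (post ε f true y)) / Real.log 2 := by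
  have m1 : ∀ b, ∑ y', joint ε f b y' = 1 / 2 := by
    intro b
    simp_rw [joint_eq]
    rw [← mul_sum]
    unfold post
    rw [sum_comm]
    have : ∀ x, ∑ y, (if f x = b then chan ε x y else 0) = if f x = b then (1 : ℝ) else 0 := by
      intro x; split_ifs
      · exact sum_chan ε x
      · simp
    simp_rw [this]
    rw [hb]; field_simp
  have m2 : ∀ y, ∑ b', joint ε f b' y = 1 / 2 ^ n := by
    intro y
    simp_rw [joint_eq]
    rw [← mul_sum, Fintype.sum_bool, post_add, mul_one]
  unfold mutInf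
  simp_rw [m1, m2, joint_eq]
  have hl : Real.log 2 ≠ 0 := by positivity
  have e : ∀ p : ℝ, 1 / 2 ^ n * p * Real.logb 2 (1 / 2 ^ n * p / (1 / 2 * (1 / 2 ^ n))) =
      1 / 2 ^ n * (p + p * Real.log p / Real.log 2) := by
    intro p
    have : 1 / 2 ^ n * p / (1 / 2 * (1 / 2 ^ n)) = 2 * p := by field_simp
    rw [this]
    by_cases hp : p = 0
    · simp [hp]
    · rw [Real.logb, Real.log_mul two_ne_zero hp]; field_simp
  simp_rw [e]
  rw [sum_comm]
  simp_rw [Fintype.sum_bool]
  have e2 : ∀ y, 1 / 2 ^ n * (post ε f true y + post ε f true y * Real.log (post ε f true y) /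
      Real.log 2) + 1 / 2 ^ n * (post ε f false y + post ε f false y *
        Real.log (post ε f false y) / Real.log 2) =
      1 / 2 ^ n - 1 / 2 ^ n * Real.binEntropy (post ε f true y) / Real.log 2 := by
    intro y
    have : post ε f false y = 1 - post ε f true y := by linarith [post_add ε f y]
    rw [this, Real.binEntropy, Real.log_inv, Real.log_inv]; ring
  simp_rw [e2]
  rw [sum_sub_distrib, mul_sum, sum_div]
  simp

theorem ck_of_hellinger {ε : ℝ} (h0 : 0 ≤ ε) (h1 : ε ≤ 1 / 2) (f : (Fin n → Bool) → Bool)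
    (hb : ∀ b, ∑ x : Fin n → Bool, (if f x = b then (1 : ℝ) else 0) = 2 ^ n / 2)
    (hH : 2 ^ n * √(ε * (1 - ε)) ≤ ∑ y, √(post ε f true y * post ε f false y)) :
    mutInf ε f ≤ 1 - h2 ε := by
  rw [mutInf_balanced f hb, h2_eq]
  have hl : 0 < Real.log 2 := by positivity
  have hp0 : ∀ y, 0 ≤ post ε f true y := post_nonneg h0 (by linarith) f true
  have hpf : ∀ y, post ε f false y = 1 - post ε f true y := fun y => by
    linarith [post_add ε f y]
  have hp1 : ∀ y, post ε f true y ≤ 1 := fun y => by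
    linarith [hpf y, post_nonneg h0 (by linarith) f false y]
  suffices h : Real.binEntropy ε ≤ 1 / 2 ^ n * ∑ y, Real.binEntropy (post ε f true y) by
    have := div_le_div_of_nonneg_right h hl.le
    linarith
  rcases h0.eq_or_lt with rfl | h0'
  · rw [Real.binEntropy_zero]
    exact mul_nonneg (by positivity)
      (sum_nonneg fun y _ => Real.binEntropy_nonneg (hp0 y) (hp1 y))
  rcases h1.eq_or_lt with rfl | h1'
  · have : ∀ y, post (1 / 2) f true y = 1 / 2 := by
      intro y
      unfold post chan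
      have : ∀ x : Fin n → Bool, (if f x = true then
          ∏ i, (if x i = y i then 1 - 1 / 2 else 1 / 2 : ℝ) else 0) =
          1 / 2 ^ n * if f x = true then (1 : ℝ) else 0 := by
        intro x
        split_ifs
        · rw [prod_congr rfl (g := fun _ => (1 / 2 : ℝ))]
          · simp
          · intro i _; split_ifs <;> norm_num
        · simp
      simp_rw [this]
      rw [← mul_sum, hb]; field_simp
    simp_rw [this]
    simp
  have t := sum_le_sum (s := univ) fun y _ => ent_tangent h0' h1' (hp0 y) (hp1 y)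
  rw [sum_sub_distrib (f := fun y => Real.binEntropy (post ε f true y)), ← mul_sum] at t
  simp_rw [hpf] at hH
  have hk := kk_nonneg h0' h1'
  simp only [sum_const, card_univ, Fintype.card_fun, Fintype.card_bool, Fintype.card_fin,
    nsmul_eq_mul, Nat.cast_pow, Nat.cast_ofNat] at t
  rw [one_div, le_inv_mul_iff₀ (by positivity)]
  nlinarith [mul_le_mul_of_nonneg_left hH hk]

end Vale.Agent.P322
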