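import Vale.Agent.P322.OneD

/-! Integration of the differential inequality. -/

namespace Vale.Agent.P322.CK

open Real Set

namespace Ob

theorem abs_lt {p : ℝ} (h0 : 0 < p) (h1 : p < 1) : |p| < 1 := by rwa [abs_of_pos h0]

theorem lower {a : ℝ} (ha : |a| < 1) (S E : ℝ → ℝ)
    (hS : ∀ p, 0 < p → p < 1 → HasDerivAt S (-E p / p) p)
    (hpos : ∀ p, 0 < p → p < 1 → 0 ≤ S p)
    (hc : ∀ p, 0 < p → p < 1 → ∀ r, 0 ≤ r → r < 1 →
      w a * beta r + 2 * (H a - log 2 * w a) ≤ E p + mu r * S p)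
    {p : ℝ} (h0 : 0 < p) (h1 : p < 1) : w a * H p ≤ S p := by
  have hW := w_pos ha
  have hN := L7 ha
  have hd : ∀ q ∈ Ioo (0 : ℝ) 1, HasDerivAt (fun q => (S q - w a * H q) / (q * A q))
      (((-E q / q - w a * -A q) * (q * A q)
        - (S q - w a * H q) * (1 * A q + q * (1 / (1 - q ^ 2)))) / (q * A q) ^ 2) q := fun q hq =>
    ((hS q hq.1 hq.2).sub ((hasDerivAt_H (abs_lt hq.1 hq.2)).const_mul _)).div
      ((hasDerivAt_id q).mul (hasDerivAt_A (abs_lt hq.1 hq.2))) (mul_pos hq.1 (A_pos hq.1 hq.2)).ne'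
  have anti : AntitoneOn (fun q => (S q - w a * H q) / (q * A q)) (Ioo 0 1) := by
    refine antitoneOn_of_deriv_nonpos (convex_Ioo _ _)
      (fun x hx => (hd x hx).continuousAt.continuousWithinAt)
      (fun x hx => (hd x (interior_subset hx)).differentiableAt.differentiableWithinAt) ?_
    intro q hq
    have hq := interior_subset hq
    rw [(hd q hq).deriv]
    refine div_nonpos_of_nonpos_of_nonneg ?_ (sq_nonneg _)
    have e1 := hc q hq.1 hq.2 q hq.1.le hq.2
    have e2 := mu_mul_A hq.1 hq.2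
    have e3 := A_pos hq.1 hq.2
    have e4 : (-E q / q - w a * -A q) * (q * A q) = (-E q + w a * (q * A q)) * A q := by
      have := hq.1.ne'
      field_simp; ring
    rw [e4, one_mul, mul_one_div, ← e2]
    unfold beta at e1
    have e5 : -E q + w a * (q * A q) ≤ (S q - w a * H q) * mu q := by linarith
    nlinarith
  by_contra hneg
  have hF := mul_pos h0 (A_pos h0 h1)
  have hκ : (S p - w a * H p) / (p * A p) < 0 := div_neg_of_neg_of_pos (by linarith) hF
  obtain ⟨κ, hκ'⟩ : ∃ κ, κ = -((S p - w a * H p) / (p * A p)) := ⟨_, rfl⟩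
  have hk : 0 < κ := by linarith
  have key : ∀ q ∈ Ioo p 1, κ * p ^ 2 ≤ w a * H q := fun q hq => by
    have q0 := h0.trans hq.1
    have a1 : (S q - w a * H q) / (q * A q) ≤ -κ := by
      rw [hκ', neg_neg]; exact anti ⟨h0, h1⟩ ⟨q0, hq.2⟩ hq.1.le
    rw [div_le_iff₀ (mul_pos q0 (A_pos q0 hq.2))] at a1
    have a2 := hpos q q0 hq.2
    have a3 : p ^ 2 ≤ q * A q := by nlinarith [le_A q0.le hq.2, hq.1]
    nlinarith
  have lim : κ * p ^ 2 ≤ w a * H 1 :=
    (isClosed_le continuous_const (continuous_const.mul continuous_H)).closure_subset_iff.2 key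
      (by rw [closure_Ioo h1.ne]; exact ⟨h1.le, le_rfl⟩)
  rw [H_one, mul_zero] at lim
  nlinarith [mul_pos hk (pow_pos h0 2)]

theorem mono {a : ℝ} (S E : ℝ → ℝ)
    (hS : ∀ p, 0 < p → p < 1 → HasDerivAt S (-E p / p) p)
    (hc : ∀ p, 0 < p → p < 1 → ∀ r, 0 ≤ r → r < 1 →
      w a * beta r + 2 * (H a - log 2 * w a) ≤ E p + mu r * S p) :
    MonotoneOn (fun q => (H a - S q) / q ^ 2) (Ioo 0 1) := by
  have hd : ∀ q ∈ Ioo (0 : ℝ) 1, HasDerivAt (fun q => (H a - S q) / q ^ 2)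
      ((-(-E q / q) * q ^ 2 - (H a - S q) * ((2 : ℕ) * q ^ (2 - 1))) / (q ^ 2) ^ 2) q := fun q hq =>
    ((hS q hq.1 hq.2).const_sub _).div (hasDerivAt_pow 2 q) (pow_pos hq.1 2).ne'
  refine monotoneOn_of_deriv_nonneg (convex_Ioo _ _)
    (fun x hx => (hd x hx).continuousAt.continuousWithinAt)
    (fun x hx => (hd x (interior_subset hx)).differentiableAt.differentiableWithinAt) ?_
  intro q hq
  have hq := interior_subset hq
  rw [(hd q hq).deriv]
  refine div_nonneg ?_ (sq_nonneg _)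
  have e1 := hc q hq.1 hq.2 0 le_rfl one_pos
  rw [beta_zero, mu_zero] at e1
  have e2 : -(-E q / q) * q ^ 2 - (H a - S q) * ((2 : ℕ) * q ^ (2 - 1))
      = q * (E q - 2 * (H a - S q)) := by
    have := hq.1.ne'
    push_cast; field_simp
  rw [e2]
  exact mul_nonneg hq.1.le (by linarith)

end Ob

theorem ode_bound {a : ℝ} (ha : |a| < 1) (S E : ℝ → ℝ)
    (hS : ∀ p, 0 < p → p < 1 → HasDerivAt S (-E p / p) p)
    (hpos : ∀ p, 0 < p → p < 1 → 0 ≤ S p)
    (hc : ∀ p, 0 < p → p < 1 → ∀ r, 0 ≤ r → r < 1 →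
      w a * beta r + 2 * (H a - log 2 * w a) ≤ E p + mu r * S p)
    {p : ℝ} (h0 : 0 < p) (h1 : p < 1) : H a - S p ≤ ell p := by
  have low := fun q => Ob.lower ha S E hS hpos hc (p := q)
  have mono := Ob.mono S E hS hc
  have eH : H |a| = H a := by
    rcases abs_choice a with h | h <;> rw [h]
    exact H_neg a
  have ew : w |a| = w a := by
    rcases abs_choice a with h | h <;> rw [h]
    exact w_neg a
  have hb := abs_nonneg a
  have fin : ∀ q, p ≤ q → q < 1 → H a - S q ≤ q ^ 2 / 2 → H a - S p ≤ ell p := by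
    intro q h2 h3 h4
    have q0 := h0.trans_le h2
    have a1 : (H a - S p) / p ^ 2 ≤ (H a - S q) / q ^ 2 := mono ⟨h0, h1⟩ ⟨q0, h3⟩ h2
    have a2 : (H a - S q) / q ^ 2 ≤ 1 / 2 := by rw [div_le_iff₀ (pow_pos q0 2)]; linarith
    have a3 := (div_le_iff₀ (pow_pos h0 2)).1 (a1.trans a2)
    have a4 := ell_ge (Ob.abs_lt h0 h1).le
    linarith
  rcases le_total |a| (61 / 100) with h | h
  · have l6 := L6 hb h
    rw [eH, ew] at l6
    rcases le_total p (3 / 2 * |a|) with h2 | h2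
    · have a1 := low _ (h0.trans_le h2) (by linarith)
      refine fin _ h2 (by linarith) ?_
      unfold H at a1
      linarith
    · have a1 := low p h0 h1
      have a2 : H p ≤ H (3 / 2 * |a|) :=
        H_strictAnti.antitoneOn ⟨by positivity, by linarith⟩ ⟨h0.le, h1.le⟩ h2
      have a3 := ell_ge (u := 3 / 2 * |a|) (by rw [abs_of_nonneg (by positivity)]; linarith)
      have a4 := w_le_one ha.le
      have a5 : ell (3 / 2 * |a|) ≤ ell p := by unfold H at a2; linarith
      have a6 := mul_le_mul_of_nonneg_left a5 (sub_nonneg.2 a4)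
      rw [show H p = log 2 - ell p from rfl] at a1
      linarith
  · have a1 := ell_ge4 (u := |a|) (by rw [abs_abs]; exact ha.le)
    have a2 : (61 / 100 : ℝ) ^ 2 ≤ |a| ^ 2 := pow_le_pow_left₀ (by norm_num) h 2
    have a3 : (61 / 100 : ℝ) ^ 4 ≤ |a| ^ 4 := pow_le_pow_left₀ (by norm_num) h 4
    have a4 := log_two_lt_d9
    have a5 : H a ≤ 4956 / 10000 := by
      rw [← eH, show H |a| = log 2 - ell |a| from rfl]; linarith
    have q1 : max p (999 / 1000) < 1 := max_lt h1 (by norm_num)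
    have q2 := hpos _ (h0.trans_le (le_max_left _ _)) q1
    have q3 : (999 / 1000 : ℝ) ^ 2 ≤ max p (999 / 1000) ^ 2 :=
      pow_le_pow_left₀ (by norm_num) (le_max_right _ _) 2
    exact fin _ (le_max_left _ _) q1 (by linarith)

end Vale.Agent.P322.CK
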