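import Vale.Agent.P322.OdeA
import Vale.Agent.P322.OdeB
import Vale.Agent.P322.Main

/-! The Courtade-Kumar inequality. -/

namespace Vale.Agent.P322.CK

open Real Set

namespace LK

theorem mul_log_two (p : ℝ) : 2 * p * log (2 * p) = 2 * p * (log 2 + log p) := by
  by_cases h : p = 0
  · simp [h]
  · rw [log_mul two_ne_zero h]

theorem H_eq_ent (p : ℝ) : H (1 - 2 * p) = -(p * log p + (1 - p) * log (1 - p)) := by
  unfold H ell
  rw [show 1 + (1 - 2 * p) = 2 * (1 - p) by ring, show 1 - (1 - 2 * p) = 2 * p by ring,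
    mul_log_two, mul_log_two]
  ring

theorem H_half (u : ℝ) : H u = -((1 + u) / 2 * log ((1 + u) / 2) +
    (1 - u) / 2 * log ((1 - u) / 2)) := by
  have := H_eq_ent ((1 - u) / 2)
  rw [show 1 - 2 * ((1 - u) / 2) = u by ring, show 1 - (1 - u) / 2 = (1 + u) / 2 by ring] at this
  rw [this]
  ring

theorem post_eq {n : ℕ} (f : (Fin n → Bool) → Bool) (ε : ℝ) (b : Bool) (y : Fin n → Bool) :
    post ε f b y = (1 + sg b * uu f (1 - 2 * ε) y) / 2 := by
  unfold post uu
  rw [show (1 - (1 - 2 * ε)) / 2 = ε by ring]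
  nth_rewrite 1 [← sum_chan' ε y]
  rw [Finset.mul_sum, ← Finset.sum_add_distrib, Finset.sum_div]
  refine Finset.sum_congr rfl fun x _ => ?_
  cases f x <;> cases b <;> simp

theorem card_eq (n : ℕ) : (Fintype.card (Fin n → Bool) : ℝ) = 2 ^ n := by simp

theorem abs_av_le {n : ℕ} (f : (Fin n → Bool) → Bool) : |av fun x => sg (f x)| ≤ 1 := by
  rw [← uu_zero f fun _ => true]
  exact abs_uu_le f le_rfl zero_le_one _

theorem Sent_nonneg {n : ℕ} {u : (Fin n → Bool) → ℝ} (h : ∀ y, |u y| ≤ 1) : 0 ≤ Sent u :=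
  div_nonneg (Finset.sum_nonneg fun y _ => H_nonneg (h y)) (Nat.cast_nonneg _)

end LK

open LK

theorem h2_eq_H {ε : ℝ} (h0 : 0 ≤ ε) (h1 : ε ≤ 1 / 2) : h2 ε * log 2 = H (1 - 2 * ε) := by
  have hl : log 2 ≠ 0 := by positivity
  rw [H_eq_ent, h2, logb, logb]
  field_simp
  ring

theorem mutInf_eq {n : ℕ} (f : (Fin n → Bool) → Bool) {ε : ℝ} (h0 : 0 ≤ ε) (h1 : ε ≤ 1 / 2) :
    mutInf ε f * log 2 = H (av fun x => sg (f x)) - Sent (uu f (1 - 2 * ε)) := by
  have hl : log 2 ≠ 0 := by positivity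
  obtain ⟨a, ha⟩ : ∃ a, a = av fun x => sg (f x) := ⟨_, rfl⟩
  have hs : ∑ y, uu f (1 - 2 * ε) y = 2 ^ n * a := by
    rw [ha, ← av_uu f (1 - 2 * ε), av, card_eq]
    field_simp
  have m0 : ∀ b, ∑ y, post ε f b y = 2 ^ n * ((1 + sg b * a) / 2) := by
    intro b
    simp only [post_eq, ← Finset.sum_div, Finset.sum_add_distrib, ← Finset.mul_sum, hs,
      Finset.sum_const, Finset.card_univ, nsmul_eq_mul, card_eq]
    ring
  have m1 : ∀ b, ∑ y', joint ε f b y' = (1 + sg b * a) / 2 := by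
    intro b
    simp only [joint_eq, ← Finset.mul_sum, m0]
    field_simp
  have m2 : ∀ y, ∑ b', joint ε f b' y = 1 / 2 ^ n := by
    intro y
    simp_rw [joint_eq]
    rw [← Finset.mul_sum, Fintype.sum_bool, post_add, mul_one]
  have e : ∀ b y, 1 / 2 ^ n * post ε f b y *
      logb 2 (1 / 2 ^ n * post ε f b y / ((1 + sg b * a) / 2 * (1 / 2 ^ n))) * log 2 =
      (post ε f b y * log (post ε f b y)) / 2 ^ n -
        post ε f b y * (log ((1 + sg b * a) / 2) / 2 ^ n) := by
    intro b y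
    by_cases hp : post ε f b y = 0
    · simp [hp]
    have hm : (1 + sg b * a) / 2 ≠ 0 := by
      intro hm
      have := m0 b
      rw [hm, mul_zero, Finset.sum_eq_zero_iff_of_nonneg
        fun y _ => post_nonneg h0 (by linarith) f b y] at this
      exact hp (this y (Finset.mem_univ _))
    have : 1 / 2 ^ n * post ε f b y / ((1 + sg b * a) / 2 * (1 / 2 ^ n)) =
        post ε f b y / ((1 + sg b * a) / 2) := by
      rw [mul_comm, mul_div_mul_right _ _ (by positivity)]
    rw [this, logb, log_div hp hm]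
    field_simp
  unfold mutInf
  simp only [m1, m2]
  simp only [joint_eq, Finset.sum_mul, e, Finset.sum_sub_distrib]
  simp only [← Finset.sum_mul, m0]
  rw [Finset.sum_comm, ← ha, Sent, av, card_eq, Finset.sum_div, H_half a]
  simp only [Fintype.sum_bool, post_eq, sg_true, sg_false, H_half (uu f (1 - 2 * ε) _), one_mul,
    neg_one_mul, ← sub_eq_add_neg, neg_div, Finset.sum_neg_distrib, add_div (_ * log _)]
  field_simp
  ring

theorem ck {n : ℕ} (f : (Fin n → Bool) → Bool) {ε : ℝ} (h0 : 0 ≤ ε) (h1 : ε ≤ 1 / 2) :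
    mutInf ε f ≤ 1 - h2 ε := by
  have hl : 0 < log 2 := by positivity
  refine le_of_mul_le_mul_right ?_ hl
  rw [mutInf_eq f h0 h1, sub_mul, h2_eq_H h0 h1, one_mul, show log 2 - H (1 - 2 * ε) =
    ell (1 - 2 * ε) by simp [H]]
  have p0 : 0 ≤ 1 - 2 * ε := by linarith
  have p1 : 1 - 2 * ε ≤ 1 := by linarith
  generalize 1 - 2 * ε = p at p0 p1
  have hS : ∀ p, 0 ≤ p → p ≤ 1 → 0 ≤ Sent (uu f p) := fun p a b =>
    Sent_nonneg (abs_uu_le f a b)
  have hell : 0 ≤ ell p := le_trans (by positivity) (ell_ge (u := p) (by rw [abs_le]; constructor <;> linarith))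
  by_cases hf : ∃ x x', f x ≠ f x'
  swap
  · push Not at hf
    have : (av fun x => sg (f x)) = sg (f fun _ => true) := by
      simp only [av, fun x => hf x fun _ => true, Finset.sum_const, Finset.card_univ, nsmul_eq_mul]
      field_simp
    have h : H (av fun x => sg (f x)) = 0 := by
      rw [this]
      cases f fun _ => true
      · rw [sg_false, H_neg, H_one]
      · rw [sg_true, H_one]
    linarith [hS p p0 p1]
  rcases p1.eq_or_lt with rfl | p1'
  · rw [ell_one]
    linarith [hS 1 p0 p1, H_le (abs_av_le f)]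
  rcases p0.eq_or_lt with rfl | p0'
  · have : Sent (uu f 0) = H (av fun x => sg (f x)) := by
      simp only [Sent, uu_zero]
      rw [av, Finset.sum_const, Finset.card_univ, nsmul_eq_mul]
      field_simp
    linarith
  have ha : |av fun x => sg (f x)| < 1 := by
    rw [← uu_zero f fun _ => true]
    exact abs_uu_lt f hf le_rfl zero_lt_one _
  refine ode_bound ha (fun p => Sent (uu f p)) (fun p => En (uu f p))
    (fun p a b => hasDerivAt_Sent f hf a b) (fun p a b => hS p a.le b.le)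
    (fun p a b r r0 r1 => ?_) p0' p1'
  have := club (uu f p) (abs_uu_lt f hf a.le b) r0 r1
  rwa [av_uu] at this

end Vale.Agent.P322.CK
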