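import Vale.Agent.P322.EngD

/-! One dimensional numerical checks. -/

set_option linter.unusedSimpArgs false
set_option linter.unusedVariables false

namespace Vale.Agent.P322.CK

open Real Eng

def coreS : List Ex :=
  [(.cvx .sq (.v 1)),
   (.cvx (.ser2 2 5 0 1) (.v 2)),
   (.cvx (.ser2 2 5 2 6) (.v 3)),
   (.add (.q 1 3) (.mul (.v 2) (.v 1))),
   (.add (.q 1 1) (.mul (.v 3) (.v 0))),
   (.add (.q 1 12) (.mul (.v 4) (.v 2))),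
   (.add (.q 1 2) (.mul (.v 5) (.v 0))),
   (.add .L (.neg (.mul (.v 6) (.v 0)))),
   (.add (.q 1 1) (.neg (.v 7))),
   (.add (.v 4) (.v 5)),
   (.mul (.cvx .sq (.v 2)) (.v 0)),
   (.mul (.cvx .sq (.mul (.v 2) (.v 6))) (.v 6)),
   (.add (.v 8) (.neg (.v 7))),
   (.add (.mul (.v 0) (.v 8)) (.v 9)),
   (.add (.add (.add (.smul 2 1 (.v 11)) (.neg (.smul 1 2 (.add (.v 12) (.neg (.v 10)))))) (.neg (.v 12))) (.mul (.v 1) (.add (.v 8) (.neg (.v 10))))),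
   (.add (.smul 129 200 (.v 3)) (.neg (.v 4))),
   (.add (.v 5) (.neg (.smul 49 100 (.v 4)))),
   (.add (.mul (.add (.add (.add (.smul 2 1 (.mul (.mul (.v 8) (.v 13)) (.add (.q 1 1) (.v 12)))) (.neg (.q 2 1))) (.neg (.v 13))) (.neg (.smul 3 1 (.v 15)))) (.v 9)) (.mul (.add (.smul 4 1 (.v 9)) (.neg (.mul (.v 8) (.v 12)))) (.mul (.v 12) (.v 7)))),
   (.add (.add (.add (.smul 4 3 (.mul (.v 12) (.add (.q 1 1) (.mul (.v 17) (.v 12))))) (.mul (.add (.v 14) (.v 16)) (.cvx .sq (.v 11)))) (.neg (.smul 1 3 (.v 4)))) (.neg (.smul 2 1 (.mul (.add (.q 1 1) (.mul (.v 17) (.v 4))) (.v 3))))),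
   (.add (.add (.mul .L (.add (.q 6 5) (.neg (.smul 1 5 (.v 18))))) (.neg (.q 1 2))) (.neg (.v 13)))]

def OkS (r : ℝ) : Prop :=
  ∃ v a2 l2 a1 a l1 l h o s n dn c G e2 : ℝ,
    v = r ^ 2 ∧
    a2 = serF 2 5 0 1 (max r 0 ^ 2) ∧
    l2 = serF 2 5 2 6 (max r 0 ^ 2) ∧
    a1 = (1 / 3) + v * a2 ∧
    a = 1 + v * a1 ∧
    l1 = (1 / 12) + v * l2 ∧
    l = (1 / 2) + v * l1 ∧
    h = log 2 + -(v * l) ∧
    o = 1 + -v ∧
    s = a + a1 ∧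
    n = h ^ 2 * s ∧
    dn = (o * a) ^ 2 * a ∧
    c = a1 + -a ∧
    G = c * a + a1 ∧
    e2 = 2 * l2 + -((1 / 2) * (a2 + -a1)) + -a2 + c * (l1 + -a1) ∧
    0 ≤ (129 / 200) * dn + -n ∧
    0 ≤ n + -((49 / 100) * dn) ∧
    0 ≤ (2 * (o * a1 * (1 + a)) + -2 + -a1 + -(3 * a2)) * h + (4 * h + -(o * a)) * (a * s) ∧
    0 ≤ (4 / 3) * (l1 * (1 + v * l1)) + (a1 + a2) * l ^ 2 + -((1 / 3) * G) + -(2 * ((1 + v * G) * e2)) ∧
    0 ≤ log 2 * ((6 / 5) + -((1 / 5) * v)) + -(1 / 2) + -l1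

theorem okS_core (r y0 : ℝ)
    (hh : ∀ i < 5, 0 ≤ nthR (runR coreS [y0, r]) i) : OkS r := by
  obtain ⟨v, h_v⟩ : ∃ x : ℝ, x = r ^ 2 := ⟨_, rfl⟩
  obtain ⟨a2, h_a2⟩ : ∃ x : ℝ, x = serF 2 5 0 1 (max r 0 ^ 2) := ⟨_, rfl⟩
  obtain ⟨l2, h_l2⟩ : ∃ x : ℝ, x = serF 2 5 2 6 (max r 0 ^ 2) := ⟨_, rfl⟩
  obtain ⟨a1, h_a1⟩ : ∃ x : ℝ, x = (1 / 3) + v * a2 := ⟨_, rfl⟩
  obtain ⟨a, h_a⟩ : ∃ x : ℝ, x = 1 + v * a1 := ⟨_, rfl⟩
  obtain ⟨l1, h_l1⟩ : ∃ x : ℝ, x = (1 / 12) + v * l2 := ⟨_, rfl⟩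
  obtain ⟨l, h_l⟩ : ∃ x : ℝ, x = (1 / 2) + v * l1 := ⟨_, rfl⟩
  obtain ⟨h, h_h⟩ : ∃ x : ℝ, x = log 2 + -(v * l) := ⟨_, rfl⟩
  obtain ⟨o, h_o⟩ : ∃ x : ℝ, x = 1 + -v := ⟨_, rfl⟩
  obtain ⟨s, h_s⟩ : ∃ x : ℝ, x = a + a1 := ⟨_, rfl⟩
  obtain ⟨n, h_n⟩ : ∃ x : ℝ, x = h ^ 2 * s := ⟨_, rfl⟩
  obtain ⟨dn, h_dn⟩ : ∃ x : ℝ, x = (o * a) ^ 2 * a := ⟨_, rfl⟩
  obtain ⟨c, h_c⟩ : ∃ x : ℝ, x = a1 + -a := ⟨_, rfl⟩
  obtain ⟨G, h_G⟩ : ∃ x : ℝ, x = c * a + a1 := ⟨_, rfl⟩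
  obtain ⟨e2, h_e2⟩ : ∃ x : ℝ, x = 2 * l2 + -((1 / 2) * (a2 + -a1)) + -a2 + c * (l1 + -a1) := ⟨_, rfl⟩
  obtain ⟨o1, h_o1⟩ : ∃ x : ℝ, x = (129 / 200) * dn + -n := ⟨_, rfl⟩
  obtain ⟨o2, h_o2⟩ : ∃ x : ℝ, x = n + -((49 / 100) * dn) := ⟨_, rfl⟩
  obtain ⟨o3, h_o3⟩ : ∃ x : ℝ, x = (2 * (o * a1 * (1 + a)) + -2 + -a1 + -(3 * a2)) * h + (4 * h + -(o * a)) * (a * s) := ⟨_, rfl⟩
  obtain ⟨o4, h_o4⟩ : ∃ x : ℝ, x = (4 / 3) * (l1 * (1 + v * l1)) + (a1 + a2) * l ^ 2 + -((1 / 3) * G) + -(2 * ((1 + v * G) * e2)) := ⟨_, rfl⟩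
  obtain ⟨o7, h_o7⟩ : ∃ x : ℝ, x = log 2 * ((6 / 5) + -((1 / 5) * v)) + -(1 / 2) + -l1 := ⟨_, rfl⟩
  have ee : runR coreS [y0, r] = [o7, o4, o3, o2, o1, e2, G, c, dn, n, s, o, h, l, l1, a, a1, l2, a2, v, y0, r] := by
    unfold coreS
    refine (runR_cons v (by simp only [Ex.R, Fn.R, nthR, Nat.cast_ofNat, Nat.cast_one, Nat.cast_zero, div_one]; exact h_v)).trans ?_
    refine (runR_cons a2 (by simp only [Ex.R, Fn.R, nthR, Nat.cast_ofNat, Nat.cast_one, Nat.cast_zero, div_one]; exact h_a2)).trans ?_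
    refine (runR_cons l2 (by simp only [Ex.R, Fn.R, nthR, Nat.cast_ofNat, Nat.cast_one, Nat.cast_zero, div_one]; exact h_l2)).trans ?_
    refine (runR_cons a1 (by simp only [Ex.R, Fn.R, nthR, Nat.cast_ofNat, Nat.cast_one, Nat.cast_zero, div_one]; exact h_a1)).trans ?_
    refine (runR_cons a (by simp only [Ex.R, Fn.R, nthR, Nat.cast_ofNat, Nat.cast_one, Nat.cast_zero, div_one]; exact h_a)).trans ?_
    refine (runR_cons l1 (by simp only [Ex.R, Fn.R, nthR, Nat.cast_ofNat, Nat.cast_one, Nat.cast_zero, div_one]; exact h_l1)).trans ?_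
    refine (runR_cons l (by simp only [Ex.R, Fn.R, nthR, Nat.cast_ofNat, Nat.cast_one, Nat.cast_zero, div_one]; exact h_l)).trans ?_
    refine (runR_cons h (by simp only [Ex.R, Fn.R, nthR, Nat.cast_ofNat, Nat.cast_one, Nat.cast_zero, div_one]; exact h_h)).trans ?_
    refine (runR_cons o (by simp only [Ex.R, Fn.R, nthR, Nat.cast_ofNat, Nat.cast_one, Nat.cast_zero, div_one]; exact h_o)).trans ?_
    refine (runR_cons s (by simp only [Ex.R, Fn.R, nthR, Nat.cast_ofNat, Nat.cast_one, Nat.cast_zero, div_one]; exact h_s)).trans ?_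
    refine (runR_cons n (by simp only [Ex.R, Fn.R, nthR, Nat.cast_ofNat, Nat.cast_one, Nat.cast_zero, div_one]; exact h_n)).trans ?_
    refine (runR_cons dn (by simp only [Ex.R, Fn.R, nthR, Nat.cast_ofNat, Nat.cast_one, Nat.cast_zero, div_one]; exact h_dn)).trans ?_
    refine (runR_cons c (by simp only [Ex.R, Fn.R, nthR, Nat.cast_ofNat, Nat.cast_one, Nat.cast_zero, div_one]; exact h_c)).trans ?_
    refine (runR_cons G (by simp only [Ex.R, Fn.R, nthR, Nat.cast_ofNat, Nat.cast_one, Nat.cast_zero, div_one]; exact h_G)).trans ?_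
    refine (runR_cons e2 (by simp only [Ex.R, Fn.R, nthR, Nat.cast_ofNat, Nat.cast_one, Nat.cast_zero, div_one]; exact h_e2)).trans ?_
    refine (runR_cons o1 (by simp only [Ex.R, Fn.R, nthR, Nat.cast_ofNat, Nat.cast_one, Nat.cast_zero, div_one]; exact h_o1)).trans ?_
    refine (runR_cons o2 (by simp only [Ex.R, Fn.R, nthR, Nat.cast_ofNat, Nat.cast_one, Nat.cast_zero, div_one]; exact h_o2)).trans ?_
    refine (runR_cons o3 (by simp only [Ex.R, Fn.R, nthR, Nat.cast_ofNat, Nat.cast_one, Nat.cast_zero, div_one]; exact h_o3)).trans ?_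
    refine (runR_cons o4 (by simp only [Ex.R, Fn.R, nthR, Nat.cast_ofNat, Nat.cast_one, Nat.cast_zero, div_one]; exact h_o4)).trans ?_
    refine (runR_cons o7 (by simp only [Ex.R, Fn.R, nthR, Nat.cast_ofNat, Nat.cast_one, Nat.cast_zero, div_one]; exact h_o7)).trans ?_
    rfl
  rw [ee] at hh
  exact ⟨v, a2, l2, a1, a, l1, l, h, o, s, n, dn, c, G, e2, h_v, h_a2, h_l2, h_a1, h_a, h_l1, h_l, h_h, h_o, h_s, h_n, h_dn, h_c, h_G, h_e2,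
    h_o1 ▸ (hh 4 (by norm_num) : 0 ≤ o1),
    h_o2 ▸ (hh 3 (by norm_num) : 0 ≤ o2),
    h_o3 ▸ (hh 2 (by norm_num) : 0 ≤ o3),
    h_o4 ▸ (hh 1 (by norm_num) : 0 ≤ o4),
    h_o7 ▸ (hh 0 (by norm_num) : 0 ≤ o7)⟩

theorem chkS0 : Nat.ble 1 (chk coreS 5 30 489626271744 0 489626271744 0 18808443907091992661) = true := by decide +kernel

theorem okS0 {r : ℝ} (h0 : 0 ≤ r) (h1 : r ≤ 57 / 64) : OkS r :=
  okS_core r 0 fun i hi => chk_sound _ _ _ _ _ _ _ _ (Nat.one_le_iff_ne_zero.1 (Nat.le_of_ble_eq_true chkS0)) _ _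
    (box_of h0 h1 (by norm_num) (by norm_num)) (by norm_num) i hi

def coreG : List Ex :=
  [(.add (.q 1 1) (.neg (.v 1))),
   (.cvx .sq (.v 2)),
   (.smul 1 2 (.cvx (.ser 1 1 0 1) (.smul 1 2 (.v 1)))),
   (.add (.q 1 1) (.mul (.v 0) (.v 3))),
   (.add (.add (.q 1 1) (.v 2)) (.neg (.mul (.v 5) (.v 4)))),
   (.add (.q 1 1) (.v 6)),
   (.mul (.v 4) (.cvx .ell (.v 7))),
   (.mul (.v 1) (.add (.add .L (.neg (.v 0))) (.neg (.mul (.v 6) (.v 4))))),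
   (.add (.q 1 1) (.mul (.mul (.v 7) (.v 5)) (.v 8))),
   (.mul (.cvx .sq (.v 5)) (.v 4)),
   (.cvx .sq (.v 4)),
   (.add (.smul 129 200 (.v 0)) (.neg (.v 1))),
   (.add (.v 2) (.neg (.smul 49 100 (.v 1)))),
   (.add (.mul (.add (.smul 2 1 (.add (.mul (.v 14) (.add (.q 1 1) (.neg (.v 11)))) (.mul (.v 11) (.v 13)))) (.mul (.add (.smul 4 1 (.v 14)) (.neg (.smul 3 1 (.v 13)))) (.v 8))) (.v 9)) (.neg (.mul (.v 7) (.v 8)))),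
   (.add (.mul (.v 9) (.v 7)) (.smul 2 1 (.mul (.v 6) (.add (.v 6) (.neg (.v 15)))))),
   (.add (.mul (.v 16) (.v 11)) (.neg (.smul 23 50 (.mul (.v 9) (.v 6))))),
   (.add (.smul 129 200 (.mul (.mul (.v 16) (.v 10)) (.v 7))) (.neg (.mul (.v 12) (.add (.mul (.mul (.v 17) (.v 12)) (.v 16)) (.mul (.add (.smul 49 100 (.cvx .inv .L)) (.neg (.q 1 1))) (.mul (.v 10) (.v 7))))))),
   (.add (.v 13) (.neg (.mul (.mul (.v 17) (.v 11)) (.add (.mul .L (.add (.add (.q 1 1) (.v 15)) (.neg (.smul 1 5 (.cvx .sq (.v 15)))))) (.neg (.smul 1 2 (.v 15)))))))]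

def OkG (r b : ℝ) : Prop :=
  ∃ ep v y yb n s el g eb n1 s2 : ℝ,
    ep = 1 + -r ∧
    v = r ^ 2 ∧
    y = (1 / 2) * serF 1 1 0 1 ((1 / 2) * ep) ∧
    yb = 1 + y * b ∧
    n = 1 + v + -(r * b) ∧
    s = 1 + r ∧
    el = v * serF 2 1 2 2 (max r 0 ^ 2) ∧
    g = s * (log 2 + -el + -(ep * y)) ∧
    eb = 1 + ep * y * b ∧
    n1 = yb ^ 2 * n ∧
    s2 = s ^ 2 ∧
    0 ≤ (129 / 200) * s2 + -n1 ∧
    0 ≤ n1 + -((49 / 100) * s2) ∧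
    0 ≤ (2 * (r * (1 + -v) + v * b) + (4 * r + -(3 * b)) * n) * yb + -(s * n) ∧
    0 ≤ n * el + 2 * (g * (g + -r)) ∧
    0 ≤ r * yb + -((23 / 50) * (s * eb)) ∧
    0 ≤ (129 / 200) * (b * s * eb) + -(yb * (r * yb * b + ((49 / 100) * (log 2)⁻¹ + -1) * (s * eb))) ∧
    0 ≤ yb + -(b * s * (log 2 * (1 + v + -((1 / 5) * v ^ 2)) + -((1 / 2) * v)))

theorem okG_core (r b : ℝ)
    (hh : ∀ i < 7, 0 ≤ nthR (runR coreG [b, r]) i) : OkG r b := by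
  obtain ⟨ep, h_ep⟩ : ∃ x : ℝ, x = 1 + -r := ⟨_, rfl⟩
  obtain ⟨v, h_v⟩ : ∃ x : ℝ, x = r ^ 2 := ⟨_, rfl⟩
  obtain ⟨y, h_y⟩ : ∃ x : ℝ, x = (1 / 2) * serF 1 1 0 1 ((1 / 2) * ep) := ⟨_, rfl⟩
  obtain ⟨yb, h_yb⟩ : ∃ x : ℝ, x = 1 + y * b := ⟨_, rfl⟩
  obtain ⟨n, h_n⟩ : ∃ x : ℝ, x = 1 + v + -(r * b) := ⟨_, rfl⟩
  obtain ⟨s, h_s⟩ : ∃ x : ℝ, x = 1 + r := ⟨_, rfl⟩
  obtain ⟨el, h_el⟩ : ∃ x : ℝ, x = v * serF 2 1 2 2 (max r 0 ^ 2) := ⟨_, rfl⟩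
  obtain ⟨g, h_g⟩ : ∃ x : ℝ, x = s * (log 2 + -el + -(ep * y)) := ⟨_, rfl⟩
  obtain ⟨eb, h_eb⟩ : ∃ x : ℝ, x = 1 + ep * y * b := ⟨_, rfl⟩
  obtain ⟨n1, h_n1⟩ : ∃ x : ℝ, x = yb ^ 2 * n := ⟨_, rfl⟩
  obtain ⟨s2, h_s2⟩ : ∃ x : ℝ, x = s ^ 2 := ⟨_, rfl⟩
  obtain ⟨o1, h_o1⟩ : ∃ x : ℝ, x = (129 / 200) * s2 + -n1 := ⟨_, rfl⟩
  obtain ⟨o2, h_o2⟩ : ∃ x : ℝ, x = n1 + -((49 / 100) * s2) := ⟨_, rfl⟩
  obtain ⟨o3, h_o3⟩ : ∃ x : ℝ, x = (2 * (r * (1 + -v) + v * b) + (4 * r + -(3 * b)) * n) * yb + -(s * n) := ⟨_, rfl⟩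
  obtain ⟨o4, h_o4⟩ : ∃ x : ℝ, x = n * el + 2 * (g * (g + -r)) := ⟨_, rfl⟩
  obtain ⟨o5b, h_o5b⟩ : ∃ x : ℝ, x = r * yb + -((23 / 50) * (s * eb)) := ⟨_, rfl⟩
  obtain ⟨o5c, h_o5c⟩ : ∃ x : ℝ, x = (129 / 200) * (b * s * eb) + -(yb * (r * yb * b + ((49 / 100) * (log 2)⁻¹ + -1) * (s * eb))) := ⟨_, rfl⟩
  obtain ⟨o7, h_o7⟩ : ∃ x : ℝ, x = yb + -(b * s * (log 2 * (1 + v + -((1 / 5) * v ^ 2)) + -((1 / 2) * v))) := ⟨_, rfl⟩
  have ee : runR coreG [b, r] = [o7, o5c, o5b, o4, o3, o2, o1, s2, n1, eb, g, el, s, n, yb, y, v, ep, b, r] := by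
    unfold coreG
    refine (runR_cons ep (by simp only [Ex.R, Fn.R, nthR, Nat.cast_ofNat, Nat.cast_one, Nat.cast_zero, div_one]; exact h_ep)).trans ?_
    refine (runR_cons v (by simp only [Ex.R, Fn.R, nthR, Nat.cast_ofNat, Nat.cast_one, Nat.cast_zero, div_one]; exact h_v)).trans ?_
    refine (runR_cons y (by simp only [Ex.R, Fn.R, nthR, Nat.cast_ofNat, Nat.cast_one, Nat.cast_zero, div_one]; exact h_y)).trans ?_
    refine (runR_cons yb (by simp only [Ex.R, Fn.R, nthR, Nat.cast_ofNat, Nat.cast_one, Nat.cast_zero, div_one]; exact h_yb)).trans ?_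
    refine (runR_cons n (by simp only [Ex.R, Fn.R, nthR, Nat.cast_ofNat, Nat.cast_one, Nat.cast_zero, div_one]; exact h_n)).trans ?_
    refine (runR_cons s (by simp only [Ex.R, Fn.R, nthR, Nat.cast_ofNat, Nat.cast_one, Nat.cast_zero, div_one]; exact h_s)).trans ?_
    refine (runR_cons el (by simp only [Ex.R, Fn.R, nthR, Nat.cast_ofNat, Nat.cast_one, Nat.cast_zero, div_one]; exact h_el)).trans ?_
    refine (runR_cons g (by simp only [Ex.R, Fn.R, nthR, Nat.cast_ofNat, Nat.cast_one, Nat.cast_zero, div_one]; exact h_g)).trans ?_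
    refine (runR_cons eb (by simp only [Ex.R, Fn.R, nthR, Nat.cast_ofNat, Nat.cast_one, Nat.cast_zero, div_one]; exact h_eb)).trans ?_
    refine (runR_cons n1 (by simp only [Ex.R, Fn.R, nthR, Nat.cast_ofNat, Nat.cast_one, Nat.cast_zero, div_one]; exact h_n1)).trans ?_
    refine (runR_cons s2 (by simp only [Ex.R, Fn.R, nthR, Nat.cast_ofNat, Nat.cast_one, Nat.cast_zero, div_one]; exact h_s2)).trans ?_
    refine (runR_cons o1 (by simp only [Ex.R, Fn.R, nthR, Nat.cast_ofNat, Nat.cast_one, Nat.cast_zero, div_one]; exact h_o1)).trans ?_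
    refine (runR_cons o2 (by simp only [Ex.R, Fn.R, nthR, Nat.cast_ofNat, Nat.cast_one, Nat.cast_zero, div_one]; exact h_o2)).trans ?_
    refine (runR_cons o3 (by simp only [Ex.R, Fn.R, nthR, Nat.cast_ofNat, Nat.cast_one, Nat.cast_zero, div_one]; exact h_o3)).trans ?_
    refine (runR_cons o4 (by simp only [Ex.R, Fn.R, nthR, Nat.cast_ofNat, Nat.cast_one, Nat.cast_zero, div_one]; exact h_o4)).trans ?_
    refine (runR_cons o5b (by simp only [Ex.R, Fn.R, nthR, Nat.cast_ofNat, Nat.cast_one, Nat.cast_zero, div_one]; exact h_o5b)).trans ?_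
    refine (runR_cons o5c (by simp only [Ex.R, Fn.R, nthR, Nat.cast_ofNat, Nat.cast_one, Nat.cast_zero, div_one]; exact h_o5c)).trans ?_
    refine (runR_cons o7 (by simp only [Ex.R, Fn.R, nthR, Nat.cast_ofNat, Nat.cast_one, Nat.cast_zero, div_one]; exact h_o7)).trans ?_
    rfl
  rw [ee] at hh
  exact ⟨ep, v, y, yb, n, s, el, g, eb, n1, s2, h_ep, h_v, h_y, h_yb, h_n, h_s, h_el, h_g, h_eb, h_n1, h_s2,
    h_o1 ▸ (hh 6 (by norm_num) : 0 ≤ o1),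
    h_o2 ▸ (hh 5 (by norm_num) : 0 ≤ o2),
    h_o3 ▸ (hh 4 (by norm_num) : 0 ≤ o3),
    h_o4 ▸ (hh 3 (by norm_num) : 0 ≤ o4),
    h_o5b ▸ (hh 2 (by norm_num) : 0 ≤ o5b),
    h_o5c ▸ (hh 1 (by norm_num) : 0 ≤ o5c),
    h_o7 ▸ (hh 0 (by norm_num) : 0 ≤ o7)⟩

theorem chkG0 : Nat.ble 1 (chk coreG 7 30 1030792151040 403726925824 68719476736 403726925824 4234) = true := by decide +kernel

theorem okG0 {r b : ℝ} (h0 : 7 / 8 ≤ r) (h1 : r ≤ 1) (h2 : 0 ≤ b) (h3 : b ≤ 47 / 64) : OkG r b :=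
  okG_core r b fun i hi => chk_sound _ _ _ _ _ _ _ _ (Nat.one_le_iff_ne_zero.1 (Nat.le_of_ble_eq_true chkG0)) _ _
    (box_of h0 h1 (by norm_num) (by norm_num)) (box_of h2 h3 (by norm_num) (by norm_num)) i hi

def coreLa : List Ex :=
  [(.cvx .sq (.v 1)),
   (.add (.add (.mul .L (.add (.q 73 50) (.neg (.smul 23 50 (.v 0))))) (.neg (.cvx .ell (.v 2)))) (.neg (.smul 1 2 (.mul (.mul (.cvx (.ser 1 1 0 1) (.v 0)) (.add (.q 1 1) (.neg (.v 0)))) (.add (.q 1 1) (.neg (.smul 23 50 (.v 0))))))))]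

def OkLa (t : ℝ) : Prop :=
  ∃ v : ℝ,
    v = t ^ 2 ∧
    0 ≤ log 2 * ((73 / 50) + -((23 / 50) * v)) + -(serF 2 1 2 2 (max t 0 ^ 2)) + -((1 / 2) * (serF 1 1 0 1 v * (1 + -v) * (1 + -((23 / 50) * v))))

theorem okLa_core (t y0 : ℝ)
    (hh : ∀ i < 1, 0 ≤ nthR (runR coreLa [y0, t]) i) : OkLa t := by
  obtain ⟨v, h_v⟩ : ∃ x : ℝ, x = t ^ 2 := ⟨_, rfl⟩
  obtain ⟨o, h_o⟩ : ∃ x : ℝ, x = log 2 * ((73 / 50) + -((23 / 50) * v)) + -(serF 2 1 2 2 (max t 0 ^ 2)) + -((1 / 2) * (serF 1 1 0 1 v * (1 + -v) * (1 + -((23 / 50) * v)))) := ⟨_, rfl⟩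
  have ee : runR coreLa [y0, t] = [o, v, y0, t] := by
    unfold coreLa
    refine (runR_cons v (by simp only [Ex.R, Fn.R, nthR, Nat.cast_ofNat, Nat.cast_one, Nat.cast_zero, div_one]; exact h_v)).trans ?_
    refine (runR_cons o (by simp only [Ex.R, Fn.R, nthR, Nat.cast_ofNat, Nat.cast_one, Nat.cast_zero, div_one]; exact h_o)).trans ?_
    rfl
  rw [ee] at hh
  exact ⟨v, h_v,
    h_o ▸ (hh 0 (by norm_num) : 0 ≤ o)⟩

theorem chkLa0 : Nat.ble 1 (chk coreLa 1 30 292057776128 0 292057776128 0 261) = true := by decide +kernel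

theorem okLa0 {t : ℝ} (h0 : 0 ≤ t) (h1 : t ≤ 17 / 32) : OkLa t :=
  okLa_core t 0 fun i hi => chk_sound _ _ _ _ _ _ _ _ (Nat.one_le_iff_ne_zero.1 (Nat.le_of_ble_eq_true chkLa0)) _ _
    (box_of h0 h1 (by norm_num) (by norm_num)) (by norm_num) i hi

def coreLb : List Ex :=
  [(.cvx .sq (.v 1)),
   (.add (.q 1 1) (.neg (.v 0))),
   (.add (.mul (.v 3) (.add .L (.neg (.mul (.v 1) (.cvx .ell (.v 3)))))) (.neg (.smul 23 50 (.mul (.v 0) (.add .L (.smul 1 2 (.cvx .nlog (.v 0))))))))]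

def OkLb (t : ℝ) : Prop :=
  ∃ v o : ℝ,
    v = t ^ 2 ∧
    o = 1 + -v ∧
    0 ≤ t * (log 2 + -(v * serF 2 1 2 2 (max t 0 ^ 2))) + -((23 / 50) * (o * (log 2 + (1 / 2) * (-log o))))

theorem okLb_core (t y0 : ℝ)
    (hh : ∀ i < 1, 0 ≤ nthR (runR coreLb [y0, t]) i) : OkLb t := by
  obtain ⟨v, h_v⟩ : ∃ x : ℝ, x = t ^ 2 := ⟨_, rfl⟩
  obtain ⟨o, h_o⟩ : ∃ x : ℝ, x = 1 + -v := ⟨_, rfl⟩
  obtain ⟨o1, h_o1⟩ : ∃ x : ℝ, x = t * (log 2 + -(v * serF 2 1 2 2 (max t 0 ^ 2))) + -((23 / 50) * (o * (log 2 + (1 / 2) * (-log o)))) := ⟨_, rfl⟩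
  have ee : runR coreLb [y0, t] = [o1, o, v, y0, t] := by
    unfold coreLb
    refine (runR_cons v (by simp only [Ex.R, Fn.R, nthR, Nat.cast_ofNat, Nat.cast_one, Nat.cast_zero, div_one]; exact h_v)).trans ?_
    refine (runR_cons o (by simp only [Ex.R, Fn.R, nthR, Nat.cast_ofNat, Nat.cast_one, Nat.cast_zero, div_one]; exact h_o)).trans ?_
    refine (runR_cons o1 (by simp only [Ex.R, Fn.R, nthR, Nat.cast_ofNat, Nat.cast_one, Nat.cast_zero, div_one]; exact h_o1)).trans ?_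
    rfl
  rw [ee] at hh
  exact ⟨v, o, h_v, h_o,
    h_o1 ▸ (hh 0 (by norm_num) : 0 ≤ o1)⟩

theorem chkLb0 : Nat.ble 1 (chk coreLb 1 30 775241596928 0 204010946560 0 21) = true := by decide +kernel

theorem okLb0 {t : ℝ} (h0 : 133 / 256 ≤ t) (h1 : t ≤ 57 / 64) : OkLb t :=
  okLb_core t 0 fun i hi => chk_sound _ _ _ _ _ _ _ _ (Nat.one_le_iff_ne_zero.1 (Nat.le_of_ble_eq_true chkLb0)) _ _
    (box_of h0 h1 (by norm_num) (by norm_num)) (by norm_num) i hi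

def coreLc : List Ex :=
  [(.cvx .sq (.v 1)),
   (.add (.q 1 1) (.neg (.v 0))),
   (.add .L (.neg (.mul (.v 1) (.cvx .ell (.v 3))))),
   (.add (.smul 129 200 (.add (.q 1 1) (.neg (.v 4)))) (.neg (.mul (.v 0) (.add (.add (.mul (.v 0) (.cvx .inv (.mul (.mul (.v 1) (.add .L (.smul 1 2 (.cvx .nlog (.v 1))))) (.cvx (.ser2 2 1 0 1) (.v 4))))) (.smul 49 100 (.cvx .inv .L))) (.neg (.q 1 1))))))]

def OkLc (t : ℝ) : Prop :=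
  ∃ v o h : ℝ,
    v = t ^ 2 ∧
    o = 1 + -v ∧
    h = log 2 + -(v * serF 2 1 2 2 (max t 0 ^ 2)) ∧
    0 ≤ (129 / 200) * (1 + -t) + -(h * (h * (o * (log 2 + (1 / 2) * (-log o)) * serF 2 1 0 1 (max t 0 ^ 2))⁻¹ + (49 / 100) * (log 2)⁻¹ + -1))

theorem okLc_core (t y0 : ℝ)
    (hh : ∀ i < 1, 0 ≤ nthR (runR coreLc [y0, t]) i) : OkLc t := by
  obtain ⟨v, h_v⟩ : ∃ x : ℝ, x = t ^ 2 := ⟨_, rfl⟩
  obtain ⟨o, h_o⟩ : ∃ x : ℝ, x = 1 + -v := ⟨_, rfl⟩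
  obtain ⟨h, h_h⟩ : ∃ x : ℝ, x = log 2 + -(v * serF 2 1 2 2 (max t 0 ^ 2)) := ⟨_, rfl⟩
  obtain ⟨o1, h_o1⟩ : ∃ x : ℝ, x = (129 / 200) * (1 + -t) + -(h * (h * (o * (log 2 + (1 / 2) * (-log o)) * serF 2 1 0 1 (max t 0 ^ 2))⁻¹ + (49 / 100) * (log 2)⁻¹ + -1)) := ⟨_, rfl⟩
  have ee : runR coreLc [y0, t] = [o1, h, o, v, y0, t] := by
    unfold coreLc
    refine (runR_cons v (by simp only [Ex.R, Fn.R, nthR, Nat.cast_ofNat, Nat.cast_one, Nat.cast_zero, div_one]; exact h_v)).trans ?_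
    refine (runR_cons o (by simp only [Ex.R, Fn.R, nthR, Nat.cast_ofNat, Nat.cast_one, Nat.cast_zero, div_one]; exact h_o)).trans ?_
    refine (runR_cons h (by simp only [Ex.R, Fn.R, nthR, Nat.cast_ofNat, Nat.cast_one, Nat.cast_zero, div_one]; exact h_h)).trans ?_
    refine (runR_cons o1 (by simp only [Ex.R, Fn.R, nthR, Nat.cast_ofNat, Nat.cast_one, Nat.cast_zero, div_one]; exact h_o1)).trans ?_
    rfl
  rw [ee] at hh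
  exact ⟨v, o, h, h_v, h_o, h_h,
    h_o1 ▸ (hh 0 (by norm_num) : 0 ≤ o1)⟩

theorem chkLc0 : Nat.ble 1 (chk coreLc 1 30 850403524608 0 128849018880 0 17) = true := by decide +kernel

theorem okLc0 {t : ℝ} (h0 : 21 / 32 ≤ t) (h1 : t ≤ 57 / 64) : OkLc t :=
  okLc_core t 0 fun i hi => chk_sound _ _ _ _ _ _ _ _ (Nat.one_le_iff_ne_zero.1 (Nat.le_of_ble_eq_true chkLc0)) _ _
    (box_of h0 h1 (by norm_num) (by norm_num)) (by norm_num) i hi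

def coreLd : List Ex :=
  [(.cvx .sq (.v 1)),
   (.smul 1 2 (.cvx .inv .L)),
   (.add (.v 0) (.mul (.v 1) (.add (.add (.q 6 5) (.neg (.v 0))) (.neg (.smul 1 5 (.v 1)))))),
   (.add (.add (.add (.add (.smul 9 8 (.v 0)) (.neg (.smul 81 16 (.mul (.cvx (.ser2 2 3 2 4) (.smul 3 2 (.v 4))) (.add (.q 1 1) (.neg (.mul (.v 2) (.v 0)))))))) (.cvx (.ser2 2 3 2 4) (.v 4))) (.q 1 2)) (.neg (.mul .L (.add (.q 6 5) (.neg (.smul 1 5 (.v 2)))))))]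

def OkLd (a : ℝ) : Prop :=
  ∃ v iL W1 : ℝ,
    v = a ^ 2 ∧
    iL = (1 / 2) * (log 2)⁻¹ ∧
    W1 = iL + v * ((6 / 5) + -iL + -((1 / 5) * v)) ∧
    0 ≤ (9 / 8) * W1 + -((81 / 16) * (serF 2 3 2 4 (max ((3 / 2) * a) 0 ^ 2) * (1 + -(v * W1)))) + serF 2 3 2 4 (max a 0 ^ 2) + (1 / 2) + -(log 2 * ((6 / 5) + -((1 / 5) * v)))

theorem okLd_core (a y0 : ℝ)
    (hh : ∀ i < 1, 0 ≤ nthR (runR coreLd [y0, a]) i) : OkLd a := by
  obtain ⟨v, h_v⟩ : ∃ x : ℝ, x = a ^ 2 := ⟨_, rfl⟩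
  obtain ⟨iL, h_iL⟩ : ∃ x : ℝ, x = (1 / 2) * (log 2)⁻¹ := ⟨_, rfl⟩
  obtain ⟨W1, h_W1⟩ : ∃ x : ℝ, x = iL + v * ((6 / 5) + -iL + -((1 / 5) * v)) := ⟨_, rfl⟩
  obtain ⟨o1, h_o1⟩ : ∃ x : ℝ, x = (9 / 8) * W1 + -((81 / 16) * (serF 2 3 2 4 (max ((3 / 2) * a) 0 ^ 2) * (1 + -(v * W1)))) + serF 2 3 2 4 (max a 0 ^ 2) + (1 / 2) + -(log 2 * ((6 / 5) + -((1 / 5) * v))) := ⟨_, rfl⟩
  have ee : runR coreLd [y0, a] = [o1, W1, iL, v, y0, a] := by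
    unfold coreLd
    refine (runR_cons v (by simp only [Ex.R, Fn.R, nthR, Nat.cast_ofNat, Nat.cast_one, Nat.cast_zero, div_one]; exact h_v)).trans ?_
    refine (runR_cons iL (by simp only [Ex.R, Fn.R, nthR, Nat.cast_ofNat, Nat.cast_one, Nat.cast_zero, div_one]; exact h_iL)).trans ?_
    refine (runR_cons W1 (by simp only [Ex.R, Fn.R, nthR, Nat.cast_ofNat, Nat.cast_one, Nat.cast_zero, div_one]; exact h_W1)).trans ?_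
    refine (runR_cons o1 (by simp only [Ex.R, Fn.R, nthR, Nat.cast_ofNat, Nat.cast_one, Nat.cast_zero, div_one]; exact h_o1)).trans ?_
    rfl
  rw [ee] at hh
  exact ⟨v, iL, W1, h_v, h_iL, h_W1,
    h_o1 ▸ (hh 0 (by norm_num) : 0 ≤ o1)⟩

theorem chkLd0 : Nat.ble 1 (chk coreLd 1 30 337154932736 0 337154932736 0 1) = true := by decide +kernel

theorem okLd0 {a : ℝ} (h0 : 0 ≤ a) (h1 : a ≤ 157 / 256) : OkLd a :=
  okLd_core a 0 fun i hi => chk_sound _ _ _ _ _ _ _ _ (Nat.one_le_iff_ne_zero.1 (Nat.le_of_ble_eq_true chkLd0)) _ _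
    (box_of h0 h1 (by norm_num) (by norm_num)) (by norm_num) i hi

def coreLe : List Ex :=
  [(.smul 1 2 (.cvx .inv .L)),
   (.cvx .sq (.v 1)),
   (.cvx .sq (.v 3)),
   (.add (.add (.v 2) (.mul (.add (.q 6 5) (.neg (.v 2))) (.add (.smul 6 1 (.v 1)) (.v 0)))) (.neg (.smul 1 5 (.add (.smul 15 1 (.mul (.v 1) (.add (.v 1) (.v 0)))) (.cvx .sq (.v 0)))))),
   (.add (.add (.q 1 1) (.neg (.smul 23 50 (.v 1)))) (.neg (.smul 129 200 (.v 0))))]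

def OkLe (d z : ℝ) : Prop :=
  ∃ iL z2 d2 D : ℝ,
    iL = (1 / 2) * (log 2)⁻¹ ∧
    z2 = z ^ 2 ∧
    d2 = d ^ 2 ∧
    D = iL + ((6 / 5) + -iL) * (6 * z2 + d2) + -((1 / 5) * (15 * (z2 * (z2 + d2)) + d2 ^ 2)) ∧
    0 ≤ 1 + -((23 / 50) * d2) + -((129 / 200) * D)

theorem okLe_core (d z : ℝ)
    (hh : ∀ i < 1, 0 ≤ nthR (runR coreLe [z, d]) i) : OkLe d z := by
  obtain ⟨iL, h_iL⟩ : ∃ x : ℝ, x = (1 / 2) * (log 2)⁻¹ := ⟨_, rfl⟩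
  obtain ⟨z2, h_z2⟩ : ∃ x : ℝ, x = z ^ 2 := ⟨_, rfl⟩
  obtain ⟨d2, h_d2⟩ : ∃ x : ℝ, x = d ^ 2 := ⟨_, rfl⟩
  obtain ⟨D, h_D⟩ : ∃ x : ℝ, x = iL + ((6 / 5) + -iL) * (6 * z2 + d2) + -((1 / 5) * (15 * (z2 * (z2 + d2)) + d2 ^ 2)) := ⟨_, rfl⟩
  obtain ⟨o, h_o⟩ : ∃ x : ℝ, x = 1 + -((23 / 50) * d2) + -((129 / 200) * D) := ⟨_, rfl⟩
  have ee : runR coreLe [z, d] = [o, D, d2, z2, iL, z, d] := by
    unfold coreLe
    refine (runR_cons iL (by simp only [Ex.R, Fn.R, nthR, Nat.cast_ofNat, Nat.cast_one, Nat.cast_zero, div_one]; exact h_iL)).trans ?_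
    refine (runR_cons z2 (by simp only [Ex.R, Fn.R, nthR, Nat.cast_ofNat, Nat.cast_one, Nat.cast_zero, div_one]; exact h_z2)).trans ?_
    refine (runR_cons d2 (by simp only [Ex.R, Fn.R, nthR, Nat.cast_ofNat, Nat.cast_one, Nat.cast_zero, div_one]; exact h_d2)).trans ?_
    refine (runR_cons D (by simp only [Ex.R, Fn.R, nthR, Nat.cast_ofNat, Nat.cast_one, Nat.cast_zero, div_one]; exact h_D)).trans ?_
    refine (runR_cons o (by simp only [Ex.R, Fn.R, nthR, Nat.cast_ofNat, Nat.cast_one, Nat.cast_zero, div_one]; exact h_o)).trans ?_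
    rfl
  rw [ee] at hh
  exact ⟨iL, z2, d2, D, h_iL, h_z2, h_d2, h_D,
    h_o ▸ (hh 0 (by norm_num) : 0 ≤ o)⟩

theorem chkLe0 : Nat.ble 1 (chk coreLe 1 30 292057776128 549755813888 292057776128 549755813888 17892970464330) = true := by decide +kernel

theorem okLe0 {d z : ℝ} (h0 : 0 ≤ d) (h1 : d ≤ 17 / 32) (h2 : 0 ≤ z) (h3 : z ≤ 1) : OkLe d z :=
  okLe_core d z fun i hi => chk_sound _ _ _ _ _ _ _ _ (Nat.one_le_iff_ne_zero.1 (Nat.le_of_ble_eq_true chkLe0)) _ _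
    (box_of h0 h1 (by norm_num) (by norm_num)) (box_of h2 h3 (by norm_num) (by norm_num)) i hi

def coreLf : List Ex :=
  [(.smul 1 2 (.cvx .inv .L)),
   (.cvx .sq (.v 1)),
   (.cvx .sq (.v 3)),
   (.add (.add (.v 2) (.mul (.add (.q 6 5) (.neg (.v 2))) (.add (.smul 6 1 (.v 1)) (.v 0)))) (.neg (.smul 1 5 (.add (.smul 15 1 (.mul (.v 1) (.add (.v 1) (.v 0)))) (.cvx .sq (.v 0)))))),
   (.add (.q 23 50) (.neg (.smul 129 200 (.mul (.v 0) (.v 5)))))]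

def OkLf (d z : ℝ) : Prop :=
  ∃ iL z2 d2 D : ℝ,
    iL = (1 / 2) * (log 2)⁻¹ ∧
    z2 = z ^ 2 ∧
    d2 = d ^ 2 ∧
    D = iL + ((6 / 5) + -iL) * (6 * z2 + d2) + -((1 / 5) * (15 * (z2 * (z2 + d2)) + d2 ^ 2)) ∧
    0 ≤ (23 / 50) + -((129 / 200) * (D * d))

theorem okLf_core (d z : ℝ)
    (hh : ∀ i < 1, 0 ≤ nthR (runR coreLf [z, d]) i) : OkLf d z := by
  obtain ⟨iL, h_iL⟩ : ∃ x : ℝ, x = (1 / 2) * (log 2)⁻¹ := ⟨_, rfl⟩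
  obtain ⟨z2, h_z2⟩ : ∃ x : ℝ, x = z ^ 2 := ⟨_, rfl⟩
  obtain ⟨d2, h_d2⟩ : ∃ x : ℝ, x = d ^ 2 := ⟨_, rfl⟩
  obtain ⟨D, h_D⟩ : ∃ x : ℝ, x = iL + ((6 / 5) + -iL) * (6 * z2 + d2) + -((1 / 5) * (15 * (z2 * (z2 + d2)) + d2 ^ 2)) := ⟨_, rfl⟩
  obtain ⟨o, h_o⟩ : ∃ x : ℝ, x = (23 / 50) + -((129 / 200) * (D * d)) := ⟨_, rfl⟩
  have ee : runR coreLf [z, d] = [o, D, d2, z2, iL, z, d] := by
    unfold coreLf
    refine (runR_cons iL (by simp only [Ex.R, Fn.R, nthR, Nat.cast_ofNat, Nat.cast_one, Nat.cast_zero, div_one]; exact h_iL)).trans ?_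
    refine (runR_cons z2 (by simp only [Ex.R, Fn.R, nthR, Nat.cast_ofNat, Nat.cast_one, Nat.cast_zero, div_one]; exact h_z2)).trans ?_
    refine (runR_cons d2 (by simp only [Ex.R, Fn.R, nthR, Nat.cast_ofNat, Nat.cast_one, Nat.cast_zero, div_one]; exact h_d2)).trans ?_
    refine (runR_cons D (by simp only [Ex.R, Fn.R, nthR, Nat.cast_ofNat, Nat.cast_one, Nat.cast_zero, div_one]; exact h_D)).trans ?_
    refine (runR_cons o (by simp only [Ex.R, Fn.R, nthR, Nat.cast_ofNat, Nat.cast_one, Nat.cast_zero, div_one]; exact h_o)).trans ?_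
    rfl
  rw [ee] at hh
  exact ⟨iL, z2, d2, D, h_iL, h_z2, h_d2, h_D,
    h_o ▸ (hh 0 (by norm_num) : 0 ≤ o)⟩

theorem chkLf0 : Nat.ble 1 (chk coreLf 1 30 618475290624 266287972352 51539607552 266287972352 34) = true := by decide +kernel

theorem okLf0 {d z : ℝ} (h0 : 33 / 64 ≤ d) (h1 : d ≤ 39 / 64) (h2 : 0 ≤ z) (h3 : z ≤ 31 / 64) : OkLf d z :=
  okLf_core d z fun i hi => chk_sound _ _ _ _ _ _ _ _ (Nat.one_le_iff_ne_zero.1 (Nat.le_of_ble_eq_true chkLf0)) _ _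
    (box_of h0 h1 (by norm_num) (by norm_num)) (box_of h2 h3 (by norm_num) (by norm_num)) i hi

theorem chkLf1 : Nat.ble 1 (chk coreLf 1 30 691489734656 223338299392 38654705664 223338299392 8738) = true := by decide +kernel

theorem okLf1 {d z : ℝ} (h0 : 19 / 32 ≤ d) (h1 : d ≤ 85 / 128) (h2 : 0 ≤ z) (h3 : z ≤ 13 / 32) : OkLf d z :=
  okLf_core d z fun i hi => chk_sound _ _ _ _ _ _ _ _ (Nat.one_le_iff_ne_zero.1 (Nat.le_of_ble_eq_true chkLf1)) _ _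
    (box_of h0 h1 (by norm_num) (by norm_num)) (box_of h2 h3 (by norm_num) (by norm_num)) i hi

end Vale.Agent.P322.CK
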