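import Vale.Agent.P322.EngD

/-! Straight line programs for the two regions. -/

set_option linter.unusedSimpArgs false
set_option linter.unusedVariables false

namespace Vale.Agent.P322.CK

open Real Eng

def coreA : List Ex :=
  [(.smul 1 2 (.cvx .inv .L)),
   (.cvx .sq (.v 3)),
   (.mul (.v 4) (.v 5)),
   (.cvx .sq (.v 0)),
   (.mul (.v 4) (.v 2)),
   (.add (.q 1 1) (.neg (.v 0))),
   (.mul (.v 9) (.v 0)),
   (.cvx .inv (.add (.q 1 1) (.neg (.v 0)))),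
   (.cvx .inv (.add (.q 2 1) (.neg (.v 1)))),
   (.cvx .inv (.add (.q 2 1) (.neg (.v 12)))),
   (.smul 2 1 (.nlinv (.mul (.v 3) (.v 1)))),
   (.smul 1 2 (.cvx (.ser 1 1 0 1) (.smul 1 2 (.v 4)))),
   (.add (.cvx .inv (.add (.q 1 10) (.cvx .pos (.add (.v 1) (.neg (.q 1 10)))))) (.mul (.v 5) (.v 0))),
   (.add (.q 1 1) (.mul (.v 1) (.v 2))),
   (.mul (.add (.q 1 1) (.neg (.v 5))) (.v 0)),
   (.add (.v 14) (.mul (.v 11) (.add (.add (.q 6 5) (.neg (.v 14))) (.neg (.smul 1 5 (.v 11)))))),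
   (.mul (.v 19) (.v 6)),
   (.mul (.v 19) (.v 0)),
   (.add (.cvx .ell (.v 20)) (.mul (.v 1) (.cvx .ell (.v 0)))),
   (.cvx (.ser 1 2 0 1) (.v 14)),
   (.mul (.mul (.v 20) (.v 15)) (.add (.mul (.mul (.v 23) (.v 11)) (.add (.q 1 1) (.neg (.smul 1 2 (.mul (.add (.q 2 1) (.neg (.v 23))) (.v 11)))))) (.v 0))),
   (.mul (.v 21) (.v 13)),
   (.add (.q 1 1) (.neg (.mul (.mul (.v 25) (.v 20)) (.v 0)))),
   (.mul (.v 26) (.v 7)),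
   (.add (.q 1 1) (.neg (.mul (.v 20) (.v 8)))),
   (.add (.add (.q 1 1) (.neg (.v 28))) (.v 22)),
   (.add (.add (.q 1 1) (.neg (.v 29))) (.neg (.v 23))),
   (.cvx .sq (.v 1)),
   (.cvx .sq (.v 1)),
   (.smul 1 2 (.add (.mul (.mul (.add (.q 1 1) (.neg (.v 31))) (.add (.q 1 1) (.v 3))) (.add (.q 1 1) (.mul (.v 1) (.add (.add (.q 1 1) (.neg (.v 28))) (.neg (.smul 1 5 (.v 1))))))) (.mul (.mul (.add (.q 1 1) (.v 31)) (.add (.q 1 1) (.v 2))) (.add (.q 1 1) (.mul (.v 0) (.add (.add (.q 1 1) (.neg (.v 28))) (.neg (.smul 1 5 (.v 0))))))))),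
   (.cvx .pos (.add (.mul (.mul (.mul .L (.v 0)) (.v 19)) (.cvx .inv (.mul (.mul (.v 7) (.v 24)) (.v 16)))) (.neg (.q 1 1)))),
   (.mul (.cvx .sq (.mul (.add (.q 1 1) (.neg (.v 34))) (.cvx .inv (.add (.q 1 1) (.v 28))))) (.cvx .inv (.cvx .nlog (.smul 1 2 (.add (.q 1 1) (.v 28)))))),
   (.add (.add (.add (.add (.add (.add (.mul (.v 10) (.add (.v 19) (.neg (.v 17)))) (.mul (.v 8) (.add (.add (.v 19) (.v 17)) (.neg (.smul 2 1 .L))))) (.neg (.v 13))) (.mul (.v 35) (.add (.q 1 1) (.smul 1 6 (.v 28))))) (.neg (.v 11))) (.neg (.smul 129 400 (.mul (.mul (.mul (.v 35) (.v 30)) (.cvx .sq (.add (.v 10) (.neg (.v 8))))) (.cvx .inv (.add (.v 9) (.neg (.cvx .pos (.add (.v 9) (.neg (.v 7))))))))))) (.smul 49 100 (.mul (.mul (.v 2) (.cvx .sq (.v 1))) (.cvx .inv (.mul (.mul (.add (.q 1 1) (.v 1)) (.add (.q 2 1) (.v 1))) (.add (.q 1 4)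 (.cvx .pos (.add (.v 30) (.neg (.q 1 4)))))))))),
   (.add (.mul (.add (.q 1 1) (.neg (.v 36))) (.add (.add (.smul 1 4 (.v 34)) (.neg (.smul 1 4 (.mul (.cvx .sq (.v 16)) (.cvx .inv (.add (.q 1 1) (.neg (.cvx .sq (.v 15))))))))) (.neg (.smul 1 2 (.mul (.v 33) (.add (.add (.v 16) (.q 1 1)) (.mul (.v 28) (.v 13)))))))) (.mul (.v 36) (.add (.mul (.add (.q 2 1) (.neg (.smul 4 1 (.cvx .inv (.add (.q 2 1) (.v 1)))))) (.add (.mul (.v 11) (.v 20)) (.neg (.smul 1 2 (.add (.v 14) (.v 12)))))) (.v 0)))),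
   (.v 1),
   (.v 35),
   (.add (.q 15 16) (.neg (.v 36)))]

def OkA (e u la kp : ℝ) : Prop :=
  ∃ iL u2 z z2 x2 ox ep it i1t i1d b y La yb tq W1 dd up jj l2 DD ki lam dW wm xx yy xs ys wn m1 kt E3 : ℝ,
    iL = (1 / 2) * (log 2)⁻¹ ∧
    u2 = u ^ 2 ∧
    z = u * e ∧
    z2 = z ^ 2 ∧
    x2 = kp * u2 ∧
    ox = 1 + -x2 ∧
    ep = e * ox ∧
    it = (1 + -ep)⁻¹ ∧
    i1t = (2 + -ep)⁻¹ ∧
    i1d = (2 + -e)⁻¹ ∧
    b = 2 * (-log (ep * i1t))⁻¹ ∧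
    y = (1 / 2) * serF 1 1 0 1 ((1 / 2) * ep) ∧
    La = ((1 / 10) + max (b + -(1 / 10)) 0)⁻¹ + ep * y ∧
    yb = 1 + y * b ∧
    tq = (1 + -i1t) * yb ∧
    W1 = iL + z2 * ((6 / 5) + -iL + -((1 / 5) * z2)) ∧
    dd = e * i1d ∧
    up = u * dd ∧
    jj = serF 2 1 2 2 (max u 0 ^ 2) + dd * serF 2 1 2 2 (max up 0 ^ 2) ∧
    l2 = serF 1 2 0 1 x2 ∧
    DD = kp * x2 * (e * i1t * (1 + -((1 / 2) * ((2 + -e) * i1t))) + l2) ∧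
    ki = kp * it ∧
    lam = 1 + -(e * u2 * ki) ∧
    dW = e * W1 ∧
    wm = 1 + -(z2 * W1) ∧
    xx = 1 + -e + z ∧
    yy = 1 + -e + -z ∧
    xs = xx ^ 2 ∧
    ys = yy ^ 2 ∧
    wn = (1 / 2) * ((1 + -u) * (1 + xx) * (1 + xs * (1 + -iL + -((1 / 5) * xs))) + (1 + u) * (1 + yy) * (1 + ys * (1 + -iL + -((1 / 5) * ys)))) ∧
    m1 = max (log 2 * wn * b * (lam * ox * yb)⁻¹ + -1) 0 ∧
    kt = ((1 + -e) * (1 + z)⁻¹) ^ 2 * (-log ((1 / 2) * (1 + z)))⁻¹ ∧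
    E3 = ki * (La + -tq) + dW * (La + tq + -(2 * log 2)) + -jj + e * (1 + (1 / 6) * z2) + -DD + -((129 / 400) * (e * u2 * (ki + -dW) ^ 2 * (lam + -(max (lam + -wm) 0))⁻¹)) + (49 / 100) * (wn * m1 ^ 2 * ((1 + m1) * (2 + m1) * ((1 / 4) + max (u2 + -(1 / 4)) 0))⁻¹) ∧
    0 ≤ (1 + -e) * ((1 / 4) * la + -((1 / 4) * (dd ^ 2 * (1 + -(up ^ 2))⁻¹)) + -((1 / 2) * (kp * (dd + 1 + x2 * l2)))) + e * ((2 + -(4 * (2 + kt)⁻¹)) * (ki * La + -((1 / 2) * (jj + DD))) + E3) ∧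
    0 ≤ E3 ∧
    0 ≤ kp ∧
    0 ≤ (15 / 16) + -kp

theorem okA_core (e u la kp : ℝ)
    (hh : ∀ i < 4, 0 ≤ nthR (runR coreA [kp, la, u, e]) i) : OkA e u la kp := by
  obtain ⟨iL, h_iL⟩ : ∃ x : ℝ, x = (1 / 2) * (log 2)⁻¹ := ⟨_, rfl⟩
  obtain ⟨u2, h_u2⟩ : ∃ x : ℝ, x = u ^ 2 := ⟨_, rfl⟩
  obtain ⟨z, h_z⟩ : ∃ x : ℝ, x = u * e := ⟨_, rfl⟩
  obtain ⟨z2, h_z2⟩ : ∃ x : ℝ, x = z ^ 2 := ⟨_, rfl⟩
  obtain ⟨x2, h_x2⟩ : ∃ x : ℝ, x = kp * u2 := ⟨_, rfl⟩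
  obtain ⟨ox, h_ox⟩ : ∃ x : ℝ, x = 1 + -x2 := ⟨_, rfl⟩
  obtain ⟨ep, h_ep⟩ : ∃ x : ℝ, x = e * ox := ⟨_, rfl⟩
  obtain ⟨it, h_it⟩ : ∃ x : ℝ, x = (1 + -ep)⁻¹ := ⟨_, rfl⟩
  obtain ⟨i1t, h_i1t⟩ : ∃ x : ℝ, x = (2 + -ep)⁻¹ := ⟨_, rfl⟩
  obtain ⟨i1d, h_i1d⟩ : ∃ x : ℝ, x = (2 + -e)⁻¹ := ⟨_, rfl⟩
  obtain ⟨b, h_b⟩ : ∃ x : ℝ, x = 2 * (-log (ep * i1t))⁻¹ := ⟨_, rfl⟩
  obtain ⟨y, h_y⟩ : ∃ x : ℝ, x = (1 / 2) * serF 1 1 0 1 ((1 / 2) * ep) := ⟨_, rfl⟩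
  obtain ⟨La, h_La⟩ : ∃ x : ℝ, x = ((1 / 10) + max (b + -(1 / 10)) 0)⁻¹ + ep * y := ⟨_, rfl⟩
  obtain ⟨yb, h_yb⟩ : ∃ x : ℝ, x = 1 + y * b := ⟨_, rfl⟩
  obtain ⟨tq, h_tq⟩ : ∃ x : ℝ, x = (1 + -i1t) * yb := ⟨_, rfl⟩
  obtain ⟨W1, h_W1⟩ : ∃ x : ℝ, x = iL + z2 * ((6 / 5) + -iL + -((1 / 5) * z2)) := ⟨_, rfl⟩
  obtain ⟨dd, h_dd⟩ : ∃ x : ℝ, x = e * i1d := ⟨_, rfl⟩
  obtain ⟨up, h_up⟩ : ∃ x : ℝ, x = u * dd := ⟨_, rfl⟩
  obtain ⟨jj, h_jj⟩ : ∃ x : ℝ, x = serF 2 1 2 2 (max u 0 ^ 2) + dd * serF 2 1 2 2 (max up 0 ^ 2) := ⟨_, rfl⟩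
  obtain ⟨l2, h_l2⟩ : ∃ x : ℝ, x = serF 1 2 0 1 x2 := ⟨_, rfl⟩
  obtain ⟨DD, h_DD⟩ : ∃ x : ℝ, x = kp * x2 * (e * i1t * (1 + -((1 / 2) * ((2 + -e) * i1t))) + l2) := ⟨_, rfl⟩
  obtain ⟨ki, h_ki⟩ : ∃ x : ℝ, x = kp * it := ⟨_, rfl⟩
  obtain ⟨lam, h_lam⟩ : ∃ x : ℝ, x = 1 + -(e * u2 * ki) := ⟨_, rfl⟩
  obtain ⟨dW, h_dW⟩ : ∃ x : ℝ, x = e * W1 := ⟨_, rfl⟩
  obtain ⟨wm, h_wm⟩ : ∃ x : ℝ, x = 1 + -(z2 * W1) := ⟨_, rfl⟩
  obtain ⟨xx, h_xx⟩ : ∃ x : ℝ, x = 1 + -e + z := ⟨_, rfl⟩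
  obtain ⟨yy, h_yy⟩ : ∃ x : ℝ, x = 1 + -e + -z := ⟨_, rfl⟩
  obtain ⟨xs, h_xs⟩ : ∃ x : ℝ, x = xx ^ 2 := ⟨_, rfl⟩
  obtain ⟨ys, h_ys⟩ : ∃ x : ℝ, x = yy ^ 2 := ⟨_, rfl⟩
  obtain ⟨wn, h_wn⟩ : ∃ x : ℝ, x = (1 / 2) * ((1 + -u) * (1 + xx) * (1 + xs * (1 + -iL + -((1 / 5) * xs))) + (1 + u) * (1 + yy) * (1 + ys * (1 + -iL + -((1 / 5) * ys)))) := ⟨_, rfl⟩
  obtain ⟨m1, h_m1⟩ : ∃ x : ℝ, x = max (log 2 * wn * b * (lam * ox * yb)⁻¹ + -1) 0 := ⟨_, rfl⟩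
  obtain ⟨kt, h_kt⟩ : ∃ x : ℝ, x = ((1 + -e) * (1 + z)⁻¹) ^ 2 * (-log ((1 / 2) * (1 + z)))⁻¹ := ⟨_, rfl⟩
  obtain ⟨E3, h_E3⟩ : ∃ x : ℝ, x = ki * (La + -tq) + dW * (La + tq + -(2 * log 2)) + -jj + e * (1 + (1 / 6) * z2) + -DD + -((129 / 400) * (e * u2 * (ki + -dW) ^ 2 * (lam + -(max (lam + -wm) 0))⁻¹)) + (49 / 100) * (wn * m1 ^ 2 * ((1 + m1) * (2 + m1) * ((1 / 4) + max (u2 + -(1 / 4)) 0))⁻¹) := ⟨_, rfl⟩
  obtain ⟨E2, h_E2⟩ : ∃ x : ℝ, x = (1 + -e) * ((1 / 4) * la + -((1 / 4) * (dd ^ 2 * (1 + -(up ^ 2))⁻¹)) + -((1 / 2) * (kp * (dd + 1 + x2 * l2)))) + e * ((2 + -(4 * (2 + kt)⁻¹)) * (ki * La + -((1 / 2) * (jj + DD))) + E3) := ⟨_, rfl⟩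
  obtain ⟨E3b, h_E3b⟩ : ∃ x : ℝ, x = E3 := ⟨_, rfl⟩
  obtain ⟨E4, h_E4⟩ : ∃ x : ℝ, x = kp := ⟨_, rfl⟩
  obtain ⟨E5, h_E5⟩ : ∃ x : ℝ, x = (15 / 16) + -kp := ⟨_, rfl⟩
  have ee : runR coreA [kp, la, u, e] = [E5, E4, E3b, E2, E3, kt, m1, wn, ys, xs, yy, xx, wm, dW, lam, ki, DD, l2, jj, up, dd, W1, tq, yb, La, y, b, i1d, i1t, it, ep, ox, x2, z2, z, u2, iL, kp, la, u, e] := by
    unfold coreA
    refine (runR_cons iL (by simp only [Ex.R, Fn.R, nthR, Nat.cast_ofNat, Nat.cast_one, Nat.cast_zero, div_one]; exact h_iL)).trans ?_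
    refine (runR_cons u2 (by simp only [Ex.R, Fn.R, nthR, Nat.cast_ofNat, Nat.cast_one, Nat.cast_zero, div_one]; exact h_u2)).trans ?_
    refine (runR_cons z (by simp only [Ex.R, Fn.R, nthR, Nat.cast_ofNat, Nat.cast_one, Nat.cast_zero, div_one]; exact h_z)).trans ?_
    refine (runR_cons z2 (by simp only [Ex.R, Fn.R, nthR, Nat.cast_ofNat, Nat.cast_one, Nat.cast_zero, div_one]; exact h_z2)).trans ?_
    refine (runR_cons x2 (by simp only [Ex.R, Fn.R, nthR, Nat.cast_ofNat, Nat.cast_one, Nat.cast_zero, div_one]; exact h_x2)).trans ?_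
    refine (runR_cons ox (by simp only [Ex.R, Fn.R, nthR, Nat.cast_ofNat, Nat.cast_one, Nat.cast_zero, div_one]; exact h_ox)).trans ?_
    refine (runR_cons ep (by simp only [Ex.R, Fn.R, nthR, Nat.cast_ofNat, Nat.cast_one, Nat.cast_zero, div_one]; exact h_ep)).trans ?_
    refine (runR_cons it (by simp only [Ex.R, Fn.R, nthR, Nat.cast_ofNat, Nat.cast_one, Nat.cast_zero, div_one]; exact h_it)).trans ?_
    refine (runR_cons i1t (by simp only [Ex.R, Fn.R, nthR, Nat.cast_ofNat, Nat.cast_one, Nat.cast_zero, div_one]; exact h_i1t)).trans ?_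
    refine (runR_cons i1d (by simp only [Ex.R, Fn.R, nthR, Nat.cast_ofNat, Nat.cast_one, Nat.cast_zero, div_one]; exact h_i1d)).trans ?_
    refine (runR_cons b (by simp only [Ex.R, Fn.R, nthR, Nat.cast_ofNat, Nat.cast_one, Nat.cast_zero, div_one]; exact h_b)).trans ?_
    refine (runR_cons y (by simp only [Ex.R, Fn.R, nthR, Nat.cast_ofNat, Nat.cast_one, Nat.cast_zero, div_one]; exact h_y)).trans ?_
    refine (runR_cons La (by simp only [Ex.R, Fn.R, nthR, Nat.cast_ofNat, Nat.cast_one, Nat.cast_zero, div_one]; exact h_La)).trans ?_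
    refine (runR_cons yb (by simp only [Ex.R, Fn.R, nthR, Nat.cast_ofNat, Nat.cast_one, Nat.cast_zero, div_one]; exact h_yb)).trans ?_
    refine (runR_cons tq (by simp only [Ex.R, Fn.R, nthR, Nat.cast_ofNat, Nat.cast_one, Nat.cast_zero, div_one]; exact h_tq)).trans ?_
    refine (runR_cons W1 (by simp only [Ex.R, Fn.R, nthR, Nat.cast_ofNat, Nat.cast_one, Nat.cast_zero, div_one]; exact h_W1)).trans ?_
    refine (runR_cons dd (by simp only [Ex.R, Fn.R, nthR, Nat.cast_ofNat, Nat.cast_one, Nat.cast_zero, div_one]; exact h_dd)).trans ?_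
    refine (runR_cons up (by simp only [Ex.R, Fn.R, nthR, Nat.cast_ofNat, Nat.cast_one, Nat.cast_zero, div_one]; exact h_up)).trans ?_
    refine (runR_cons jj (by simp only [Ex.R, Fn.R, nthR, Nat.cast_ofNat, Nat.cast_one, Nat.cast_zero, div_one]; exact h_jj)).trans ?_
    refine (runR_cons l2 (by simp only [Ex.R, Fn.R, nthR, Nat.cast_ofNat, Nat.cast_one, Nat.cast_zero, div_one]; exact h_l2)).trans ?_
    refine (runR_cons DD (by simp only [Ex.R, Fn.R, nthR, Nat.cast_ofNat, Nat.cast_one, Nat.cast_zero, div_one]; exact h_DD)).trans ?_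
    refine (runR_cons ki (by simp only [Ex.R, Fn.R, nthR, Nat.cast_ofNat, Nat.cast_one, Nat.cast_zero, div_one]; exact h_ki)).trans ?_
    refine (runR_cons lam (by simp only [Ex.R, Fn.R, nthR, Nat.cast_ofNat, Nat.cast_one, Nat.cast_zero, div_one]; exact h_lam)).trans ?_
    refine (runR_cons dW (by simp only [Ex.R, Fn.R, nthR, Nat.cast_ofNat, Nat.cast_one, Nat.cast_zero, div_one]; exact h_dW)).trans ?_
    refine (runR_cons wm (by simp only [Ex.R, Fn.R, nthR, Nat.cast_ofNat, Nat.cast_one, Nat.cast_zero, div_one]; exact h_wm)).trans ?_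
    refine (runR_cons xx (by simp only [Ex.R, Fn.R, nthR, Nat.cast_ofNat, Nat.cast_one, Nat.cast_zero, div_one]; exact h_xx)).trans ?_
    refine (runR_cons yy (by simp only [Ex.R, Fn.R, nthR, Nat.cast_ofNat, Nat.cast_one, Nat.cast_zero, div_one]; exact h_yy)).trans ?_
    refine (runR_cons xs (by simp only [Ex.R, Fn.R, nthR, Nat.cast_ofNat, Nat.cast_one, Nat.cast_zero, div_one]; exact h_xs)).trans ?_
    refine (runR_cons ys (by simp only [Ex.R, Fn.R, nthR, Nat.cast_ofNat, Nat.cast_one, Nat.cast_zero, div_one]; exact h_ys)).trans ?_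
    refine (runR_cons wn (by simp only [Ex.R, Fn.R, nthR, Nat.cast_ofNat, Nat.cast_one, Nat.cast_zero, div_one]; exact h_wn)).trans ?_
    refine (runR_cons m1 (by simp only [Ex.R, Fn.R, nthR, Nat.cast_ofNat, Nat.cast_one, Nat.cast_zero, div_one]; exact h_m1)).trans ?_
    refine (runR_cons kt (by simp only [Ex.R, Fn.R, nthR, Nat.cast_ofNat, Nat.cast_one, Nat.cast_zero, div_one]; exact h_kt)).trans ?_
    refine (runR_cons E3 (by simp only [Ex.R, Fn.R, nthR, Nat.cast_ofNat, Nat.cast_one, Nat.cast_zero, div_one]; exact h_E3)).trans ?_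
    refine (runR_cons E2 (by simp only [Ex.R, Fn.R, nthR, Nat.cast_ofNat, Nat.cast_one, Nat.cast_zero, div_one]; exact h_E2)).trans ?_
    refine (runR_cons E3b (by simp only [Ex.R, Fn.R, nthR, Nat.cast_ofNat, Nat.cast_one, Nat.cast_zero, div_one]; exact h_E3b)).trans ?_
    refine (runR_cons E4 (by simp only [Ex.R, Fn.R, nthR, Nat.cast_ofNat, Nat.cast_one, Nat.cast_zero, div_one]; exact h_E4)).trans ?_
    refine (runR_cons E5 (by simp only [Ex.R, Fn.R, nthR, Nat.cast_ofNat, Nat.cast_one, Nat.cast_zero, div_one]; exact h_E5)).trans ?_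
    rfl
  rw [ee] at hh
  exact ⟨iL, u2, z, z2, x2, ox, ep, it, i1t, i1d, b, y, La, yb, tq, W1, dd, up, jj, l2, DD, ki, lam, dW, wm, xx, yy, xs, ys, wn, m1, kt, E3, h_iL, h_u2, h_z, h_z2, h_x2, h_ox, h_ep, h_it, h_i1t, h_i1d, h_b, h_y, h_La, h_yb, h_tq, h_W1, h_dd, h_up, h_jj, h_l2, h_DD, h_ki, h_lam, h_dW, h_wm, h_xx, h_yy, h_xs, h_ys, h_wn, h_m1, h_kt, h_E3,
    h_E2 ▸ (hh 3 (by norm_num) : 0 ≤ E2),
    h_E3b ▸ (hh 2 (by norm_num) : 0 ≤ E3b),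
    h_E4 ▸ (hh 1 (by norm_num) : 0 ≤ E4),
    h_E5 ▸ (hh 0 (by norm_num) : 0 ≤ E5)⟩

def mkA1 (a b c _a _b _c : ℕ) : List Ex :=
  (.cvx (.ser 1 1 0 1) (.cvx .sq (.v 0))) :: aff a b c 1 :: coreA

def mkA2 (a b c _a _b _c : ℕ) : List Ex :=
  (.mul (.cvx .nlog (.add (.q 1 64) (.cvx .pos (.add (.add (.q 1 1) (.neg (.cvx .sq (.v 0)))) (.neg (.q 1 64)))))) (.cvx .inv (.cvx .sq (.v 0)))) :: aff a b c 1 :: coreA

theorem okA1 {e u : ℝ} (h : ∃ a b c a' b' c', ∀ i < 4, 0 ≤ nthR (runR (mkA1 a b c a' b' c') [u, e]) i) :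
    ∃ kp, OkA e u (serF 1 1 0 1 (u ^ 2)) kp := by
  obtain ⟨a, b, c, a', b', c', h⟩ := h
  have h2 := okA_core e u _ _ h
  simp only [Ex.R, Fn.R, nthR, Nat.cast_ofNat, Nat.cast_one, Nat.cast_zero, div_one] at h2
  exact ⟨_, h2⟩

theorem okA2 {e u : ℝ} (h : ∃ a b c a' b' c', ∀ i < 4, 0 ≤ nthR (runR (mkA2 a b c a' b' c') [u, e]) i) :
    ∃ kp, OkA e u ((-log ((1 / 64) + max (1 + -(u ^ 2) + -(1 / 64)) 0)) * (u ^ 2)⁻¹) kp := by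
  obtain ⟨a, b, c, a', b', c', h⟩ := h
  have h2 := okA_core e u _ _ h
  simp only [Ex.R, Fn.R, nthR, Nat.cast_ofNat, Nat.cast_one, Nat.cast_zero, div_one] at h2
  exact ⟨_, h2⟩

end Vale.Agent.P322.CK
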