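import Vale.Agent.P322.EngD

/-! Straight line programs for the two regions. -/

set_option linter.unusedSimpArgs false
set_option linter.unusedVariables false

namespace Vale.Agent.P322.CK

open Real Eng

def coreB : List Ex :=
  [(.smul 1 2 (.cvx .inv .L)),
   (.add (.q 1 1) (.neg (.v 6))),
   (.cvx .sq (.v 6)),
   (.cvx .sq (.v 8)),
   (.mul (.v 8) (.v 2)),
   (.cvx .sq (.v 0)),
   (.cvx .inv (.add (.q 1 1) (.v 11))),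
   (.add (.add (.v 6) (.mul (.add (.q 6 5) (.neg (.v 6))) (.add (.smul 6 1 (.v 3)) (.v 1)))) (.neg (.smul 1 5 (.add (.smul 15 1 (.mul (.v 3) (.add (.v 3) (.v 1)))) (.cvx .sq (.v 1)))))),
   (.mul (.add (.q 1 1) (.v 13)) (.add (.q 1 1) (.mul (.v 4) (.add (.add (.q 1 1) (.neg (.v 7))) (.neg (.smul 1 5 (.v 4))))))),
   (.mul (.v 6) (.v 7)),
   (.mul (.v 2) (.v 0)),
   (.mul (.v 0) (.cvx .inv (.v 2))),
   (.smul 129 200 (.mul (.v 4) (.add (.cvx .nlog (.v 13)) (.mul (.v 0) (.cvx (.ser 1 2 0 1) (.v 0)))))),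
   (.cvx (.ser 1 1 0 1) (.smul 1 2 (.v 11))),
   (.smul 2 1 (.mul (.cvx .sq (.v 7)) (.cvx .inv (.v 0)))),
   (.mul (.v 10) (.v 8)),
   (.cvx .ell (.v 20)),
   (.cvx .ell (.v 1)),
   (.add (.v 1) (.mul (.mul (.v 16) (.v 11)) (.v 0))),
   (.add (.q 1 64) (.cvx .pos (.add (.v 17) (.neg (.q 1 64))))),
   (.mul (.mul .L (.v 21)) (.add (.v 11) (.neg (.v 9)))),
   (.mul (.v 21) (.v 25)),
   (.cvx .sq (.v 0)),
   (.add (.q 1 1) (.neg (.v 0))),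
   (.add (.add (.smul 1 2 (.add (.mul (.cvx .pos (.add (.v 26) (.neg (.smul 2 1 (.v 7))))) (.cvx .inv (.v 4))) (.mul (.add (.cvx (.ser2 2 1 0 1) (.v 8)) (.neg (.smul 2 1 (.v 6)))) (.v 17)))) (.mul (.mul (.v 9) (.cvx .inv (.add (.q 1 1) (.smul 1 2 (.mul (.v 9) (.v 14)))))) (.add (.smul 1 2 (.add (.add (.cvx .nlog (.mul (.v 4) (.v 17))) (.v 10)) (.neg (.mul (.v 21) (.v 5))))) (.neg (.v 3))))) (.neg (.v 11))),
   (.add (.add (.mul (.v 25) (.add (.cvx (.ser2 2 1 0 1) (.v 3)) (.mul (.add (.add .L (.neg (.mul (.v 2) (.cvx .ell (.v 3))))) (.neg (.mul (.v 25) (.v 4)))) (.cvx .inv (.mul (.v 1) (.add .L (.smul 1 2 (.cvx .nlog (.v 1))))))))) (.neg (.v 6))) (.neg (.mul (.v 23) (.v 12)))),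
   (.add (.v 27) (.neg (.q 1 64))),
   (.add (.q 1 1) (.neg (.v 28))),
   (.add (.q 63 64) (.neg (.v 6))),
   (.add (.v 29) (.neg (.q 1 64)))]

def OkB (z v al ph om : ℝ) : Prop :=
  ∃ iL m v2 z2 d d2 i1z D wh vm Dm X R lp k0 vp lv lw jj mc sm t ts t2 : ℝ,
    iL = (1 / 2) * (log 2)⁻¹ ∧
    m = 1 + -z ∧
    v2 = v ^ 2 ∧
    z2 = z ^ 2 ∧
    d = v * m ∧
    d2 = d ^ 2 ∧
    i1z = (1 + z)⁻¹ ∧
    D = iL + ((6 / 5) + -iL) * (6 * z2 + d2) + -((1 / 5) * (15 * (z2 * (z2 + d2)) + d2 ^ 2)) ∧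
    wh = (1 + z) * (1 + z2 * (1 + -iL + -((1 / 5) * z2))) ∧
    vm = v2 * m ∧
    Dm = D * vm ∧
    X = Dm * wh⁻¹ ∧
    R = (129 / 200) * (D * ((-log ph) + X * serF 1 2 0 1 X)) ∧
    lp = serF 1 1 0 1 ((1 / 2) * m) ∧
    k0 = 2 * (i1z ^ 2 * lp⁻¹) ∧
    vp = d * i1z ∧
    lv = serF 2 1 2 2 (max v 0 ^ 2) ∧
    lw = serF 2 1 2 2 (max vp 0 ^ 2) ∧
    jj = lv + m * i1z * lw ∧
    mc = (1 / 64) + max (m + -(1 / 64)) 0 ∧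
    sm = log 2 * ph * (wh + -Dm) ∧
    t = om * v ∧
    ts = t ^ 2 ∧
    t2 = 1 + -ts ∧
    0 ≤ (1 / 2) * (max (al + -(2 * lv)) 0 * mc⁻¹ + (serF 2 1 0 1 (max vp 0 ^ 2) + -(2 * lw)) * i1z) + k0 * (1 + (1 / 2) * (k0 * vm))⁻¹ * ((1 / 2) * ((-log (mc * i1z)) + lp + -(v2 * jj)) + -sm) + -R ∧
    0 ≤ om * (serF 2 1 0 1 (max t 0 ^ 2) + (log 2 + -(ts * serF 2 1 2 2 (max t 0 ^ 2)) + -(om * sm)) * (t2 * (log 2 + (1 / 2) * (-log t2)))⁻¹) + -jj + -(m * R) ∧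
    0 ≤ ph + -(1 / 64) ∧
    0 ≤ 1 + -ph ∧
    0 ≤ (63 / 64) + -t ∧
    0 ≤ om + -(1 / 64)

theorem okB_core (z v vc al ph om : ℝ)
    (hh : ∀ i < 6, 0 ≤ nthR (runR coreB [om, ph, al, vc, v, z]) i) : OkB z v al ph om := by
  obtain ⟨iL, h_iL⟩ : ∃ x : ℝ, x = (1 / 2) * (log 2)⁻¹ := ⟨_, rfl⟩
  obtain ⟨m, h_m⟩ : ∃ x : ℝ, x = 1 + -z := ⟨_, rfl⟩
  obtain ⟨v2, h_v2⟩ : ∃ x : ℝ, x = v ^ 2 := ⟨_, rfl⟩
  obtain ⟨z2, h_z2⟩ : ∃ x : ℝ, x = z ^ 2 := ⟨_, rfl⟩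
  obtain ⟨d, h_d⟩ : ∃ x : ℝ, x = v * m := ⟨_, rfl⟩
  obtain ⟨d2, h_d2⟩ : ∃ x : ℝ, x = d ^ 2 := ⟨_, rfl⟩
  obtain ⟨i1z, h_i1z⟩ : ∃ x : ℝ, x = (1 + z)⁻¹ := ⟨_, rfl⟩
  obtain ⟨D, h_D⟩ : ∃ x : ℝ, x = iL + ((6 / 5) + -iL) * (6 * z2 + d2) + -((1 / 5) * (15 * (z2 * (z2 + d2)) + d2 ^ 2)) := ⟨_, rfl⟩
  obtain ⟨wh, h_wh⟩ : ∃ x : ℝ, x = (1 + z) * (1 + z2 * (1 + -iL + -((1 / 5) * z2))) := ⟨_, rfl⟩
  obtain ⟨vm, h_vm⟩ : ∃ x : ℝ, x = v2 * m := ⟨_, rfl⟩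
  obtain ⟨Dm, h_Dm⟩ : ∃ x : ℝ, x = D * vm := ⟨_, rfl⟩
  obtain ⟨X, h_X⟩ : ∃ x : ℝ, x = Dm * wh⁻¹ := ⟨_, rfl⟩
  obtain ⟨R, h_R⟩ : ∃ x : ℝ, x = (129 / 200) * (D * ((-log ph) + X * serF 1 2 0 1 X)) := ⟨_, rfl⟩
  obtain ⟨lp, h_lp⟩ : ∃ x : ℝ, x = serF 1 1 0 1 ((1 / 2) * m) := ⟨_, rfl⟩
  obtain ⟨k0, h_k0⟩ : ∃ x : ℝ, x = 2 * (i1z ^ 2 * lp⁻¹) := ⟨_, rfl⟩
  obtain ⟨vp, h_vp⟩ : ∃ x : ℝ, x = d * i1z := ⟨_, rfl⟩
  obtain ⟨lv, h_lv⟩ : ∃ x : ℝ, x = serF 2 1 2 2 (max v 0 ^ 2) := ⟨_, rfl⟩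
  obtain ⟨lw, h_lw⟩ : ∃ x : ℝ, x = serF 2 1 2 2 (max vp 0 ^ 2) := ⟨_, rfl⟩
  obtain ⟨jj, h_jj⟩ : ∃ x : ℝ, x = lv + m * i1z * lw := ⟨_, rfl⟩
  obtain ⟨mc, h_mc⟩ : ∃ x : ℝ, x = (1 / 64) + max (m + -(1 / 64)) 0 := ⟨_, rfl⟩
  obtain ⟨sm, h_sm⟩ : ∃ x : ℝ, x = log 2 * ph * (wh + -Dm) := ⟨_, rfl⟩
  obtain ⟨t, h_t⟩ : ∃ x : ℝ, x = om * v := ⟨_, rfl⟩
  obtain ⟨ts, h_ts⟩ : ∃ x : ℝ, x = t ^ 2 := ⟨_, rfl⟩
  obtain ⟨t2, h_t2⟩ : ∃ x : ℝ, x = 1 + -ts := ⟨_, rfl⟩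
  obtain ⟨B2, h_B2⟩ : ∃ x : ℝ, x = (1 / 2) * (max (al + -(2 * lv)) 0 * mc⁻¹ + (serF 2 1 0 1 (max vp 0 ^ 2) + -(2 * lw)) * i1z) + k0 * (1 + (1 / 2) * (k0 * vm))⁻¹ * ((1 / 2) * ((-log (mc * i1z)) + lp + -(v2 * jj)) + -sm) + -R := ⟨_, rfl⟩
  obtain ⟨B3, h_B3⟩ : ∃ x : ℝ, x = om * (serF 2 1 0 1 (max t 0 ^ 2) + (log 2 + -(ts * serF 2 1 2 2 (max t 0 ^ 2)) + -(om * sm)) * (t2 * (log 2 + (1 / 2) * (-log t2)))⁻¹) + -jj + -(m * R) := ⟨_, rfl⟩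
  obtain ⟨B4, h_B4⟩ : ∃ x : ℝ, x = ph + -(1 / 64) := ⟨_, rfl⟩
  obtain ⟨B5, h_B5⟩ : ∃ x : ℝ, x = 1 + -ph := ⟨_, rfl⟩
  obtain ⟨B6, h_B6⟩ : ∃ x : ℝ, x = (63 / 64) + -t := ⟨_, rfl⟩
  obtain ⟨B7, h_B7⟩ : ∃ x : ℝ, x = om + -(1 / 64) := ⟨_, rfl⟩
  have ee : runR coreB [om, ph, al, vc, v, z] = [B7, B6, B5, B4, B3, B2, t2, ts, t, sm, mc, jj, lw, lv, vp, k0, lp, R, X, Dm, vm, wh, D, i1z, d2, d, z2, v2, m, iL, om, ph, al, vc, v, z] := by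
    unfold coreB
    refine (runR_cons iL (by simp only [Ex.R, Fn.R, nthR, Nat.cast_ofNat, Nat.cast_one, Nat.cast_zero, div_one]; exact h_iL)).trans ?_
    refine (runR_cons m (by simp only [Ex.R, Fn.R, nthR, Nat.cast_ofNat, Nat.cast_one, Nat.cast_zero, div_one]; exact h_m)).trans ?_
    refine (runR_cons v2 (by simp only [Ex.R, Fn.R, nthR, Nat.cast_ofNat, Nat.cast_one, Nat.cast_zero, div_one]; exact h_v2)).trans ?_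
    refine (runR_cons z2 (by simp only [Ex.R, Fn.R, nthR, Nat.cast_ofNat, Nat.cast_one, Nat.cast_zero, div_one]; exact h_z2)).trans ?_
    refine (runR_cons d (by simp only [Ex.R, Fn.R, nthR, Nat.cast_ofNat, Nat.cast_one, Nat.cast_zero, div_one]; exact h_d)).trans ?_
    refine (runR_cons d2 (by simp only [Ex.R, Fn.R, nthR, Nat.cast_ofNat, Nat.cast_one, Nat.cast_zero, div_one]; exact h_d2)).trans ?_
    refine (runR_cons i1z (by simp only [Ex.R, Fn.R, nthR, Nat.cast_ofNat, Nat.cast_one, Nat.cast_zero, div_one]; exact h_i1z)).trans ?_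
    refine (runR_cons D (by simp only [Ex.R, Fn.R, nthR, Nat.cast_ofNat, Nat.cast_one, Nat.cast_zero, div_one]; exact h_D)).trans ?_
    refine (runR_cons wh (by simp only [Ex.R, Fn.R, nthR, Nat.cast_ofNat, Nat.cast_one, Nat.cast_zero, div_one]; exact h_wh)).trans ?_
    refine (runR_cons vm (by simp only [Ex.R, Fn.R, nthR, Nat.cast_ofNat, Nat.cast_one, Nat.cast_zero, div_one]; exact h_vm)).trans ?_
    refine (runR_cons Dm (by simp only [Ex.R, Fn.R, nthR, Nat.cast_ofNat, Nat.cast_one, Nat.cast_zero, div_one]; exact h_Dm)).trans ?_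
    refine (runR_cons X (by simp only [Ex.R, Fn.R, nthR, Nat.cast_ofNat, Nat.cast_one, Nat.cast_zero, div_one]; exact h_X)).trans ?_
    refine (runR_cons R (by simp only [Ex.R, Fn.R, nthR, Nat.cast_ofNat, Nat.cast_one, Nat.cast_zero, div_one]; exact h_R)).trans ?_
    refine (runR_cons lp (by simp only [Ex.R, Fn.R, nthR, Nat.cast_ofNat, Nat.cast_one, Nat.cast_zero, div_one]; exact h_lp)).trans ?_
    refine (runR_cons k0 (by simp only [Ex.R, Fn.R, nthR, Nat.cast_ofNat, Nat.cast_one, Nat.cast_zero, div_one]; exact h_k0)).trans ?_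
    refine (runR_cons vp (by simp only [Ex.R, Fn.R, nthR, Nat.cast_ofNat, Nat.cast_one, Nat.cast_zero, div_one]; exact h_vp)).trans ?_
    refine (runR_cons lv (by simp only [Ex.R, Fn.R, nthR, Nat.cast_ofNat, Nat.cast_one, Nat.cast_zero, div_one]; exact h_lv)).trans ?_
    refine (runR_cons lw (by simp only [Ex.R, Fn.R, nthR, Nat.cast_ofNat, Nat.cast_one, Nat.cast_zero, div_one]; exact h_lw)).trans ?_
    refine (runR_cons jj (by simp only [Ex.R, Fn.R, nthR, Nat.cast_ofNat, Nat.cast_one, Nat.cast_zero, div_one]; exact h_jj)).trans ?_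
    refine (runR_cons mc (by simp only [Ex.R, Fn.R, nthR, Nat.cast_ofNat, Nat.cast_one, Nat.cast_zero, div_one]; exact h_mc)).trans ?_
    refine (runR_cons sm (by simp only [Ex.R, Fn.R, nthR, Nat.cast_ofNat, Nat.cast_one, Nat.cast_zero, div_one]; exact h_sm)).trans ?_
    refine (runR_cons t (by simp only [Ex.R, Fn.R, nthR, Nat.cast_ofNat, Nat.cast_one, Nat.cast_zero, div_one]; exact h_t)).trans ?_
    refine (runR_cons ts (by simp only [Ex.R, Fn.R, nthR, Nat.cast_ofNat, Nat.cast_one, Nat.cast_zero, div_one]; exact h_ts)).trans ?_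
    refine (runR_cons t2 (by simp only [Ex.R, Fn.R, nthR, Nat.cast_ofNat, Nat.cast_one, Nat.cast_zero, div_one]; exact h_t2)).trans ?_
    refine (runR_cons B2 (by simp only [Ex.R, Fn.R, nthR, Nat.cast_ofNat, Nat.cast_one, Nat.cast_zero, div_one]; exact h_B2)).trans ?_
    refine (runR_cons B3 (by simp only [Ex.R, Fn.R, nthR, Nat.cast_ofNat, Nat.cast_one, Nat.cast_zero, div_one]; exact h_B3)).trans ?_
    refine (runR_cons B4 (by simp only [Ex.R, Fn.R, nthR, Nat.cast_ofNat, Nat.cast_one, Nat.cast_zero, div_one]; exact h_B4)).trans ?_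
    refine (runR_cons B5 (by simp only [Ex.R, Fn.R, nthR, Nat.cast_ofNat, Nat.cast_one, Nat.cast_zero, div_one]; exact h_B5)).trans ?_
    refine (runR_cons B6 (by simp only [Ex.R, Fn.R, nthR, Nat.cast_ofNat, Nat.cast_one, Nat.cast_zero, div_one]; exact h_B6)).trans ?_
    refine (runR_cons B7 (by simp only [Ex.R, Fn.R, nthR, Nat.cast_ofNat, Nat.cast_one, Nat.cast_zero, div_one]; exact h_B7)).trans ?_
    rfl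
  rw [ee] at hh
  exact ⟨iL, m, v2, z2, d, d2, i1z, D, wh, vm, Dm, X, R, lp, k0, vp, lv, lw, jj, mc, sm, t, ts, t2, h_iL, h_m, h_v2, h_z2, h_d, h_d2, h_i1z, h_D, h_wh, h_vm, h_Dm, h_X, h_R, h_lp, h_k0, h_vp, h_lv, h_lw, h_jj, h_mc, h_sm, h_t, h_ts, h_t2,
    h_B2 ▸ (hh 5 (by norm_num) : 0 ≤ B2),
    h_B3 ▸ (hh 4 (by norm_num) : 0 ≤ B3),
    h_B4 ▸ (hh 3 (by norm_num) : 0 ≤ B4),
    h_B5 ▸ (hh 2 (by norm_num) : 0 ≤ B5),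
    h_B6 ▸ (hh 1 (by norm_num) : 0 ≤ B6),
    h_B7 ▸ (hh 0 (by norm_num) : 0 ≤ B7)⟩

def mkB1 (a b c a' b' c' : ℕ) : List Ex :=
  (.q 0 1) :: (.cvx (.ser2 2 1 0 1) (.v 1)) :: aff a b c 2 :: aff a' b' c' 3 :: coreB

def mkB2 (a b c a' b' c' : ℕ) : List Ex :=
  (.add (.q 63 64) (.neg (.cvx .pos (.add (.q 63 64) (.neg (.v 0)))))) :: (.smul 1 2 (.mul (.cvx .nlog (.mul (.add (.q 1 1) (.neg (.v 0))) (.cvx .inv (.add (.q 1 1) (.v 0))))) (.cvx .inv (.v 1)))) :: aff a b c 2 :: aff a' b' c' 3 :: coreB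

theorem okB1 {z v : ℝ} (h : ∃ a b c a' b' c', ∀ i < 6, 0 ≤ nthR (runR (mkB1 a b c a' b' c') [v, z]) i) :
    ∃ ph om, OkB z v (serF 2 1 0 1 (max v 0 ^ 2)) ph om := by
  obtain ⟨a, b, c, a', b', c', h⟩ := h
  exact ⟨_, _, okB_core z v _ _ _ _ h⟩

theorem okB2 {z v : ℝ} (h : ∃ a b c a' b' c', ∀ i < 6, 0 ≤ nthR (runR (mkB2 a b c a' b' c') [v, z]) i) :
    ∃ vc ph om, vc = (63 / 64) + -(max ((63 / 64) + -v) 0) ∧ OkB z v ((1 / 2) * ((-log ((1 + -vc) * (1 + vc)⁻¹)) * v⁻¹)) ph om := by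
  obtain ⟨a, b, c, a', b', c', h⟩ := h
  have h2 := okB_core z v _ _ _ _ h
  simp only [Ex.R, Fn.R, nthR, Nat.cast_ofNat, Nat.cast_one, Nat.cast_zero, div_one] at h2
  exact ⟨_, _, _, rfl, h2⟩

end Vale.Agent.P322.CK
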