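import Vale.Agent.P322.Block

namespace Vale.Agent.P322

open Finset Module

variable {n : ℕ}

/-- mass of the block points with value `b` given the output `y` -/
noncomputable def pb (ε : ℝ) (f : (Fin n → Bool) → Bool) (T : Finset (Fin n)) (z : Fin n → Bool)
    (b : Bool) (y : Fin n → Bool) : ℝ :=
  ∑ x, if (∀ i ∉ T, x i = z i) ∧ f x = b then chan ε x y else 0

theorem flip_mem {T : Finset (Fin n)} {z x : Fin n → Bool} :
    (∀ i ∉ T, flip T x i = z i) ↔ (∀ i ∉ T, x i = z i) := by
  refine forall_congr' fun i => forall_congr' fun hi => ?_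
  simp [flip, hi]

theorem sum_flip (T : Finset (Fin n)) (g : (Fin n → Bool) → ℝ) :
    ∑ x, g (flip T x) = ∑ x, g x :=
  Equiv.sum_comp (Function.Involutive.toPerm (flip T) (flip_flip T)) g

theorem bessel_step {ε : ℝ} (h0 : 0 ≤ ε) (h1 : ε ≤ 1) (f : (Fin n → Bool) → Bool)
    (T : Finset (Fin n)) (z : Fin n → Bool)
    (hodd : ∀ x, (∀ i ∉ T, x i = z i) → f (flip T x) = !f x) {J : Type} [Fintype J]
    (v : J → EuclideanSpace ℝ (Fin n → Bool)) (hv : Orthonormal ℝ v)
    (hev : ∀ j x, v j (flip T x) = v j x) (hsup : ∀ j x, ¬(∀ i ∉ T, x i = z i) → v j x = 0)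
    (k : J → ℕ) (y : Fin n → Bool) :
    ∑ j, (∑ x, sg (f x) ^ k j * v j x * VV ε y x) ^ 2 ≤
      (pb ε f T z true y + pb ε f T z false y) / 2 +
        √(pb ε f T z true y * pb ε f T z false y) := by
  classical
  set g : Bool → (Fin n → Bool) → ℝ := fun b x =>
    if (∀ i ∉ T, x i = z i) ∧ f x = b then VV ε y x else 0 with hg
  set a : Bool → EuclideanSpace ℝ (Fin n → Bool) := fun b =>
    WithLp.toLp 2 (fun x => g b x + g b (flip T x)) with ha
  have hgg : ∀ b x, g b x * g b (flip T x) = 0 := by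
    intro b x
    simp only [hg]
    split_ifs with c1 c2
    · have := hodd x c1.1
      rw [c2.2, c1.2] at this
      cases b <;> simp at this
    all_goals simp
  have hg2 : ∀ b, ∑ x, g b x ^ 2 = pb ε f T z b y := by
    intro b
    unfold pb
    refine sum_congr rfl fun x _ => ?_
    simp only [hg]
    split_ifs
    · exact VV_sq h0 h1 y x
    · simp
  have hna : ∀ b, ‖a b‖ ^ 2 = 2 * pb ε f T z b y := by
    intro b
    rw [EuclideanSpace.real_norm_sq_eq]
    have : ∀ x, (a b x) ^ 2 = g b x ^ 2 + g b (flip T x) ^ 2 := by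
      intro x
      have := hgg b x
      simp only [ha]
      nlinarith
    simp_rw [this]
    rw [sum_add_distrib, sum_flip T (fun x => g b x ^ 2), hg2]; ring
  have hin : ∀ b j, inner ℝ (v j) (a b) = 2 * ∑ x, v j x * g b x := by
    intro b j
    rw [PiLp.inner_apply]
    have : ∀ x, inner ℝ (v j x) (a b x) =
        v j x * g b x + v j (flip T x) * g b (flip T x) := by
      intro x
      rw [hev]
      simp only [ha, RCLike.inner_apply, conj_trivial]
      ring
    simp_rw [this]
    rw [sum_add_distrib, sum_flip T (fun x => v j x * g b x)]; ring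
  have hbes : ∀ b, ∑ j, (∑ x, v j x * g b x) ^ 2 ≤ pb ε f T z b y / 2 := by
    intro b
    have := hv.sum_inner_products_le (s := univ) (a b)
    simp_rw [hin, hna, Real.norm_eq_abs, sq_abs, mul_pow] at this
    rw [← mul_sum] at this
    linarith
  have hsplit : ∀ j, ∑ x, sg (f x) ^ k j * v j x * VV ε y x =
      ∑ x, v j x * g true x + (-1) ^ k j * ∑ x, v j x * g false x := by
    intro j
    rw [mul_sum, ← sum_add_distrib]
    refine sum_congr rfl fun x _ => ?_
    by_cases hx : ∀ i ∉ T, x i = z i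
    · simp only [hg]
      cases hf : f x
      · rw [if_neg (by simp), if_pos ⟨hx, rfl⟩]; simp; ring
      · rw [if_pos ⟨hx, rfl⟩, if_neg (by simp)]; simp
    · simp [hsup j x hx]
  simp_rw [hsplit]
  set α : J → ℝ := fun j => ∑ x, v j x * g true x
  set β : J → ℝ := fun j => ∑ x, v j x * g false x
  have hs : ∀ j, ((-1 : ℝ) ^ k j) ^ 2 = 1 := by
    intro j; rw [← pow_mul, mul_comm, pow_mul]; simp
  have e1 : ∑ j, (α j + (-1) ^ k j * β j) ^ 2 =
      ∑ j, α j ^ 2 + ∑ j, β j ^ 2 + 2 * ∑ j, α j * ((-1) ^ k j * β j) := by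
    rw [mul_sum, ← sum_add_distrib, ← sum_add_distrib]
    refine sum_congr rfl fun j _ => ?_
    have := hs j
    nlinarith
  have e2 : (∑ j, α j * ((-1) ^ k j * β j)) ^ 2 ≤
      pb ε f T z true y / 2 * (pb ε f T z false y / 2) := by
    refine (sum_mul_sq_le_sq_mul_sq _ _ _).trans ?_
    simp_rw [mul_pow, hs, one_mul]
    exact mul_le_mul (hbes true) (hbes false) (sum_nonneg fun _ _ => sq_nonneg _)
      (le_trans (sum_nonneg fun _ _ => sq_nonneg _) (hbes true))
  have e3 : 2 * ∑ j, α j * ((-1) ^ k j * β j) ≤ √(pb ε f T z true y * pb ε f T z false y) := by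
    refine Real.le_sqrt_of_sq_le ?_
    nlinarith
  have b1 := hbes true
  have b2 := hbes false
  show ∑ j, (α j + (-1) ^ k j * β j) ^ 2 ≤ _
  rw [e1]
  change ∑ j, α j ^ 2 ≤ _ at b1
  change ∑ j, β j ^ 2 ≤ _ at b2
  linarith

/-- the set attached to level `k` and index `B` -/
def AA (i0 : Fin n) (k : ℕ) (B : Finset (Fin n)) : Finset (Fin n) :=
  if B.card % 2 = k % 2 then B else insert i0 B

theorem block_bound {ε : ℝ} (h0 : 0 ≤ ε) (h1 : ε ≤ 1) (f : (Fin n → Bool) → Bool)
    (T : Finset (Fin n)) (hT : T.Nonempty) (z : Fin n → Bool)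
    (hodd : ∀ x, (∀ i ∉ T, x i = z i) → f (flip T x) = !f x) :
    2 ^ T.card * (√(1 - ε) * √ε) ≤ ∑ y, √(pb ε f T z true y * pb ε f T z false y) := by
  classical
  obtain ⟨i0, hi0⟩ := hT
  set c : ℝ := 2 * (√(1 - ε) * √ε) with hc
  have hc0 : 0 ≤ c := by positivity
  have hc1 : c ≤ 1 := by
    have ha : √(1 - ε) * √(1 - ε) = 1 - ε := Real.mul_self_sqrt (by linarith)
    have hb : √ε * √ε = ε := Real.mul_self_sqrt h0
    nlinarith [sq_nonneg (√(1 - ε) - √ε)]
  set q : ℝ := (1 - c) / (1 + c) with hq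
  have hq0 : 0 ≤ q := div_nonneg (by linarith) (by linarith)
  have hq1 : q ≤ 1 := (div_le_one (by linarith)).2 (by linarith)
  let J := {B // B ∈ (T.erase i0).powerset}
  have hJ0 : ∀ B : J, i0 ∉ B.1 := fun B h => by
    have := mem_powerset.1 B.2 h; simp at this
  have hJT : ∀ B : J, B.1 ⊆ T := fun B => (mem_powerset.1 B.2).trans (erase_subset _ _)
  have hAT : ∀ k (B : J), AA i0 k B.1 ⊆ T := by
    intro k B; unfold AA; split_ifs
    · exact hJT B
    · exact insert_subset hi0 (hJT B)
  have hAinj : ∀ k (B B' : J), AA i0 k B.1 = AA i0 k B'.1 → B = B' := by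
    intro k B B' h
    have e : ∀ B : J, (AA i0 k B.1).erase i0 = B.1 := by
      intro B; unfold AA; split_ifs
      · exact erase_eq_of_notMem (hJ0 B)
      · exact erase_insert (hJ0 B)
    apply Subtype.ext
    rw [← e B, ← e B', h]
  have hApar : ∀ k (B : J), (AA i0 k B.1).card % 2 = k % 2 := by
    intro k B; unfold AA; split_ifs with h
    · exact h
    · rw [card_insert_of_notMem (hJ0 B)]; omega
  have hAle : ∀ k (B : J), B.1.card ≤ k → (AA i0 k B.1).card ≤ k := by
    intro k B hB; unfold AA; split_ifs with h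
    · exact hB
    · rw [card_insert_of_notMem (hJ0 B)]; omega
  let e : (k : ℕ) → {B : J // B.1.card ≤ k} → EuclideanSpace ℝ (Fin n → Bool) := fun k B =>
    WithLp.toLp 2 (fun x => sg (f x) ^ k * uu T z (AA i0 k B.1.1) x)
  have hsg : ∀ k x, sg (f x) ^ k * sg (f x) ^ k = 1 := by
    intro k x; rw [← mul_pow, sg_sq, one_pow]
  have hein : ∀ k B B', inner ℝ (e k B) (e k B') = if B = B' then 2 ^ T.card else 0 := by
    intro k B B'
    rw [PiLp.inner_apply]
    have : ∀ x, inner ℝ (e k B x) (e k B' x) =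
        uu T z (AA i0 k B.1.1) x * uu T z (AA i0 k B'.1.1) x := by
      intro x
      simp only [e, RCLike.inner_apply, conj_trivial]
      have := hsg k x
      linear_combination (uu T z (AA i0 k B.1.1) x * uu T z (AA i0 k B'.1.1) x) * this
    simp_rw [this]
    rw [uu_inner T z (hAT k _) (hAT k _)]
    by_cases h : B = B'
    · simp [h]
    · rw [if_neg h, if_neg]
      intro h'
      exact h (Subtype.ext (hAinj k _ _ h'))
  have hli : ∀ k, LinearIndependent ℝ (e k) := by
    intro k
    refine linearIndependent_of_ne_zero_of_inner_eq_zero ?_ ?_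
    · intro B h
      have := hein k B B
      rw [h] at this
      simp at this
      exact absurd this.symm (by positivity)
    · intro B B' h
      rw [hein, if_neg h]
  let W : ℕ → Submodule ℝ (EuclideanSpace ℝ (Fin n → Bool)) := fun k =>
    Submodule.span ℝ (Set.range (e k))
  obtain ⟨v, hv, hvW⟩ := exists_flag (fun B : J => B.1.card) W (by
    intro j
    simp only [W]
    rw [finrank_span_eq_card (hli _), Fintype.card_subtype])
  have hrep : ∀ j : J, ∃ cf : {B : J // B.1.card ≤ j.1.card} → ℝ,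
      ∀ x, v j x = ∑ B, cf B * (sg (f x) ^ j.1.card * uu T z (AA i0 j.1.card B.1.1) x) := by
    intro j
    obtain ⟨cf, hcf⟩ := (Submodule.mem_span_range_iff_exists_fun ℝ).1 (hvW j)
    refine ⟨cf, fun x => ?_⟩
    rw [← hcf]
    simp [e]
  choose cf hcf using hrep
  have hsup : ∀ j x, ¬(∀ i ∉ T, x i = z i) → v j x = 0 := by
    intro j x hx
    rw [hcf]
    simp [uu_out T z _ x hx]
  have hev : ∀ j x, v j (flip T x) = v j x := by
    intro j x
    by_cases hx : ∀ i ∉ T, x i = z i
    · rw [hcf, hcf]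
      refine sum_congr rfl fun B _ => ?_
      rw [hodd x hx, sg_not, uu_flip T z (hAT _ _), neg_pow, neg_one_pow_eq_pow_mod_two,
        neg_one_pow_eq_pow_mod_two (n := (AA i0 j.1.card B.1.1).card), hApar]
      have : ((-1 : ℝ) ^ (j.1.card % 2)) * (-1) ^ (j.1.card % 2) = 1 := by
        rw [← mul_pow]; simp
      linear_combination (cf j B * (sg (f x) ^ j.1.card * uu T z (AA i0 j.1.card B.1.1) x)) * this
    · rw [hsup j x hx, hsup j _ (fun h => hx (flip_mem.1 h))]
  have hnorm : ∀ j, 2 ^ T.card * ∑ B, cf j B ^ 2 = 1 := by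
    intro j
    have e1 : v j = ∑ B, cf j B • e _ B := by
      ext x; rw [hcf]; simp [e]
    have e2 : inner ℝ (v j) (v j) = 1 := by
      rw [real_inner_self_eq_norm_sq, hv.1 j]; simp
    rw [e1, sum_inner] at e2
    simp_rw [inner_sum, inner_smul_left, inner_smul_right, hein] at e2
    rw [← e2, mul_sum]
    refine sum_congr rfl fun B _ => ?_
    rw [sum_eq_single B (fun B' _ h => by rw [if_neg (Ne.symm h)]; simp) (by simp), if_pos rfl]
    simp; ring
  have hQ : ∀ j : J, (1 + c) ^ T.card * q ^ j.1.card ≤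
      ∑ y, (∑ x, sg (f x) ^ j.1.card * v j x * VV ε y x) ^ 2 := by
    intro j
    have e1 : ∀ y, ∑ x, sg (f x) ^ j.1.card * v j x * VV ε y x =
        ∑ B, cf j B * ∑ x, uu T z (AA i0 j.1.card B.1.1) x * VV ε y x := by
      intro y
      simp_rw [hcf, mul_sum, sum_mul]
      rw [sum_comm]
      refine sum_congr rfl fun B _ => sum_congr rfl fun x _ => ?_
      have := hsg j.1.card x
      linear_combination (cf j B * (uu T z (AA i0 j.1.card B.1.1) x * VV ε y x)) * this
    simp_rw [e1, sq, sum_mul_sum]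
    rw [sum_comm]
    have e2 : ∀ B, ∑ y, ∑ B', (cf j B * ∑ x, uu T z (AA i0 j.1.card B.1.1) x * VV ε y x) *
        (cf j B' * ∑ x, uu T z (AA i0 j.1.card B'.1.1) x * VV ε y x) =
        cf j B ^ 2 * (2 ^ T.card * ((1 + c) ^ T.card * q ^ (AA i0 j.1.card B.1.1).card)) := by
      intro B
      rw [sum_comm]
      have : ∀ B', ∑ y, (cf j B * ∑ x, uu T z (AA i0 j.1.card B.1.1) x * VV ε y x) *
          (cf j B' * ∑ x, uu T z (AA i0 j.1.card B'.1.1) x * VV ε y x) =
          if B = B' then cf j B ^ 2 *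
            (2 ^ T.card * ((1 + c) ^ T.card * q ^ (AA i0 j.1.card B.1.1).card)) else 0 := by
        intro B'
        have := V_inner h0 h1 T z (hAT j.1.card B.1) (hAT j.1.card B'.1)
        simp_rw [mul_mul_mul_comm (cf j B), ← mul_sum]
        rw [this]
        by_cases h : B = B'
        · subst h; simp [sq, hq, hc]
        · rw [if_neg h, if_neg, mul_zero]
          intro h'
          exact h (Subtype.ext (hAinj _ _ _ h'))
      rw [sum_congr rfl fun B' _ => this B',
        sum_eq_single B (fun B' _ h => by rw [if_neg (Ne.symm h)]) (by simp), if_pos rfl]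
    simp_rw [e2]
    calc (1 + c) ^ T.card * q ^ j.1.card
        = ∑ B, cf j B ^ 2 * (2 ^ T.card * ((1 + c) ^ T.card * q ^ j.1.card)) := by
          rw [← sum_mul]
          linear_combination (-((1 + c) ^ T.card * q ^ j.1.card)) * hnorm j
      _ ≤ _ := by
          refine sum_le_sum fun B _ => ?_
          have := pow_le_pow_of_le_one hq0 hq1 (hAle _ B.1 B.2)
          gcongr
  have hsum : ∑ j : J, (1 + c) ^ T.card * q ^ j.1.card = 2 ^ T.card * (1 + c) / 2 := by
    rw [← mul_sum, sum_coe_sort (T.erase i0).powerset (fun B => q ^ B.card)]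
    have := prod_one_add (f := fun _ => q) (T.erase i0)
    simp only [prod_const] at this
    rw [← this]
    obtain ⟨m, hm⟩ : ∃ m, T.card = m + 1 := ⟨T.card - 1, by
      have := card_pos.2 ⟨i0, hi0⟩; omega⟩
    rw [card_erase_of_mem hi0, hm, Nat.add_sub_cancel]
    have : (1 + c) * (1 + q) = 2 := by rw [hq]; field_simp; ring
    rw [pow_succ, pow_succ, mul_right_comm, ← mul_pow, this]; ring
  have hmass : ∑ y, (pb ε f T z true y + pb ε f T z false y) = 2 ^ T.card := by
    rw [← card_block T z]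
    unfold pb
    simp_rw [← sum_add_distrib]
    rw [sum_comm]
    refine sum_congr rfl fun x _ => ?_
    by_cases hx : ∀ i ∉ T, x i = z i
    · rw [if_pos hx, ← sum_chan ε x]
      refine sum_congr rfl fun y _ => ?_
      cases hf : f x
      · rw [if_neg (by simp), if_pos ⟨hx, rfl⟩]; simp
      · rw [if_pos ⟨hx, rfl⟩, if_neg (by simp)]; simp
    · rw [if_neg hx]
      refine sum_eq_zero fun y _ => ?_
      rw [if_neg (fun h => hx h.1), if_neg (fun h => hx h.1)]; simp
  have t1 := sum_le_sum (s := univ) fun j _ => hQ j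
  rw [hsum, sum_comm] at t1
  have t2 := sum_le_sum (s := univ) fun y _ =>
    bessel_step h0 h1 f T z hodd v hv hev hsup (fun j => j.1.card) y
  rw [sum_add_distrib, ← sum_div, hmass] at t2
  have : (2 : ℝ) ^ T.card * (√(1 - ε) * √ε) = 2 ^ T.card * (1 + c) / 2 - 2 ^ T.card / 2 := by
    rw [hc]; ring
  linarith

end Vale.Agent.P322
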