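import Vale.Agent.P322.Cube
import Vale.Agent.P322.Block

/-! The noise semigroup on the cube. -/

namespace Vale.Agent.P322.CK

open Real Set

/-- the conditional expectation of the sign of `f` given the output `y`, correlation `p` -/
noncomputable def uu {n : ℕ} (f : (Fin n → Bool) → Bool) (p : ℝ) (y : Fin n → Bool) : ℝ :=
  ∑ x, chan ((1 - p) / 2) x y * sg (f x)

namespace OA

theorem chan_eq {n : ℕ} (p : ℝ) (x y : Fin n → Bool) :
    chan ((1 - p) / 2) x y = ∏ i, (1 + p * (sg (x i) * sg (y i))) / 2 := by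
  unfold chan
  refine Finset.prod_congr rfl fun i _ => ?_
  cases x i <;> cases y i <;> simp <;> ring

theorem chan_pos {n : ℕ} {p : ℝ} (h0 : 0 ≤ p) (h1 : p < 1) (x y : Fin n → Bool) :
    0 < chan ((1 - p) / 2) x y := by
  unfold chan
  refine Finset.prod_pos fun i _ => ?_
  split_ifs <;> linarith

theorem sg_le (b : Bool) : sg b ≤ 1 := by cases b <;> simp
theorem le_sg (b : Bool) : -1 ≤ sg b := by cases b <;> simp

theorem fl_fl {n : ℕ} (i : Fin n) (x : Fin n → Bool) : fl i (fl i x) = x := by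
  simp [fl]

theorem hasDerivAt_chan {n : ℕ} (x y : Fin n → Bool) {p : ℝ} (h0 : 0 < p) :
    HasDerivAt (fun p => chan ((1 - p) / 2) x y)
      ((∑ i, (chan ((1 - p) / 2) x y - chan ((1 - p) / 2) x (fl i y)) / 2) / p) p := by
  simp only [chan_eq]
  have h := HasDerivAt.fun_finsetProd (u := (Finset.univ : Finset (Fin n)))
    (f := fun i p => (1 + p * (sg (x i) * sg (y i))) / 2)
    (f' := fun i => sg (x i) * sg (y i) / 2) (x := p) fun i _ => by
      simpa using (((hasDerivAt_id p).mul_const (sg (x i) * sg (y i))).const_add 1).div_const 2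
  refine h.congr_deriv ?_
  rw [Finset.sum_div]
  refine Finset.sum_congr rfl fun i _ => ?_
  rw [← Finset.mul_prod_erase _ _ (Finset.mem_univ i),
    ← Finset.mul_prod_erase _ (fun j => (1 + p * (sg (x j) * sg (fl i y j))) / 2)
      (Finset.mem_univ i)]
  have e : ∏ j ∈ Finset.univ.erase i, (1 + p * (sg (x j) * sg (fl i y j))) / 2 =
      ∏ j ∈ Finset.univ.erase i, (1 + p * (sg (x j) * sg (y j))) / 2 :=
    Finset.prod_congr rfl fun j hj => by
      rw [fl, Function.update_of_ne (Finset.ne_of_mem_erase hj)]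
  rw [e, fl, Function.update_self, sg_not, smul_eq_mul]
  field_simp
  ring

theorem hasDerivAt_uu {n : ℕ} (f : (Fin n → Bool) → Bool) (y : Fin n → Bool) {p : ℝ}
    (h0 : 0 < p) :
    HasDerivAt (fun p => uu f p y) ((∑ i, (uu f p y - uu f p (fl i y)) / 2) / p) p := by
  unfold uu
  refine (HasDerivAt.fun_sum fun x _ => (hasDerivAt_chan x y h0).mul_const _).congr_deriv ?_
  simp only [← Finset.sum_sub_distrib, Finset.sum_div, Finset.sum_mul]
  rw [Finset.sum_comm]
  refine Finset.sum_congr rfl fun i _ => Finset.sum_congr rfl fun x _ => ?_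
  ring

theorem sum_J {n : ℕ} (u : (Fin n → Bool) → ℝ) (i : Fin n) :
    ∑ y, J (u y) (u (fl i y)) = ∑ y, A (u y) * ((u y - u (fl i y)) / 2) := by
  have e : ∑ y, A (u (fl i y)) * ((u (fl i y) - u (fl i (fl i y))) / 4) = _ :=
    Equiv.sum_comp (Function.Involutive.toPerm (fl i) (fl_fl i))
      (fun y => A (u y) * ((u y - u (fl i y)) / 4))
  simp only [fl_fl] at e
  have : ∑ y, A (u y) * ((u y - u (fl i y)) / 2) = ∑ y, A (u y) * ((u y - u (fl i y)) / 4) +
      ∑ y, A (u y) * ((u y - u (fl i y)) / 4) := by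
    rw [← Finset.sum_add_distrib]
    exact Finset.sum_congr rfl fun y _ => by ring
  rw [this]
  nth_rewrite 2 [← e]
  rw [← Finset.sum_add_distrib]
  exact Finset.sum_congr rfl fun y _ => by simp only [J]; ring

end OA

open OA

theorem av_uu {n : ℕ} (f : (Fin n → Bool) → Bool) (p : ℝ) : av (uu f p) = av fun x => sg (f x) := by
  unfold av uu
  rw [Finset.sum_comm]
  simp only [← Finset.sum_mul, sum_chan, one_mul]

theorem abs_uu_le {n : ℕ} (f : (Fin n → Bool) → Bool) {p : ℝ} (h0 : 0 ≤ p) (h1 : p ≤ 1)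
    (y : Fin n → Bool) : |uu f p y| ≤ 1 := by
  have hc : ∀ x, 0 ≤ chan ((1 - p) / 2) x y := fun x =>
    chan_nonneg (by linarith) (by linarith) x y
  have hs := sum_chan' ((1 - p) / 2) y
  rw [abs_le, ← hs, ← Finset.sum_neg_distrib]
  exact ⟨Finset.sum_le_sum fun x _ => by nlinarith [hc x, le_sg (f x)],
    Finset.sum_le_sum fun x _ => by nlinarith [hc x, sg_le (f x)]⟩

theorem abs_uu_lt {n : ℕ} (f : (Fin n → Bool) → Bool) (hf : ∃ x x', f x ≠ f x') {p : ℝ}
    (h0 : 0 ≤ p) (h1 : p < 1) (y : Fin n → Bool) : |uu f p y| < 1 := by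
  have hc : ∀ x, 0 < chan ((1 - p) / 2) x y := fun x => chan_pos h0 h1 x y
  have hs := sum_chan' ((1 - p) / 2) y
  have hb : ∀ b, ∃ x, f x = b := by
    intro b
    obtain ⟨x, x', h⟩ := hf
    by_cases e : f x = b
    · exact ⟨x, e⟩
    · refine ⟨x', ?_⟩
      revert h e
      cases f x <;> cases f x' <;> cases b <;> simp
  obtain ⟨a, ha⟩ := hb true
  obtain ⟨b, hb⟩ := hb false
  rw [abs_lt, ← hs, ← Finset.sum_neg_distrib]
  refine ⟨Finset.sum_lt_sum (fun x _ => by nlinarith [hc x, le_sg (f x)])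
    ⟨a, Finset.mem_univ _, ?_⟩, Finset.sum_lt_sum (fun x _ => by nlinarith [hc x, sg_le (f x)])
    ⟨b, Finset.mem_univ _, ?_⟩⟩
  · rw [ha, sg_true]; linarith [hc a]
  · rw [hb, sg_false]; linarith [hc b]

theorem uu_zero {n : ℕ} (f : (Fin n → Bool) → Bool) (y : Fin n → Bool) :
    uu f 0 y = av fun x => sg (f x) := by
  unfold uu av
  simp only [chan_eq, Finset.sum_div]
  refine Finset.sum_congr rfl fun x _ => ?_
  simp
  ring

theorem hasDerivAt_Sent {n : ℕ} (f : (Fin n → Bool) → Bool) (hf : ∃ x x', f x ≠ f x') {p : ℝ}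
    (h0 : 0 < p) (h1 : p < 1) :
    HasDerivAt (fun p => Sent (uu f p)) (-En (uu f p) / p) p := by
  unfold Sent En av
  refine ((HasDerivAt.fun_sum fun y _ => (hasDerivAt_H (abs_uu_lt f hf h0.le h1 y)).comp p
    (hasDerivAt_uu f y h0)).div_const _).congr_deriv ?_
  simp only [sum_J, Finset.sum_div, Finset.mul_sum, ← Finset.sum_neg_distrib]
  rw [Finset.sum_comm]
  refine Finset.sum_congr rfl fun i _ => Finset.sum_congr rfl fun x _ => ?_
  ring

end Vale.Agent.P322.CK
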