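import Vale.Agent.P322.OneDX

/-! One dimensional inequalities obtained from the numerical checks. -/

namespace Vale.Agent.P322.CK

open Real Set Eng

theorem OX.W_nonneg {r : ℝ} (h0 : 0 < r) (h1 : r < 1) :
    0 ≤ -((1 - r ^ 2) * A r ^ 2 * ((1 + r ^ 2) * A r - r)) +
      A r * H r * (2 * r * A r * (1 - r ^ 2) + 2 * r ^ 2) +
      H r * ((1 + r ^ 2) * A r - r) * (4 * r * A r - 3) := by
  rcases le_total r (57 / 64) with h | h
  · obtain ⟨v, a2, l2, a1, a, l1, l, hh, hv, p1, p2, ha1, ha, hl1, hl, eh, eA, eL, eH, -, -, o3,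
      -⟩ := OX.small h0.le h
    have := mul_nonneg (mul_nonneg h0.le (sq_nonneg v)) o3
    rw [eA, eH]
    refine this.trans (le_of_eq ?_)
    clear this o3 eA eL eH eh
    subst ha ha1 hv
    ring
  · obtain ⟨a, b, yb, eb, eA, a0, b0, ab, eH, -, -, -, -, -, o3, -⟩ := OX.large (by linarith) h1
    have := mul_nonneg (mul_nonneg (sub_nonneg.2 h1.le) (pow_nonneg a0.le 3)) o3
    rw [eA, eH]
    refine this.trans (le_of_eq ?_)
    rw [eq_inv_of_mul_eq_one_right ab]
    field_simp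
    ring

theorem L3 : MonotoneOn (fun r => H r * dmu r / A r) (Ioo 0 1) := by
  intro x hx y hy hxy
  refine FA.le_of_der' (f := fun r => H r * dmu r / A r) (f' := fun r => (-((1 - r ^ 2) * A r ^ 2 * ((1 + r ^ 2) * A r - r)) +
      A r * H r * (2 * r * A r * (1 - r ^ 2) + 2 * r ^ 2) +
      H r * ((1 + r ^ 2) * A r - r) * (4 * r * A r - 3)) / ((1 - r ^ 2) ^ 3 * A r ^ 4)) hxy
    (fun r hr => ?_) fun r hr => ?_
  · have h0 : 0 < r := hx.1.trans_le hr.1
    have h1 : r < 1 := hr.2.trans_lt hy.2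
    have a := FB.ab h0.le h1
    have b := (FA.one_sub_sq_pos a).ne'
    have c := (A_pos h0 h1).ne'
    have dA := hasDerivAt_A a
    have d2 := (hasDerivAt_id' r).fun_pow 2
    have dN := ((d2.const_add 1).fun_mul dA).fun_sub (hasDerivAt_id' r)
    have dD := ((d2.const_sub 1).fun_pow 2).fun_mul (dA.fun_pow 2)
    refine (((hasDerivAt_H a).fun_mul (dN.fun_div dD (by positivity))).fun_div dA c).congr_deriv ?_
    simp only [Nat.cast_ofNat, Nat.add_one_sub_one, pow_one]
    generalize A r = p at *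
    generalize H r = q at *
    generalize hu : 1 - r ^ 2 = u at *
    field_simp
    rw [← hu]
    ring
  · have h0 : 0 < r := hx.1.trans hr.1
    have h1 : r < 1 := hr.2.trans hy.2
    have b := FA.one_sub_sq_pos (FB.ab h0.le h1)
    exact div_nonneg (OX.W_nonneg h0 h1) (by positivity)

theorem L4 {r : ℝ} (h0 : 0 < r) (h1 : r < 1) :
    2 * A r * (mu r * ell r - r * A r) ≤ dmu r * ell r ^ 2 := by
  have hr := FB.ab h0.le h1
  have v1 := FA.one_sub_sq_pos hr
  have e0 : 2 * A r * (mu r * ell r - r * A r) =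
      2 * (A r + r / (1 - r ^ 2)) * ell r - 2 * r * A r ^ 2 := by
    rw [← mu_mul_A h0 h1]; ring
  rw [e0, ← sub_nonneg]
  rcases le_total r (57 / 64) with h | h
  · obtain ⟨v, a2, l2, a1, a, l1, l, hh, hv, p1, p2, ha1, ha, hl1, hl, eh, eA, eL, eH, -, -, -, o4,
      -⟩ := OX.small h0.le h
    have v0 : 0 ≤ v := hv ▸ sq_nonneg r
    have a0 : 0 < a := by rw [ha, ha1]; positivity
    have := div_nonneg (mul_nonneg (mul_nonneg h0.le (pow_nonneg v0 3)) o4)
      (sq_nonneg ((1 - r ^ 2) * a))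
    refine this.trans (le_of_eq ?_)
    have e : (1 + r ^ 2) * (r * a) - r = r * r ^ 2 * (a + a1) := by
      rw [← hv]; linear_combination r * ha
    have e1 : dmu r * ell r ^ 2 - (2 * (A r + r / (1 - r ^ 2)) * ell r - 2 * r * A r ^ 2) =
        r * v * ((a + a1) * v * l ^ 2 - 2 * (1 - v) ^ 2 * a ^ 3 * l - 2 * (1 - v) * a ^ 2 * l +
          2 * (1 - v) ^ 2 * a ^ 4) / ((1 - r ^ 2) * a) ^ 2 := by
      rw [dmu, eA, eL, e, hv]
      generalize 1 - r ^ 2 = u at *
      field_simp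
      ring
    rw [e1]
    congr 1
    clear this o4 eA eL eH eh e e1 a0
    subst hl hl1 ha ha1
    ring
  · obtain ⟨a, b, yb, eb, eA, a0, b0, ab, -, -, -, -, -, -, -, o4, -⟩ := OX.large (by linarith) h1
    have t := two_ell_le hr
    have l0 : 0 ≤ ell r := le_trans (by positivity) (ell_ge hr.le)
    have e : (1 + r ^ 2) * a - r = a * (1 + r ^ 2 - r * b) := by linear_combination r * ab
    rw [eA] at t
    have e1 : dmu r * ell r ^ 2 - (2 * (A r + r / (1 - r ^ 2)) * ell r - 2 * r * A r ^ 2) =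
        (ell r * ((1 + r ^ 2 - r * b) * ell r + 2 * ((1 - r ^ 2) * a * ((1 - r ^ 2) * a - r))) +
          2 * ((1 - r ^ 2) * a) ^ 2 * (r * a - 2 * ell r)) / ((1 - r ^ 2) ^ 2 * a) := by
      rw [dmu, eA, e]
      generalize 1 - r ^ 2 = u at *
      field_simp
      ring
    rw [e1]
    exact div_nonneg (add_nonneg (mul_nonneg l0 o4) (mul_nonneg (by positivity) (by linarith)))
      (by positivity)

end Vale.Agent.P322.CK
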