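import Vale.Agent.P322.EngB
import Vale.Agent.P322.Fun

/-! Power series identities. -/

namespace Vale.Agent.P322.CK

open Real Set Eng

theorem serF_shift {a b c d : ℕ} (h : 1 ≤ b * d) {x : ℝ} (h0 : 0 ≤ x) (h1 : x < 1) :
    serF a b c d x = 1 / ((b : ℝ) * d) + x * serF a (a + b) c (c + d) x := by
  rw [BX.serF_eq' _ _ _ _ h0, BX.serF_eq' _ _ _ _ h0, (BX.summable_lt h h0 h1).tsum_eq_zero_add,
    ← tsum_mul_left]
  congr 1
  · simp [BX.den]
  · congr 1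
    ext k
    simp only [BX.den]
    push_cast
    rw [pow_succ', mul_div_assoc]
    congr 2
    ring

theorem serF_nonneg (a b c d : ℕ) (x : ℝ) : 0 ≤ serF a b c d x := by
  exact tsum_nonneg fun k => div_nonneg (pow_nonneg (le_max_right x 0) k) (by positivity)

theorem SR.hA {u : ℝ} (h0 : 0 ≤ u) (h1 : u < 1) :
    HasSum (fun k : ℕ => u * ((u ^ 2) ^ k / (2 * k + 1))) (A u) := by
  have h2 := (hasSum_log_sub_log_of_abs_lt_one (x := u) (by rwa [abs_of_nonneg h0])).div_const 2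
  refine (show (fun k : ℕ => u * ((u ^ 2) ^ k / (2 * k + 1))) = _ from funext fun k => ?_) ▸ h2
  rw [← pow_mul, pow_succ]
  ring

theorem SR.hL {x : ℝ} (h0 : 0 ≤ x) (h1 : x < 1) :
    HasSum (fun k : ℕ => x * (x ^ k / (k + 1))) (-log (1 - x)) := by
  have h2 := hasSum_pow_div_log_of_abs_lt_one (x := x) (by rwa [abs_of_nonneg h0])
  refine (show (fun k : ℕ => x * (x ^ k / (k + 1))) = _ from funext fun k => ?_) ▸ h2
  rw [pow_succ]
  ring

theorem A_eq_ser {u : ℝ} (h0 : 0 ≤ u) (h1 : u < 1) : A u = u * serF 2 1 0 1 (u ^ 2) := by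
  rw [← (SR.hA h0 h1).tsum_eq, BX.serF_eq' _ _ _ _ (sq_nonneg _), ← tsum_mul_left]
  simp [BX.den]

theorem ell_eq_ser {u : ℝ} (h0 : 0 ≤ u) (h1 : u < 1) : ell u = u ^ 2 * serF 2 1 2 2 (u ^ 2) := by
  have e : ell u = u * A u - -log (1 - u ^ 2) / 2 := by
    unfold ell A
    rw [show 1 - u ^ 2 = (1 + u) * (1 - u) by ring, log_mul (by linarith) (by linarith)]
    ring
  have h2 := ((SR.hA h0 h1).mul_left u).sub ((SR.hL (sq_nonneg u) (by nlinarith)).div_const 2)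
  rw [e, ← h2.tsum_eq, BX.serF_eq' _ _ _ _ (sq_nonneg _), ← tsum_mul_left]
  congr 1
  ext k
  simp only [BX.den]
  push_cast
  field_simp
  ring

theorem log_eq_ser {x : ℝ} (h0 : 0 ≤ x) (h1 : x < 1) : -log (1 - x) = x * serF 1 1 0 1 x := by
  rw [← (SR.hL h0 h1).tsum_eq, BX.serF_eq' _ _ _ _ h0, ← tsum_mul_left]
  simp [BX.den]

theorem lam_le {x : ℝ} (h0 : 0 ≤ x) (h1 : x < 1) : serF 1 1 0 1 x ≤ (1 - x)⁻¹ := by
  rw [BX.serF_eq' _ _ _ _ h0, ← tsum_geometric_of_lt_one h0 h1]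
  exact (BX.summable_lt (by norm_num) h0 h1).tsum_le_tsum
    (fun k => div_le_self (pow_nonneg h0 k) (BX.one_le_den (by norm_num) k))
    (summable_geometric_of_lt_one h0 h1)

end Vale.Agent.P322.CK
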