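import Vale.Agent.P322.FunB
import Vale.Agent.P322.Ser
import Vale.Agent.P322.Num1

/-! One dimensional inequalities obtained from the numerical checks. -/

namespace Vale.Agent.P322.CK

open Real Set Eng

theorem DC.ell_eq {u : ℝ} (h0 : 0 ≤ u) (h1 : u < 1) :
    ell u = u ^ 2 * (1 / 2 + u ^ 2 * serF 2 3 2 4 (u ^ 2)) := by
  rw [ell_eq_ser h0 h1, serF_shift (a := 2) (b := 1) (c := 2) (d := 2) (by norm_num) (sq_nonneg u)
    (by nlinarith)]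
  norm_num

theorem DC.Dh_eq (z d : ℝ) : Dh z d = (1 / 2) * (log 2)⁻¹ + ((6 / 5) + -((1 / 2) * (log 2)⁻¹)) *
    (6 * z ^ 2 + d ^ 2) + -((1 / 5) * (15 * (z ^ 2 * (z ^ 2 + d ^ 2)) + (d ^ 2) ^ 2)) := by
  unfold Dh
  ring

theorem L5a {t : ℝ} (h0 : 0 ≤ t) (h1 : t ≤ 13 / 25) :
    (1 - 23 / 50 * t ^ 2) * ((1 - t ^ 2) * Lam t) ≤ H t := by
  obtain ⟨v, rfl, ho⟩ := okLa0 h0 (by linarith)
  rw [max_eq_left h0] at ho
  have e1 := ell_eq_ser h0 (by linarith : t < 1)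
  have e2 := log_eq_ser (sq_nonneg t) (by nlinarith : t ^ 2 < 1)
  have e3 : log (1 - t ^ 2) = -(t ^ 2 * serF 1 1 0 1 (t ^ 2)) := by linarith
  have := mul_nonneg (sq_nonneg t) ho
  unfold H Lam
  rw [e1, e3]
  linarith

theorem L6 {a : ℝ} (h0 : 0 ≤ a) (h1 : a ≤ 61 / 100) :
    H a - log 2 * w a + w a * ell (3 / 2 * a) ≤ (3 / 2 * a) ^ 2 / 2 := by
  obtain ⟨v, iL, W1, rfl, hiL, hW, ho⟩ := okLd0 h0 (by linarith)
  have h0' : 0 ≤ 3 / 2 * a := by linarith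
  rw [max_eq_left h0, max_eq_left h0'] at ho
  have hl : log 2 ≠ 0 := (log_pos one_lt_two).ne'
  have e0 : log 2 * iL = 1 / 2 := by rw [hiL]; field_simp
  have ew : w a = 1 - a ^ 2 * W1 := by
    have : 1 / (2 * log 2) = iL := by rw [hiL]; field_simp
    rw [hW, w, this]; ring
  have eW : log 2 * W1 = 1 / 2 + a ^ 2 * (log 2 * (6 / 5 - 1 / 5 * a ^ 2) - 1 / 2) := by
    rw [hW]; linear_combination (1 - a ^ 2) * e0
  have := mul_nonneg (sq_nonneg (a ^ 2)) ho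
  unfold H
  rw [DC.ell_eq h0 (by linarith), DC.ell_eq h0' (by linarith), ew]
  generalize serF 2 3 2 4 (a ^ 2) = p at *
  generalize serF 2 3 2 4 ((3 / 2 * a) ^ 2) = q at *
  have e : log 2 * (1 - a ^ 2 * W1) = log 2 - a ^ 2 * (log 2 * W1) := by ring
  rw [e, eW]
  linarith

theorem L8a {z d : ℝ} (hz : 0 ≤ z) (hd : 0 ≤ d) (h : z + d ≤ 1) (hd1 : d ≤ 13 / 25) :
    129 / 200 * Dh z d ≤ 1 - 23 / 50 * d ^ 2 := by
  obtain ⟨iL, z2, d2, D, rfl, rfl, rfl, rfl, ho⟩ := okLe0 hd (by linarith) hz (by linarith)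
  rw [← DC.Dh_eq] at ho
  linarith

theorem L8b {z d : ℝ} (hz : 0 ≤ z) (hd : 13 / 25 ≤ d) (h : z + d ≤ 1) (hd1 : d ≤ 33 / 50) :
    129 / 200 * Dh z d * d ≤ 23 / 50 := by
  have k : OkLf d z := by
    rcases le_total d (39 / 64) with h2 | h2
    · exact okLf0 (by linarith) h2 hz (by linarith)
    · exact okLf1 (by linarith) (by linarith) hz (by linarith)
  obtain ⟨iL, z2, d2, D, rfl, rfl, rfl, rfl, ho⟩ := k
  rw [← DC.Dh_eq] at ho
  linarith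

end Vale.Agent.P322.CK
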