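import Vale.Agent.P322.OneDa
import Vale.Agent.P322.OneDb
import Vale.Agent.P322.OneDc

/-! One dimensional inequalities obtained from the numerical checks. -/
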