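import Vale.Agent.P322.FunB
import Vale.Agent.P322.Ser
import Vale.Agent.P322.Num1

/-! The numerical facts in terms of `A`, `ell`, `H`. -/

namespace Vale.Agent.P322.CK.OX

open Real Set Eng

theorem small {r : ℝ} (h0 : 0 ≤ r) (h1 : r ≤ 57 / 64) :
    ∃ v a2 l2 a1 a l1 l h : ℝ, v = r ^ 2 ∧ 0 ≤ a2 ∧ 0 ≤ l2 ∧ a1 = 1 / 3 + v * a2 ∧ a = 1 + v * a1 ∧
      l1 = 1 / 12 + v * l2 ∧ l = 1 / 2 + v * l1 ∧ h = log 2 - v * l ∧
      A r = r * a ∧ ell r = v * l ∧ H r = h ∧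
      h ^ 2 * (a + a1) ≤ 129 / 200 * (((1 - v) * a) ^ 2 * a) ∧
      49 / 100 * (((1 - v) * a) ^ 2 * a) ≤ h ^ 2 * (a + a1) ∧
      0 ≤ (2 * ((1 - v) * a1 * (1 + a)) - 2 - a1 - 3 * a2) * h +
        (4 * h - (1 - v) * a) * (a * (a + a1)) ∧
      0 ≤ 4 / 3 * (l1 * (1 + v * l1)) + (a1 + a2) * l ^ 2 - 1 / 3 * ((a1 - a) * a + a1) -
        2 * ((1 + v * ((a1 - a) * a + a1)) *
          (2 * l2 - 1 / 2 * (a2 - a1) - a2 + (a1 - a) * (l1 - a1))) ∧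
      0 ≤ log 2 * (6 / 5 - 1 / 5 * v) - 1 / 2 - l1 := by
  obtain ⟨v, a2, l2, a1, a, l1, l, h, o, s, n, dn, c, G, e2, hv, ha2, hl2, ha1, ha, hl1, hl, hh, ho,
    hs, hn, hdn, hc, hG, he2, o1, o2, o3, o4, o7⟩ := okS0 h0 h1
  have r1 : r < 1 := by linarith
  have v0 : 0 ≤ r ^ 2 := sq_nonneg r
  have v1 : r ^ 2 < 1 := by nlinarith
  rw [max_eq_left h0] at ha2 hl2
  have eA : A r = r * a := by
    rw [A_eq_ser h0 r1, serF_shift (by norm_num) v0 v1, serF_shift (by norm_num) v0 v1, ha, ha1, ha2,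
      hv]
    norm_num
  have eL : ell r = v * l := by
    rw [ell_eq_ser h0 r1, serF_shift (by norm_num) v0 v1, serF_shift (by norm_num) v0 v1, hl, hl1,
      hl2, hv]
    norm_num
  refine ⟨v, a2, l2, a1, a, l1, l, h, hv, ha2 ▸ serF_nonneg .., hl2 ▸ serF_nonneg .., ha1, ha, hl1, hl,
    by rw [hh]; ring, eA, eL, by rw [H, eL, hh]; ring, ?_, ?_, ?_, ?_, ?_⟩
  · rw [hdn, hn, hs, ho] at o1
    linarith
  · rw [hdn, hn, hs, ho] at o2
    linarith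
  · rw [hs, ho] at o3
    linarith
  · rw [he2, hG, hc] at o4
    linarith
  · linarith

theorem large {r : ℝ} (h0 : 15 / 17 ≤ r) (h1 : r < 1) :
    ∃ a b yb eb : ℝ, A r = a ∧ 0 < a ∧ 0 < b ∧ a * b = 1 ∧ H r = (1 - r) * a * yb ∧
      Lam r = a * eb ∧ 0 < yb ∧ 0 < eb ∧
      yb ^ 2 * (1 + r ^ 2 - r * b) ≤ 129 / 200 * (1 + r) ^ 2 ∧
      49 / 100 * (1 + r) ^ 2 ≤ yb ^ 2 * (1 + r ^ 2 - r * b) ∧
      0 ≤ (2 * (r * (1 - r ^ 2) + r ^ 2 * b) + (4 * r - 3 * b) * (1 + r ^ 2 - r * b)) * yb -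
        (1 + r) * (1 + r ^ 2 - r * b) ∧
      0 ≤ (1 + r ^ 2 - r * b) * ell r + 2 * ((1 - r ^ 2) * a * ((1 - r ^ 2) * a - r)) ∧
      23 / 50 * ((1 + r) * eb) ≤ r * yb ∧
      yb * (r * yb * b + (49 / 100 * (log 2)⁻¹ - 1) * ((1 + r) * eb)) ≤
        129 / 200 * (b * (1 + r) * eb) ∧
      b * (1 + r) * (log 2 * (1 + r ^ 2 - 1 / 5 * (r ^ 2) ^ 2) - 1 / 2 * r ^ 2) ≤ yb := by
  have r0 : 0 < r := by linarith
  have hA := A_big h0 h1
  have hL := log_two_gt_d9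
  have a0 : 0 < A r := A_pos r0 h1
  have b0 : 0 < (A r)⁻¹ := inv_pos.2 a0
  have b1 : (A r)⁻¹ ≤ 47 / 64 := by
    rw [inv_le_comm₀ a0 (by norm_num)]
    norm_num
    linarith
  have ab : A r * (A r)⁻¹ = 1 := mul_inv_cancel₀ a0.ne'
  have hr : |r| < 1 := abs_lt.2 ⟨by linarith, h1⟩
  obtain ⟨ep, v, y, yb, n, s, el, g, eb, n1, s2, hep, hv, hy, hyb, hn, hs, hel, hg, heb, hn1, hs2,
    o1, o2, o3, o4, o5, o6, o7⟩ := okG0 (by linarith) h1.le b0.le b1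
  generalize (A r)⁻¹ = b at *
  rw [max_eq_left r0.le] at hel
  have y0 : 0 ≤ y := by rw [hy]; exact mul_nonneg (by norm_num) (serF_nonneg ..)
  have e1 : log (2 / (1 + r)) = ep * y := by
    have := log_eq_ser (x := 1 / 2 * ep) (by linarith) (by linarith)
    rw [hy, ← inv_div, log_inv, show (1 + r) / 2 = 1 - 1 / 2 * ep by linarith, this]
    ring
  have e2 : el = ell r := by rw [hel, hv, ell_eq_ser r0.le h1]
  have e3 : H r = (1 - r) * A r + ep * y := by rw [H_eq hr, e1]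
  have e4 : g = (1 - r ^ 2) * A r := by
    have : log 2 - ell r = (1 - r) * A r + ep * y := e3
    rw [hg, e2, hs, show log 2 + -ell r + -(ep * y) = (1 - r) * A r by linarith]
    ring
  have ep0 : 0 ≤ ep := by linarith
  refine ⟨A r, b, yb, eb, rfl, a0, b0, ab, ?_, ?_, ?_, ?_, ?_, ?_, ?_, ?_, ?_, ?_, ?_⟩
  · rw [e3, hyb, hep]
    linear_combination (-(1 - r) * y) * ab
  · rw [Lam_eq hr, e3, heb]
    linear_combination (-ep * y) * ab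
  · rw [hyb]; positivity
  · rw [heb]; positivity
  · rw [hn1, hs2, hs, hn, hv] at o1
    linarith
  · rw [hn1, hs2, hs, hn, hv] at o2
    linarith
  · rw [hs, hn, hv] at o3
    linarith
  · rw [e4, hn, hv, e2] at o4
    linarith
  · rw [hs] at o5
    linarith
  · rw [hs] at o6
    linarith
  · rw [hs, hv] at o7
    linarith

end Vale.Agent.P322.CK.OX
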