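import Vale.Agent.P322.OneDX

/-! One dimensional inequalities obtained from the numerical checks. -/

namespace Vale.Agent.P322.CK

open Real Set Eng

theorem OX.ratio {r : ℝ} (h0 : 0 < r) (h1 : r < 1) :
    ∃ n d : ℝ, 0 < d ∧ H r ^ 2 * dmu r = A r * (n / d) ∧ n ≤ 129 / 200 * d ∧ 49 / 100 * d ≤ n := by
  have v1 : 0 < 1 - r ^ 2 := by nlinarith
  rcases le_total r (57 / 64) with h | h
  · obtain ⟨v, a2, l2, a1, a, l1, l, hh, hv, p1, p2, ha1, ha, hl1, hl, eh, eA, eL, eH, o1, o2, -⟩ :=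
      OX.small h0.le h
    have v0 : 0 ≤ v := hv ▸ sq_nonneg r
    have a0 : 0 < a := by rw [ha, ha1]; positivity
    rw [← hv] at v1
    refine ⟨_, _, by positivity, ?_, o1, o2⟩
    have e : (1 + r ^ 2) * (r * a) - r = r * r ^ 2 * (a + a1) := by
      rw [← hv]; linear_combination r * ha
    rw [dmu, eA, eH, e, hv]
    rw [hv] at v1
    field_simp
  · obtain ⟨a, b, yb, eb, eA, a0, b0, ab, eH, -, -, -, o1, o2, -⟩ := OX.large (by linarith) h1
    refine ⟨_, _, by positivity, ?_, o1, o2⟩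
    have e : (1 + r ^ 2) * a - r = a * (1 + r ^ 2 - r * b) := by linear_combination r * ab
    have r1 : 0 < 1 - r := by linarith
    rw [dmu, eA, eH, e, show 1 - r ^ 2 = (1 - r) * (1 + r) by ring]
    field_simp

theorem L1 {r : ℝ} (h0 : 0 < r) (h1 : r < 1) : H r ^ 2 * dmu r ≤ 129 / 200 * A r := by
  obtain ⟨n, d, d0, e, o1, -⟩ := OX.ratio h0 h1
  rw [e, mul_comm]
  exact mul_le_mul_of_nonneg_right ((div_le_iff₀ d0).2 o1) (A_pos h0 h1).le

theorem L2 {r : ℝ} (h0 : 0 < r) (h1 : r < 1) : 49 / 100 * A r ≤ H r ^ 2 * dmu r := by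
  obtain ⟨n, d, d0, e, -, o2⟩ := OX.ratio h0 h1
  rw [e, mul_comm (A r)]
  exact mul_le_mul_of_nonneg_right ((le_div_iff₀ d0).2 o2) (A_pos h0 h1).le

theorem L7 {a : ℝ} (h : |a| < 1) : log 2 * w a ≤ H a := by
  wlog h0 : 0 ≤ a generalizing a
  · have := this (a := -a) (by rwa [abs_neg]) (by linarith)
    rwa [w_neg, H_neg] at this
  have h1 : a < 1 := (abs_lt.1 h).2
  have hL : log 2 ≠ 0 := by linarith [log_two_gt_d9]
  have ew : log 2 * w a =
      (1 - a ^ 2) * (log 2 * (1 + a ^ 2 - 1 / 5 * (a ^ 2) ^ 2) - 1 / 2 * a ^ 2) := by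
    rw [w]; field_simp; ring
  rw [ew]
  rcases le_total a (57 / 64) with h2 | h2
  · obtain ⟨v, a2, l2, a1, b, l1, l, hh, hv, p1, p2, ha1, ha, hl1, hl, eh, eA, eL, eH, -, -, -, -,
      o7⟩ := OX.small h0 h2
    have := mul_nonneg (sq_nonneg v) o7
    rw [eH, eh, hl, ← hv]
    linarith
  · obtain ⟨c, b, yb, eb, eA, a0, b0, ab, eH, -, -, -, -, -, -, -, -, -, o7⟩ :=
      OX.large (by linarith) h1
    have := mul_le_mul_of_nonneg_left o7 (mul_nonneg (sub_nonneg.2 h1.le) a0.le)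
    rw [eH]
    refine le_trans (le_of_eq ?_) this
    linear_combination
      (-(1 - a ^ 2) * (log 2 * (1 + a ^ 2 - 1 / 5 * (a ^ 2) ^ 2) - 1 / 2 * a ^ 2)) * ab

theorem L5b {t : ℝ} (h0 : 13 / 25 ≤ t) (h1 : t < 1) :
    23 / 50 * ((1 - t ^ 2) * Lam t) ≤ t * H t := by
  have t0 : 0 ≤ t := by linarith
  rcases le_total t (57 / 64) with h2 | h2
  · obtain ⟨v, o, hv, ho, o1⟩ := okLb0 (t := t) (by linarith) h2
    rw [max_eq_left t0, ho, hv, ← ell_eq_ser t0 h1, ← sub_eq_add_neg 1] at o1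
    unfold Lam H
    linarith
  · obtain ⟨c, b, yb, eb, eA, a0, b0, ab, eH, eL, -, -, -, -, -, -, o5, -⟩ :=
      OX.large (by linarith) h1
    have := mul_le_mul_of_nonneg_left o5 (mul_nonneg (sub_nonneg.2 h1.le) a0.le)
    rw [eH, eL]
    linarith

theorem L5c {t : ℝ} (h0 : 33 / 50 ≤ t) (h1 : t < 1) :
    H t * (t * H t / ((1 - t ^ 2) * Lam t * A t) + 49 / 100 / log 2 - 1) ≤ 129 / 200 * (1 - t) := by
  have t0 : 0 < t := by linarith
  rcases le_total t (57 / 64) with h2 | h2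
  · obtain ⟨v, o, h, hv, ho, hh, o1⟩ := okLc0 (t := t) (by linarith) h2
    rw [max_eq_left t0.le] at hh o1
    rw [hv, ← ell_eq_ser t0.le h1] at hh
    have e1 : H t = h := by rw [hh, H]; ring
    have e2 : o * (log 2 + 1 / 2 * -log o) = (1 - t ^ 2) * Lam t := by
      rw [ho, hv, ← sub_eq_add_neg 1, Lam]; ring
    have e3 : t * h / ((1 - t ^ 2) * Lam t * A t) =
        h * ((1 - t ^ 2) * Lam t * serF 2 1 0 1 (t ^ 2))⁻¹ := by
      rw [A_eq_ser t0.le h1, mul_left_comm _ t, mul_div_mul_left _ _ t0.ne', div_eq_mul_inv]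
    rw [e2] at o1
    rw [e1, e3, div_eq_mul_inv _ (log 2)]
    linarith
  · obtain ⟨c, b, yb, eb, eA, a0, b0, ab, eH, eL, y0, e0, -, -, -, -, -, o6, -⟩ :=
      OX.large (by linarith) h1
    have r1 : 0 < 1 - t := by linarith
    have d0 : 0 < (1 + t) * eb := by positivity
    have eb' : b = c⁻¹ := eq_inv_of_mul_eq_one_right ab
    have e : H t * (t * H t / ((1 - t ^ 2) * Lam t * A t) + 49 / 100 / log 2 - 1) =
        (1 - t) * c * (yb * (t * yb * b + (49 / 100 * (log 2)⁻¹ - 1) * ((1 + t) * eb)) /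
          ((1 + t) * eb)) := by
      rw [eH, eL, eA, show 1 - t ^ 2 = (1 - t) * (1 + t) by ring, div_eq_mul_inv _ (log 2), eb']
      generalize (log 2)⁻¹ = q
      field_simp
      ring
    have k : yb * (t * yb * b + (49 / 100 * (log 2)⁻¹ - 1) * ((1 + t) * eb)) / ((1 + t) * eb) ≤
        129 / 200 * b := by
      rw [div_le_iff₀ d0]; linarith
    rw [e]
    refine (mul_le_mul_of_nonneg_left k (by positivity)).trans (le_of_eq ?_)
    linear_combination (129 / 200 * (1 - t)) * ab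

end Vale.Agent.P322.CK
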