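import Vale.Agent.P322.KapB
import Vale.Agent.P322.NumB

/-! From the numerical check to the crossing point, region B. -/

namespace Vale.Agent.P322.CK

open Real Set Eng

theorem RB.LwB {z d : ℝ} (hz : 0 ≤ z) (hd : 0 ≤ d) (h : z + d < 1) : log 2 * wb z d ≤ Hb z d := by
  have a := L7 (a := z + d) (abs_lt.2 ⟨by linarith, by linarith⟩)
  have b := L7 (a := z - d) (abs_lt.2 ⟨by linarith, by linarith⟩)
  unfold wb Hb
  linarith

theorem RB.RR_le {z d ph X : ℝ} (hz : 0 ≤ z) (hd : 0 ≤ d) (h : z + d < 1) (hp : 0 < ph)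
    (hp1 : ph ≤ 1) (hX : w z * X = d ^ 2 * Dh z d) :
    RR z d (log 2 * ph * wb z d) ≤ 2 * (H z - Hb z d) +
      d ^ 2 * (129 / 200 * (Dh z d * (-log ph + X * serF 1 2 0 1 X))) := by
  have hl : 0 < log 2 := log_pos one_lt_two
  have b0 := wb_pos hz hd h
  have b1 := wb_le hz hd h.le
  have e := dw_eq z d
  have w0 : 0 < w z := b0.trans_le b1
  have x0 : 0 ≤ X := by
    by_contra hn
    nlinarith [mul_pos w0 (neg_pos.2 (not_le.1 hn))]
  have x1 : X < 1 := by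
    by_contra hn
    nlinarith [mul_nonneg w0.le (sub_nonneg.2 (not_lt.1 hn))]
  have q := Q_diff b0 b1 (s := log 2 * ph * wb z d) (by positivity)
    (by nlinarith [mul_nonneg (mul_pos hl b0).le (sub_nonneg.2 hp1)])
  have e1 : log (log 2 * wb z d / (log 2 * ph * wb z d)) = -log ph := by
    rw [← log_inv]; congr 1; field_simp
  have e2 : log (w z / wb z d) = X * (1 + X * serF 1 2 0 1 X) := by
    have s := serF_shift (a := 1) (b := 1) (c := 0) (d := 1) (by norm_num) x0 x1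
    have t := log_eq_ser x0 x1
    rw [s] at t
    have : w z / wb z d = (1 - X)⁻¹ := by
      have : 1 - X ≠ 0 := by linarith
      field_simp
      linarith
    rw [this, log_inv, t]
    norm_num
  rw [e1, e2, e] at q
  have e3 : w z * (X * (1 + X * serF 1 2 0 1 X)) = d ^ 2 * Dh z d * (1 + X * serF 1 2 0 1 X) := by
    rw [← hX]; ring
  rw [e3] at q
  unfold RR
  rw [e]
  linarith

theorem RB.first {d s t u m om v sm R jj : ℝ} (hd : 0 < d) (hv : 0 < v) (hom : 0 < om) (ht : t = om * v)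
    (ht1 : t < 1) (hu : 0 < u) (hu1 : u < 1) (hs : d * H u / u = s) (hdm : d = v * m)
    (hsm : s = m * sm)
    (ho : 0 ≤ om * (serF 2 1 0 1 (t ^ 2) + (log 2 + -(t ^ 2 * serF 2 1 2 2 (t ^ 2)) + -(om * sm)) *
      ((1 + -t ^ 2) * (log 2 + (1 / 2) * (-log (1 + -t ^ 2))))⁻¹) + -jj + -(m * R)) :
    d * v * jj + d ^ 2 * R ≤ d * A u := by
  have t0 : 0 < t := ht ▸ mul_pos hom hv
  have g := mul_le_mul_of_nonneg_left (gam_le t0 ht1 hu hu1) hd.le
  have e0 : d * (A u + nu t * H u / u) = d * A u + nu t * s := by rw [← hs]; ring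
  have eI : nu t = t ^ 2 * ((1 + -t ^ 2) * (log 2 + (1 / 2) * (-log (1 + -t ^ 2))))⁻¹ := by
    unfold nu Lam
    rw [div_eq_mul_inv, ← sub_eq_add_neg]
    congr 3
    ring
  have eH : H t = log 2 + -(t ^ 2 * serF 2 1 2 2 (t ^ 2)) := by
    unfold H; rw [ell_eq_ser t0.le ht1]; ring
  rw [← eH] at ho
  rw [e0, gam, A_eq_ser t0.le ht1, eI] at g
  generalize ((1 + -t ^ 2) * (log 2 + (1 / 2) * (-log (1 + -t ^ 2))))⁻¹ = I at *
  generalize serF 2 1 0 1 (t ^ 2) = a at *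
  have e1 : t ^ 2 * I * H t / t = t * I * H t := by field_simp
  rw [e1] at g
  have := mul_nonneg (mul_pos hd hv).le ho
  generalize H t = hh at *
  subst hsm ht hdm
  linarith

theorem RB.tau_eq {z d m v lp : ℝ} (hz : 0 ≤ z) (hm : 0 < m) (hmz : m = 1 - z) (hdm : d = v * m)
    (hlp : lp = serF 1 1 0 1 (1 / 2 * m)) :
    0 < lp ∧ log (2 / (1 + z)) = m / 2 * lp ∧
      kT z d = 2 * ((1 + z)⁻¹ ^ 2 * lp⁻¹) * (v ^ 2 * m) := by
  have h0 : 0 ≤ 1 / 2 * m := by linarith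
  have h1 : 1 / 2 * m < 1 := by linarith
  have p : 0 < lp := by
    rw [hlp, serF_shift (a := 1) (b := 1) (c := 0) (d := 1) (by norm_num) h0 h1]
    have := mul_nonneg h0 (serF_nonneg 1 (1 + 1) 0 (0 + 1) (1 / 2 * m))
    norm_num at this ⊢
    linarith
  have e : log (2 / (1 + z)) = m / 2 * lp := by
    have t := log_eq_ser h0 h1
    rw [← hlp, ← log_inv] at t
    rw [show 2 / (1 + z) = (1 - 1 / 2 * m)⁻¹ by
      rw [show 1 - 1 / 2 * m = (1 + z) / 2 by rw [hmz]; ring, inv_div], t]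
    ring
  refine ⟨p, e, ?_⟩
  unfold kT
  rw [e, hdm]
  field_simp

theorem RB.s_le {z d ph : ℝ} (hz : 0 ≤ z) (hd : 0 ≤ d) (h : z + d < 1) (hp : 0 ≤ 1 + -ph) :
    log 2 * ph * wb z d ≤ H d := by
  have a := RB.LwB hz hd h
  have b := Hb_le hz hd h
  have c := mul_nonneg (mul_pos (log_pos one_lt_two) (wb_pos hz hd h)).le hp
  linarith

theorem RB.aZ {z m mc : ℝ} (hz : 0 ≤ z) (hm : 0 < m) (hmz : m = 1 - z) (mm : m ≤ mc) :
    -log (mc * (1 + z)⁻¹) ≤ 2 * A z := by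
  have i0 : 0 < (1 + z)⁻¹ := by positivity
  have a := log_le_log (mul_pos hm i0) (mul_le_mul_of_nonneg_right mm i0.le)
  rw [log_mul hm.ne' i0.ne', log_inv] at a
  unfold A
  rw [← hmz]
  linarith

theorem RB.aV {v al lv : ℝ} (v0 : 0 < v) (v1 : v < 1) (ev : ell v = v ^ 2 * lv) (hal : al * v ≤ A v) :
    v * max (al + -(2 * lv)) 0 ≤ A v - 2 * (v * lv) := by
  have a := two_ell_le (u := v) (abs_lt.2 ⟨by linarith, v1⟩)
  rw [ev] at a
  have b : 2 * (v * lv) ≤ A v := le_of_mul_le_mul_left (by linarith) v0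
  rcases max_cases (al + -(2 * lv)) 0 with c | c <;> rw [c.1] <;> linarith

theorem RB.second {d v m vp i1z lv lw jj M mc aw av az T vm v2 lp sm R nl : ℝ} (hd : 0 < d)
    (v0 : 0 < v) (m0 : 0 < m) (M0 : 0 ≤ M) (T0 : 0 ≤ T) (mm : m ≤ mc) (hdm : d = v * m)
    (hvp : vp = d * i1z) (hjj : jj = lv + m * i1z * lw) (dd : d ^ 2 = vm * m)
    (aV : v * M ≤ av - 2 * (v * lv)) (aZ : nl ≤ 2 * az)
    (o1 : 0 ≤ (1 / 2) * (M * mc⁻¹ + (aw + -(2 * lw)) * i1z) +
      T * ((1 / 2) * (nl + lp + -(v2 * jj)) + -sm) + -R) :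
    d * v * jj + d ^ 2 * R ≤ d / 2 * (vp * aw + av) +
      T * vm * (m * (1 / 2 * (2 * az + lp + -(v2 * jj)) + -sm)) := by
  have aM : d * (M * mc⁻¹) ≤ v * M := by
    have c : m * mc⁻¹ ≤ 1 := by rw [← div_eq_mul_inv]; exact (div_le_one (by linarith)).2 mm
    have := mul_le_mul_of_nonneg_left c (mul_nonneg v0.le M0)
    rw [hdm]; linarith
  have f1 := mul_nonneg (sq_nonneg d) o1
  have f2 := mul_le_mul_of_nonneg_left (aM.trans aV) hd.le
  have f3 := mul_le_mul_of_nonneg_left aZ (mul_nonneg (sq_nonneg d) T0)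
  have g1 : T * vm * (m * (1 / 2 * (2 * az + lp + -(v2 * jj)) + -sm)) =
      d ^ 2 * T * (1 / 2 * (2 * az + lp + -(v2 * jj)) + -sm) := by rw [dd]; ring
  have g2 : d * v * jj = d * (v * lv) + d ^ 2 * (i1z * lw) := by
    rw [hjj]; linear_combination (-(d * i1z * lw)) * hdm
  have g3 : d * (vp * aw) = d ^ 2 * (i1z * aw) := by rw [hvp]; ring
  rw [g1, g2]
  clear g1 g2 o1 aM aV aZ hdm hvp hjj dd
  linarith

theorem regB_core {z d al ph om : ℝ} (hz : 0 ≤ z) (hd : 0 < d) (h : z + d < 1)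
    (hal : al * (d / (1 - z)) ≤ A (d / (1 - z))) (hok : OkB z (d / (1 - z)) al ph om) :
    ∃ t, d ≤ t ∧ t < 1 ∧ RR z d (d * H t / t) ≤ d * A t ∧
      RR z d (d * H t / t) ≤ J (z + d) (z - d) + tau z d * (Hb z d - d * H t / t) := by
  have hl : 0 < log 2 := log_pos one_lt_two
  have a1 : |z + d| < 1 := abs_lt.2 ⟨by linarith, by linarith⟩
  have a2 : |z - d| < 1 := abs_lt.2 ⟨by linarith, by linarith⟩
  have a3 : |z| < 1 := abs_lt.2 ⟨by linarith, by linarith⟩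
  have d1 : d < 1 := by linarith
  have z1 : 0 < 1 + z := by linarith
  have p0 : 0 < d / (1 + z) := div_pos hd z1
  have p1 : d / (1 + z) < 1 := (div_lt_one z1).2 (by linarith)
  have m0 : 0 < 1 - z := by linarith
  have v0 : 0 < d / (1 - z) := div_pos hd m0
  have v1 : d / (1 - z) < 1 := (div_lt_one m0).2 (by linarith)
  have hdm : d = d / (1 - z) * (1 - z) := by field_simp
  have js := j_split a1 a2
  have Js := J_split a1 a2
  have eH := H_eq a3
  obtain ⟨v, hv⟩ : ∃ v, v = d / (1 - z) := ⟨_, rfl⟩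
  rw [← hv] at hal hok v0 v1 hdm js Js
  obtain ⟨iL, m, v2, z2, d', d2, i1z, D, wh, vm, Dm, X, R, lp, k0, vp, lv, lw, jj, mc, sm, t, ts, t2,
    hiL, hm, hv2, hz2, hd', hd2, hi, hD, hwh, hvm, hDm, hX, hR, hlp, hk0, hvp, hlv, hlw, hjj, hmc, hsm,
    ht, hts, ht2, o1, o2, o3, o4, o5, o6⟩ := hok
  have hm' : m = 1 - z := hm.trans (sub_eq_add_neg _ _).symm
  rw [← hm'] at m0 hdm js eH
  obtain rfl : d = d' := hdm.trans hd'.symm
  have hvp' : d / (1 + z) = vp := by rw [hvp, hi, div_eq_mul_inv]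
  rw [hvp'] at js Js p0 p1
  have hD' : D = Dh z d := by rw [hD, hiL, hz2, hd2]; unfold Dh; ring
  have hw : w z = m * wh := by rw [hwh, hiL, hz2, hm']; unfold w; ring
  have w0 : 0 < wh := (mul_pos_iff_of_pos_left m0).1 (hw ▸ w_pos a3)
  have dd : d ^ 2 = vm * m := by rw [hvm, hv2, hdm]; ring
  have hwb : wb z d = m * (wh + -Dm) := by
    have := dw_eq z d
    rw [hw, dd, ← hD'] at this
    rw [hDm]; linear_combination -this
  have hX' : w z * X = d ^ 2 * Dh z d := by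
    rw [hw, dd, ← hD', hX, hDm]; field_simp
  have ph0 : 0 < ph := by linarith only [o3]
  have hRR := RB.RR_le hz hd.le h ph0 (by linarith only [o4]) hX'
  rw [← hD', ← hR] at hRR
  have b0 := wb_pos hz hd.le h
  obtain ⟨u, u0, u1, hu⟩ := exists_t hd d1 (mul_pos (mul_pos hl ph0) b0) (RB.s_le hz hd.le h o4)
  have hs : log 2 * ph * wb z d = m * sm := by rw [hwb, hsm]; ring
  rw [max_eq_left v0.le] at hlv
  rw [max_eq_left p0.le] at hlw o1
  have ev := ell_eq_ser v0.le v1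
  have ep := ell_eq_ser p0.le p1
  rw [← hlv] at ev
  rw [← hlw] at ep
  have e1 : (1 + z) * vp = d := by rw [← hvp']; field_simp
  have ej : 2 * (H z - Hb z d) = d * v * jj := by
    have evp : vp = v * m * i1z := by rw [hvp, hdm]
    rw [js, ev, ep, hjj]
    have : (1 + z) * vp ^ 2 = d * (v * m * i1z) := by rw [← evp, ← e1]; ring
    linear_combination lw * this - v * lv * hdm
  rw [ej] at hRR
  have om0 : 0 < om := by linarith only [o6]
  have t0 : 0 < t := ht ▸ mul_pos om0 v0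
  refine ⟨u, u0, u1, ?_, ?_⟩
  · rw [max_eq_left t0.le, ht2, hts] at o2
    exact hu ▸ hRR.trans (RB.first hd v0 om0 ht (by linarith only [o5]) (hd.trans_le u0) u1 hu hdm hs o2)
  rw [hu]
  refine hRR.trans ?_
  obtain ⟨l0, el, ek⟩ := RB.tau_eq hz m0 hm' hdm hlp
  rw [← hi, ← hk0, ← hv2, ← hvm] at ek
  have i0 : 0 < i1z := hi ▸ inv_pos.2 z1
  have k00 : 0 < k0 := by rw [hk0]; positivity
  have vm0 : 0 < vm := by rw [hvm, hv2]; positivity
  have et : tau z d = k0 * (1 + 1 / 2 * (k0 * vm))⁻¹ * vm := by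
    unfold tau; rw [ek]; field_simp
  have mm : m ≤ mc := by linarith only [hmc, le_max_left (m + -(1 / 64)) 0]
  have aZ := RB.aZ hz m0 hm' mm
  rw [← hi] at aZ
  rw [el] at eH
  have eb : Hb z d - log 2 * ph * wb z d = m * (1 / 2 * (2 * A z + lp + -(v2 * jj)) + -sm) := by
    rw [hs, hv2]
    linear_combination eH - 1 / 2 * ej - 1 / 2 * v * jj * hdm
  rw [Js, et, eb, A_eq_ser p0.le p1]
  exact RB.second hd v0 m0 (le_max_right _ _) (by positivity) mm hdm hvp hjj dd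
    (RB.aV v0 v1 ev hal) aZ o1

end Vale.Agent.P322.CK
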