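import Vale.Agent.P322.RegA
import Vale.Agent.P322.RegB
import Vale.Agent.P322.CertA1
import Vale.Agent.P322.CertA2
import Vale.Agent.P322.CertA3
import Vale.Agent.P322.CertA4
import Vale.Agent.P322.CertB1
import Vale.Agent.P322.CertB2

/-! Existence of a crossing point of the two cost bounds. -/

namespace Vale.Agent.P322.CK

open Real Set Eng

/-- the conclusion of the two region lemmas -/
def Star (z d : ℝ) : Prop :=
  ∃ t, d ≤ t ∧ t < 1 ∧ RR z d (d * H t / t) ≤ d * A t ∧
    RR z d (d * H t / t) ≤ J (z + d) (z - d) + tau z d * (Hb z d - d * H t / t)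

theorem starB1 {z d : ℝ} (hz : 0 ≤ z) (hd : 0 < d) (h : z + d < 1)
    (c : ∃ a b c a' b' c', ∀ i < 6, 0 ≤ nthR (runR (mkB1 a b c a' b' c') [d / (1 - z), z]) i) :
    Star z d := by
  obtain ⟨ph, om, hok⟩ := okB1 c
  have hm : 0 < 1 - z := by linarith
  have h0 : 0 ≤ d / (1 - z) := div_nonneg hd.le hm.le
  have h1 : d / (1 - z) < 1 := by rw [div_lt_one hm]; linarith
  refine regB_core hz hd h ?_ hok
  rw [A_eq_ser h0 h1, max_eq_left h0, mul_comm]

theorem starB2 {z d : ℝ} (hz : 0 ≤ z) (hd : 0 < d) (h : z + d < 1)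
    (c : ∃ a b c a' b' c', ∀ i < 6, 0 ≤ nthR (runR (mkB2 a b c a' b' c') [d / (1 - z), z]) i) :
    Star z d := by
  obtain ⟨vc, ph, om, hvc, hok⟩ := okB2 c
  have hm : 0 < 1 - z := by linarith
  have h0 : 0 < d / (1 - z) := div_pos hd hm
  have h1 : d / (1 - z) < 1 := by rw [div_lt_one hm]; linarith
  refine regB_core hz hd h ?_ hok
  generalize d / (1 - z) = v at h0 h1 hvc
  have h2 : vc ≤ v := by linarith [le_max_left (63 / 64 + -v) 0]
  have h3 : 0 ≤ vc := by
    rcases le_total (63 / 64 + -v) 0 with h | h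
    · rw [max_eq_right h] at hvc; linarith
    · rw [max_eq_left h] at hvc; linarith
  have h4 := A_mono (x := vc) (by linarith) h2 h1
  refine le_trans (le_of_eq ?_) h4
  rw [log_mul (by linarith) (inv_ne_zero (by linarith)), log_inv, A, ← sub_eq_add_neg 1 vc]
  field_simp
  ring

theorem starA1 {z d : ℝ} (hz : 0 ≤ z) (hd : 1 / 4 ≤ d) (h : z + d < 1)
    (c : ∃ a b c a' b' c', ∀ i < 4, 0 ≤ nthR (runR (mkA1 a b c a' b' c') [z / (1 - d), 1 - d]) i) :
    Star z d := by
  obtain ⟨kp, hok⟩ := okA1 c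
  have hm : 0 < 1 - d := by linarith
  have h0 : 0 ≤ z / (1 - d) := div_nonneg hz hm.le
  have h1 : z / (1 - d) < 1 := by rw [div_lt_one hm]; linarith
  refine regA_core hz hd h ?_ hok
  rw [log_eq_ser (sq_nonneg _) (by nlinarith), mul_comm]

theorem starA2 {z d : ℝ} (hz : 0 ≤ z) (hd : 1 / 4 ≤ d) (h : z + d < 1) (hu : 3 / 4 ≤ z / (1 - d))
    (c : ∃ a b c a' b' c', ∀ i < 4, 0 ≤ nthR (runR (mkA2 a b c a' b' c') [z / (1 - d), 1 - d]) i) :
    Star z d := by
  obtain ⟨kp, hok⟩ := okA2 c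
  have hm : 0 < 1 - d := by linarith
  have h1 : z / (1 - d) < 1 := by rw [div_lt_one hm]; linarith
  refine regA_core hz hd h ?_ hok
  generalize z / (1 - d) = u at h1 hu
  have h2 : 0 < u ^ 2 := by positivity
  rw [mul_assoc, inv_mul_cancel₀ h2.ne', mul_one, neg_le_neg_iff]
  refine log_le_log (by nlinarith) ?_
  linarith [le_max_left (1 + -u ^ 2 + -(1 / 64)) 0]

theorem starA {z d : ℝ} (hz : 0 ≤ z) (h : z + d < 1) (hd : 5 / 8 ≤ d) : Star z d := by
  have hm : 0 < 1 - d := by linarith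
  have h0 : 0 ≤ z / (1 - d) := div_nonneg hz hm.le
  have h1 : z / (1 - d) ≤ 1 := by rw [div_le_one hm]; linarith
  rcases le_total (z / (1 - d)) (3 / 4) with hu | hu
  · exact starA1 hz (by linarith) h (certA10 hm.le (by linarith) h0 hu)
  rcases le_total (1 - d) (3 / 16) with he | he
  · exact starA2 hz (by linarith) h hu (certA30 hm.le he hu h1)
  · exact starA2 hz (by linarith) h hu (certA40 he (by linarith) hu h1)

theorem star {z d : ℝ} (hz : 0 ≤ z) (hd : 0 < d) (h : z + d < 1) : Star z d := by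
  have hm : 0 < 1 - z := by linarith
  have h0 : 0 ≤ d / (1 - z) := div_nonneg hd.le hm.le
  have h1 : d / (1 - z) ≤ 1 := by rw [div_le_one hm]; linarith
  rcases le_total (d / (1 - z)) (1 / 2) with hv | hv
  · exact starB1 hz hd h (certB10 hz (by linarith) h0 hv)
  rcases le_total (5 / 8) d with hd1 | hd1
  · exact starA hz h hd1
  rcases le_total z (1 / 4) with hz1 | hz1
  · rw [le_div_iff₀ hm] at hv
    have he : 0 < 1 - d := by linarith
    have hu0 : 0 ≤ z / (1 - d) := div_nonneg hz he.le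
    rcases le_total (1 - d) (1 / 2) with he1 | he1
    · refine starA1 hz (by linarith) h (certA20 (by linarith) he1 hu0 ?_)
      rw [div_le_iff₀ he]; linarith
    · refine starA1 hz (by linarith) h (certA21 he1 (by linarith) hu0 ?_)
      rw [div_le_iff₀ he]; linarith
  rcases le_total (d / (1 - z)) (3 / 4) with hv1 | hv1
  · exact starB1 hz hd h (certB11 hz1 (by linarith) hv hv1)
  rcases le_total z (11 / 32) with hz2 | hz2
  · refine starB2 hz hd h (certB20 hz1 hz2 hv1 ?_)
    rw [div_le_iff₀ hm]; linarith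
  · exact starB2 hz hd h (certB21 hz2 (by linarith) hv1 h1)

theorem exists_star {z d : ℝ} (hz : 0 ≤ z) (hd : 0 < d) (h : z + d < 1) :
    ∃ t, d ≤ t ∧ t < 1 ∧ RR z d (d * H t / t) ≤ d * A t ∧
      RR z d (d * H t / t) ≤ J (z + d) (z - d) + tau z d * (Hb z d - d * H t / t) :=
  star hz hd h

end Vale.Agent.P322.CK
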