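import Vale.Agent.P322.KapB
import Vale.Agent.P322.NumA

/-! From the numerical check to the crossing point, region A. -/

namespace Vale.Agent.P322.CK

open Real Set Eng

namespace RA

theorem nlog_two {x : ℝ} (h0 : 0 ≤ x) (h1 : x < 1) :
    -log (1 - x) = x + x ^ 2 * serF 1 2 0 1 x := by
  have h := serF_shift (a := 1) (b := 1) (c := 0) (d := 1) (by norm_num) h0 h1
  rw [log_eq_ser h0 h1, h]
  norm_num
  ring

theorem log_le_two {x : ℝ} (h0 : 0 ≤ x) (h1 : x < 1) : log (1 - x) ≤ -x - x ^ 2 / 2 := by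
  have h := serF_shift (a := 1) (b := 2) (c := 0) (d := 1) (by norm_num) h0 h1
  have h2 := nlog_two h0 h1
  have h3 := mul_nonneg h0 (serF_nonneg 1 (1 + 2) 0 (0 + 1) x)
  have h4 : 1 / 2 ≤ serF 1 2 0 1 x := by
    rw [h]; norm_num at h3 ⊢; linarith
  nlinarith [mul_le_mul_of_nonneg_left h4 (sq_nonneg x)]

variable {e x : ℝ}

theorem log_ep (he0 : 0 < e) (hx1 : x < 1) :
    log (1 - (1 - e * (1 - x))) = log e + log (1 - x) := by
  rw [← log_mul he0.ne' (by linarith)]
  congr 1; ring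

theorem breg (he0 : 0 < e) (he1 : e < 1) (hx0 : 0 ≤ x) (hx1 : x < 1) :
    2 * (ell (1 - e) - ell (1 - e * (1 - x)) + e * x * A (1 - e * (1 - x))) ≤
      e * x ^ 2 * (e * (2 - e * (1 - x))⁻¹ * (1 - 1 / 2 * ((2 - e) * (2 - e * (1 - x))⁻¹))
        + serF 1 2 0 1 x) := by
  have hex : 0 ≤ e * x := mul_nonneg he0.le hx0
  have hex1 : e * x ≤ e := by nlinarith
  have hp : 0 < 2 - e * (1 - x) := by nlinarith
  obtain ⟨i, hi⟩ : ∃ i, i = (2 - e * (1 - x))⁻¹ := ⟨_, rfl⟩
  have hi1 : (2 - e * (1 - x)) * i = 1 := by rw [hi]; exact mul_inv_cancel₀ hp.ne'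
  have hi0 : 0 < i := by rw [hi]; exact inv_pos.2 hp
  have hη0 : 0 ≤ e * x * i := mul_nonneg hex hi0.le
  have hη : (2 - e) * i = 1 - e * x * i := by linarith
  have hη1 : e * x * i < 1 := by
    have : 0 < (2 - e) * i := mul_pos (by linarith) hi0
    linarith
  have l1 : log (1 + (1 - e)) = log (1 + (1 - e * (1 - x))) + log (1 - e * x * i) := by
    rw [← log_mul (by linarith) (by linarith)]
    congr 1
    have : 1 + (1 - e * (1 - x)) = 2 - e * (1 - x) := by ring
    rw [this, ← hη]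
    linear_combination (-(2 - e)) * hi1
  have l2 := log_ep he0 hx1
  have l3 : log (1 - (1 - e)) = log e := by congr 1; ring
  have l4 := nlog_two hx0 hx1
  have l5 := log_le_two hη0 hη1
  rw [← hi]
  simp only [ell, A]
  rw [l1, l2, l3]
  have l6 := mul_le_mul_of_nonneg_left l5 (show (0 : ℝ) ≤ 2 - e by linarith)
  have l7 : log (1 - x) = -(x + x ^ 2 * serF 1 2 0 1 x) := by linarith
  rw [l7]
  have l8 : (2 - e) * (e * x * i) = e * x - e * x * (e * x * i) := by
    linear_combination (e * x) * hη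
  nlinarith [l6, l8]

theorem adiff (he0 : 0 < e) (he1 : e < 1) (hx0 : 0 ≤ x) (hx1 : x < 1) :
    A (1 - e * (1 - x)) - A (1 - e) ≤ 1 / 2 * (x * (e * (2 - e)⁻¹ + 1 + x * serF 1 2 0 1 x)) := by
  have hex : 0 ≤ e * x := mul_nonneg he0.le hx0
  have hp : 0 < 2 - e := by linarith
  have l2 := log_ep he0 hx1
  have l3 : log (1 - (1 - e)) = log e := by congr 1; ring
  have l4 := nlog_two hx0 hx1
  have l1 : log (1 + (1 - e * (1 - x))) - log (1 + (1 - e)) ≤ x * (e * (2 - e)⁻¹) := by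
    rw [← log_div (by nlinarith) (by linarith)]
    refine (log_le_sub_one_of_pos (div_pos (by nlinarith) (by linarith))).trans (le_of_eq ?_)
    have : 1 + (1 - e) = 2 - e := by ring
    rw [this]
    field_simp
    ring
  simp only [A]
  rw [l2, l3]
  nlinarith

theorem jlow {u la : ℝ} (he0 : 0 < e) (he1 : e < 1) (hu0 : 0 ≤ u) (hu1 : u < 1)
    (hla : la * u ^ 2 ≤ -log (1 - u ^ 2)) :
    (1 - e) * A (1 - e) + (1 - e) * (1 / 4 * (la * u ^ 2) -
      1 / 4 * ((u * (e * (2 - e)⁻¹)) ^ 2 * (1 - (u * (e * (2 - e)⁻¹)) ^ 2)⁻¹)) ≤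
      J (u * e + (1 - e)) (u * e - (1 - e)) := by
  have hp : 0 < 2 - e := by linarith
  obtain ⟨p, hp'⟩ : ∃ p, p = u * (e * (2 - e)⁻¹) := ⟨_, rfl⟩
  have hpe : (2 - e) * p = u * e := by rw [hp']; field_simp
  have hp0 : 0 ≤ p := by rw [hp']; positivity
  have hp1 : p < 1 := by
    by_contra hc
    push Not at hc
    nlinarith
  rw [← hp']
  have l1 : log (1 + (u * e + (1 - e))) = log (1 + (1 - e)) + log (1 + p) := by
    rw [← log_mul (by linarith) (by linarith)]; congr 1; linarith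
  have l2 : log (1 - (u * e - (1 - e))) = log (1 + (1 - e)) + log (1 - p) := by
    rw [← log_mul (by linarith) (by linarith)]; congr 1; linarith
  have l3 : log (1 - (u * e + (1 - e))) = log (1 - (1 - e)) + log (1 - u) := by
    rw [← log_mul (by linarith) (by linarith)]; congr 1; ring
  have l4 : log (1 + (u * e - (1 - e))) = log (1 - (1 - e)) + log (1 + u) := by
    rw [← log_mul (by linarith) (by linarith)]; congr 1; ring
  have l5 : log (1 - u ^ 2) = log (1 + u) + log (1 - u) := by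
    rw [← log_mul (by linarith) (by linarith)]; congr 1; ring
  have hq : 0 < 1 - p ^ 2 := by nlinarith
  have l6 : log (1 - p ^ 2) = log (1 + p) + log (1 - p) := by
    rw [← log_mul (by linarith) (by linarith)]; congr 1; ring
  have l7 : -(p ^ 2 * (1 - p ^ 2)⁻¹) ≤ log (1 - p ^ 2) := by
    refine le_trans (le_of_eq ?_) (one_sub_inv_le_log_of_pos hq)
    field_simp
    ring
  have l8 : 0 ≤ (1 - e) * ((log (1 - p ^ 2) + p ^ 2 * (1 - p ^ 2)⁻¹) +
      (-log (1 - u ^ 2) - la * u ^ 2)) := mul_nonneg (by linarith) (by linarith)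
  simp only [J, A]
  rw [l1, l2, l3, l4]
  rw [l5, l6] at l8
  nlinarith [l8]

theorem hb_eq {u : ℝ} (he0 : 0 < e) (he1 : e < 1) (hu0 : 0 ≤ u) (hu1 : u < 1) :
    Hb (u * e) (1 - e) = H (1 - e) - e * u ^ 2 * (serF 2 1 2 2 (max u 0 ^ 2) +
      e * (2 - e)⁻¹ * serF 2 1 2 2 (max (u * (e * (2 - e)⁻¹)) 0 ^ 2)) / 2 := by
  have hp : 0 < 2 - e := by linarith
  have hue : 0 ≤ u * e := mul_nonneg hu0 he0.le
  have hue1 : u * e < e := by nlinarith
  have h := j_split (z := 1 - e) (d := u * e) (by rw [abs_lt]; constructor <;> linarith)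
    (by rw [abs_lt]; constructor <;> linarith)
  have e1 : Hb (u * e) (1 - e) = Hb (1 - e) (u * e) := by
    simp only [Hb]
    rw [show u * e - (1 - e) = -(1 - e - u * e) by ring, H_neg, add_comm (u * e)]
  have e2 : u * e / (1 + (1 - e)) = u * (e * (2 - e)⁻¹) := by
    rw [show 1 + (1 - e) = 2 - e by ring]; field_simp
  have e3 : u * e / (1 - (1 - e)) = u := by
    rw [show 1 - (1 - e) = e by ring]; field_simp
  have hp0 : 0 ≤ u * (e * (2 - e)⁻¹) := by positivity
  have hp1 : u * (e * (2 - e)⁻¹) < 1 := by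
    rw [← e2, div_lt_one (by linarith)]; linarith
  rw [e2, e3, ell_eq_ser hp0 hp1, ell_eq_ser hu0 hu1] at h
  rw [e1, max_eq_left hu0, max_eq_left hp0]
  have e4 : (1 + (1 - e)) / 2 * (u * (e * (2 - e)⁻¹)) ^ 2 = e * u ^ 2 * (e * (2 - e)⁻¹) / 2 := by
    field_simp; ring
  linear_combination (-1 : ℝ) * h - serF 2 1 2 2 ((u * (e * (2 - e)⁻¹)) ^ 2) * e4

theorem A_ep {p : ℝ} (h0 : 0 < p) (h1 : p < 1) :
    A (1 - p) * (2 * (-log (p * (2 - p)⁻¹))⁻¹) = 1 := by
  have hA : A (1 - p) = -log (p * (2 - p)⁻¹) / 2 := by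
    rw [log_mul h0.ne' (inv_ne_zero (by linarith)), log_inv]
    simp only [A]
    rw [show 1 + (1 - p) = 2 - p by ring, show 1 - (1 - p) = p by ring]
    ring
  have hpos := A_pos (r := 1 - p) (by linarith) (by linarith)
  have hne : -log (p * (2 - p)⁻¹) ≠ 0 := by
    intro hc; rw [hA, hc] at hpos; simp at hpos
  rw [hA]
  generalize -log (p * (2 - p)⁻¹) = q at hne
  field_simp

theorem H_ep {p : ℝ} (h0 : 0 < p) (h1 : p < 1) :
    H (1 - p) = p * A (1 - p) + p * (1 / 2 * serF 1 1 0 1 (1 / 2 * p)) := by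
  rw [H_eq (by rw [abs_lt]; constructor <;> linarith)]
  have h := log_eq_ser (x := 1 / 2 * p) (by linarith) (by linarith)
  have e1 : log (2 / (1 + (1 - p))) = -log (1 - 1 / 2 * p) := by
    rw [← log_inv]; congr 1
    rw [show 1 + (1 - p) = 2 - p by ring, show 1 - 1 / 2 * p = (2 - p) / 2 by ring, inv_div]
  rw [e1, h]; ring

theorem aux {u la kp : ℝ} (he0 : 0 < e) (he1 : e ≤ 3 / 4) (hu0 : 0 ≤ u) (hu1 : u < 1)
    (hla : la * u ^ 2 ≤ -log (1 - u ^ 2)) (hok : OkA e u la kp) :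
    ∃ t, 1 - e ≤ t ∧ t < 1 ∧ RR (u * e) (1 - e) ((1 - e) * H t / t) ≤ (1 - e) * A t ∧
      RR (u * e) (1 - e) ((1 - e) * H t / t) ≤ J (u * e + (1 - e)) (u * e - (1 - e)) +
        tau (u * e) (1 - e) * (Hb (u * e) (1 - e) - (1 - e) * H t / t) := by
  obtain ⟨iL, u2, z, z2, x2, ox, ep, it, i1t, i1d, b, y, La, yb, tq, W1, dd, up, jj, l2, DD, ki,
    lam, dW, wm, xx, yy, xs, ys, wn, m1, kt, E3, hiL, hu2, hz, hz2, hx2, hox, hep, hit, hi1t, hi1d,
    hb, hy, hLa, hyb, htq, hW1, hdd, hup, hjj, hl2, hDD, hki, hlam, hdW, hwm, hxx, hyy, hxs, hys,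
    hwn, hm1, hkt, hE3, o1, o2, o3, o4⟩ := hok
  have hL0 : 0.6931471803 < log 2 := log_two_gt_d9
  have hL1 : log 2 < 0.6931471808 := log_two_lt_d9
  have he1' : e < 1 := by linarith only [he1]
  have hu20 : 0 ≤ u2 := by rw [hu2]; positivity
  have hu21 : u2 < 1 := by rw [hu2]; nlinarith only [hu0, hu1]
  have hx0 : 0 ≤ x2 := by rw [hx2]; positivity
  have hx1 : x2 < 1 := by rw [hx2]; nlinarith only [hu20, hu21, o3, o4]
  have hep' : ep = e * (1 - x2) := by rw [hep, hox]; ring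
  have hex : 0 ≤ e * x2 := mul_nonneg he0.le hx0
  have hep0 : 0 < ep := by rw [hep']; exact mul_pos he0 (by linarith only [hx1])
  have hepe : ep ≤ e := by rw [hep']; linarith only [hex]
  have hz0 : 0 ≤ z := by rw [hz]; positivity
  have hze : z < e := by rw [hz]; nlinarith only [he0, hu1]
  have hzd : z + (1 - e) < 1 := by linarith only [hze]
  have hep1 : ep < 1 := by linarith only [hepe, he1]
  obtain ⟨t, ht⟩ : ∃ t, t = 1 - ep := ⟨_, rfl⟩
  have ht0 : 0 < t := by linarith only [ht, hep1]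
  have ht1 : t < 1 := by linarith only [ht, hep0]
  have htabs : |t| < 1 := by rw [abs_lt]; constructor <;> linarith only [ht0, ht1]
  have htd : t - (1 - e) = e * x2 := by rw [ht, hep']; ring
  have hit1 : t * it = 1 := by
    rw [hit, ht, ← sub_eq_add_neg]; exact mul_inv_cancel₀ (by linarith only [hep1])
  have hit0 : 0 < it := by
    rw [hit]; exact inv_pos.2 (by linarith only [hep1])
  have hi1t' : i1t = (2 - ep)⁻¹ := by rw [hi1t, ← sub_eq_add_neg]
  have hi1t1 : (1 + t) * i1t = 1 := by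
    rw [hi1t', show 1 + t = 2 - ep by linarith only [ht]]
    exact mul_inv_cancel₀ (by linarith only [hep1])
  have hi1d' : i1d = (2 - e)⁻¹ := by rw [hi1d, ← sub_eq_add_neg]
  have hA0 : 0 < A t := A_pos ht0 ht1
  have hAb : A t * b = 1 := by rw [ht, hb, hi1t']; exact A_ep hep0 hep1
  have hb0 : 0 < b := by
    by_contra hc
    push Not at hc
    nlinarith only [hc, hAb, hA0]
  have hy0 : 0 ≤ y := by rw [hy]; exact mul_nonneg (by norm_num) (serF_nonneg _ _ _ _ _)
  have hH : H t = ep * A t + ep * y := by rw [ht, hy]; exact H_ep hep0 hep1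
  have hH0 : 0 < H t := H_pos htabs
  have hHyb : H t = ep * A t * yb := by
    rw [hH, hyb]; linear_combination (-(ep * y)) * hAb
  have hyb0 : 0 < yb := by rw [hyb]; positivity
  have hLam : Lam t = A t + ep * y := by rw [Lam_eq htabs, hH, ht]; ring
  have hLam' : Lam t = H t + t * A t := Lam_eq htabs
  have hLaL : La ≤ Lam t := by
    rw [hLam, hLa]
    have h1 : b ≤ 1 / 10 + max (b + -(1 / 10)) 0 := by
      linarith only [le_max_left (b + -(1 / 10)) 0]
    have h2 : (1 / 10 + max (b + -(1 / 10)) 0)⁻¹ ≤ b⁻¹ := inv_anti₀ hb0 h1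
    have h3 : b⁻¹ = A t := (eq_inv_of_mul_eq_one_left hAb).symm
    linarith only [h2, h3]
  have hmu : mu t * H t = H t + tq := by
    rw [mu_eq ht0, htq]
    have h1 : 1 - t ^ 2 = ep * (1 + t) := by rw [ht]; ring
    have h2 : 1 + -i1t = t * i1t := by linarith only [hi1t1]
    have h3 : i1t = (1 + t)⁻¹ := eq_inv_of_mul_eq_one_right hi1t1
    rw [h1, h2, h3, hHyb]
    field_simp
  have hbeta : beta t = Lam t + tq := by
    rw [beta, hmu, hLam']; ring
  have hP0 : 0 ≤ e * u2 := mul_nonneg he0.le hu20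
  have hki0 : 0 ≤ ki := by rw [hki]; positivity
  have hPki : e * u2 * ki * t = e * x2 := by
    rw [hki, hx2]; linear_combination (e * u2 * kp) * hit1
  have hlamt : lam * t = 1 - e := by rw [hlam]; linarith only [hPki, htd]
  have hlam0 : 0 < lam := by
    by_contra hc
    push Not at hc
    nlinarith only [hc, hlamt, ht0, he1']
  have hs : (1 - e) * H t / t = lam * H t := by
    rw [← hlamt]; field_simp
  have hiL' : iL = 1 / (2 * log 2) := by rw [hiL]; field_simp
  have hiL0 : 0 < iL := by rw [hiL']; positivity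
  have hiL1 : iL < 1 := by rw [hiL', div_lt_one (by positivity)]; linarith only [hL0]
  have hz20 : 0 ≤ z2 := by rw [hz2]; positivity
  have hz21 : z2 ≤ 1 := by rw [hz2]; nlinarith only [hz0, hze, he1']
  have hW0 : 0 ≤ W1 := by
    rw [hW1]
    have := mul_nonneg hz20 (show 0 ≤ 6 / 5 + -iL + -(1 / 5 * z2) by linarith only [hiL1, hz21])
    linarith only [this, hiL0]
  have hdW0 : 0 ≤ dW := by rw [hdW]; positivity
  have hwz : w z = wm := by rw [hwm, hW1, hz2, hiL', w]; ring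
  have hzW : z2 * W1 = e * u2 * dW := by rw [hz2, hz, hdW, hu2]; ring
  have hwm0 : 0 < wm := by rw [← hwz]; exact w_pos (by rw [abs_lt]; constructor <;> linarith only [hz0, hze, he1'])
  have hwb : wb z (1 - e) = e * wn := by
    rw [hwn, hxs, hys, hxx, hyy, hiL', hz]; simp only [wb, w]; ring
  have hwb0 : 0 < wb z (1 - e) := wb_pos hz0 (by linarith only [he1']) hzd
  have hwn0 : 0 < wn := by
    rw [hwb] at hwb0; exact (mul_pos_iff_of_pos_left he0).1 hwb0
  have hox0 : 0 < ox := by rw [hox]; linarith only [hx1]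
  have hm : m1 = max (log 2 * wb z (1 - e) / (lam * H t) - 1) 0 := by
    rw [hm1, hwb, hHyb, hep, sub_eq_add_neg]
    congr 2
    have h3 : A t = b⁻¹ := eq_inv_of_mul_eq_one_left hAb
    rw [h3]
    field_simp
  have hm0 : 0 ≤ m1 := by rw [hm]; exact le_max_right _ _
  have qU := Q_upper hwm0 hlam0 ht0.le ht1
  have qL := Q_lower hwb0 (mul_pos hlam0 hH0) hm
  have hmin : min lam wm = lam + -max (lam + -wm) 0 := by
    rcases le_total lam wm with h | h
    · rw [min_eq_left h, max_eq_right (by linarith only [h])]; ring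
    · rw [min_eq_right h, max_eq_left (by linarith only [h])]; ring
  have hxi : 129 / 200 * ((wm - lam) ^ 2 / (2 * min lam wm)) =
      e * u2 * (129 / 400 * (e * u2 * (ki + -dW) ^ 2 * (lam + -max (lam + -wm) 0)⁻¹)) := by
    rw [← hmin]
    have h1 : wm - lam = e * u2 * (ki + -dW) := by rw [hwm, hzW, hlam]; ring
    have h2 : 0 < min lam wm := lt_min hlam0 hwm0
    rw [h1]
    field_simp
    ring
  have hG : e * u2 * (49 / 100 * (wn * m1 ^ 2 *
      ((1 + m1) * (2 + m1) * (1 / 4 + max (u2 + -(1 / 4)) 0))⁻¹)) ≤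
      49 / 100 * (wb z (1 - e) * m1 ^ 2 / ((1 + m1) * (2 + m1))) := by
    have h1 : u2 ≤ 1 / 4 + max (u2 + -(1 / 4)) 0 := by
      linarith only [le_max_left (u2 + -(1 / 4)) 0]
    have h2 : 0 < 1 / 4 + max (u2 + -(1 / 4)) 0 := by
      linarith only [le_max_right (u2 + -(1 / 4)) 0]
    generalize 1 / 4 + max (u2 + -(1 / 4)) 0 = M at h1 h2
    have h3 : u2 * M⁻¹ ≤ 1 := by rw [← div_eq_mul_inv, div_le_one h2]; exact h1
    have h4 : 0 ≤ 49 / 100 * (e * wn * m1 ^ 2 / ((1 + m1) * (2 + m1))) := by positivity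
    have h5 := mul_le_mul_of_nonneg_left h3 h4
    rw [hwb]
    refine le_trans (le_of_eq ?_) (h5.trans (le_of_eq (mul_one _)))
    rw [mul_inv]
    ring
  have hell : e * u2 * (e * (1 + 1 / 6 * z2)) ≤ 2 * ell z := by
    have h1 := ell_ge4 (u := z) (by rw [abs_le]; constructor <;> linarith only [hz0, hze, he1'])
    have h2 : e * u2 * (e * (1 + 1 / 6 * z2)) = 2 * (z ^ 2 / 2 + z ^ 4 / 12) := by
      rw [hz2, hu2, hz]; ring
    linarith only [h1, h2]
  have hbr : 2 * (ell (1 - e) - ell t + e * x2 * A t) ≤ e * u2 * DD := by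
    have h1 := breg he0 he1' hx0 hx1
    rw [← hep', ← ht, ← hi1t', ← hl2] at h1
    refine h1.trans (le_of_eq ?_)
    rw [hDD, hx2]; ring
  have hHb : Hb z (1 - e) = H (1 - e) - e * u2 * jj / 2 := by
    rw [hz, hb_eq he0 he1' hu0 hu1, hjj, hup, hdd, hi1d', hu2]
  have hHd : H (1 - e) = log 2 - ell (1 - e) := rfl
  have hHt : H t = log 2 - ell t := rfl
  have hHz : H z = log 2 - ell z := rfl
  have b1 := mul_le_mul_of_nonneg_left hLaL (mul_nonneg hP0 hki0)
  have b2 := mul_le_mul_of_nonneg_left hLaL (mul_nonneg hP0 hdW0)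
  have b3 : e * u2 * ki * Lam t = e * u2 * ki * H t + e * x2 * A t := by
    rw [hLam']; linear_combination (A t) * hPki
  have b4 : wm * beta t = Lam t + tq - e * u2 * dW * Lam t - e * u2 * dW * tq := by
    rw [hbeta, hwm, hzW]; ring
  have b5 : mu t * (lam * H t) = H t + tq - e * u2 * ki * H t - e * u2 * ki * tq := by
    rw [show mu t * (lam * H t) = lam * (mu t * H t) by ring, hmu, hlam]; ring
  have b6 : lam * H t = H t - e * u2 * ki * H t := by rw [hlam]; ring
  have b7 : log 2 * wm = log 2 - e * u2 * dW * log 2 := by rw [hwm, hzW]; ring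
  have b8 : (1 - e) * A t = t * A t - e * x2 * A t := by rw [← htd]; ring
  have k3 : e * u2 * E3 ≤ (1 - e) * A t - RR z (1 - e) (lam * H t) := by
    rw [RR, hwz, hE3]
    linarith only [qU, qL, hxi, hG, hell, hbr, hHb, hHd, hHt, hHz, b1, b2, b3, b4, b5, b6, b7, b8, hLam']
  have p3 := mul_nonneg hP0 o2
  refine ⟨t, by linarith only [htd, hex], ht1, ?_, ?_⟩
  · rw [hs, ← hz]; linarith only [k3, p3]
  · rw [hs]
    have j1 := jlow he0 he1' hu0 hu1 hla
    rw [← hi1d', ← hdd, ← hup, ← hu2] at j1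
    rw [← hz] at j1 ⊢
    have a1 := adiff he0 he1' hx0 hx1
    rw [← hep', ← ht, ← hi1d', ← hdd, ← hl2] at a1
    have a2 := mul_le_mul_of_nonneg_left a1 (show 0 ≤ 1 - e by linarith only [he1'])
    have hlg : -log (1 / 2 * (1 + z)) = log (2 / (1 + z)) := by
      rw [← log_inv]; congr 1; field_simp
    have hlg0 : 0 < log (2 / (1 + z)) := log_pos (by
      rw [lt_div_iff₀ (by linarith only [hz0])]; linarith only [hze, he1'])
    have hkT : kT z (1 - e) = kt := by
      rw [hkt, hlg, kT]; field_simp; ring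
    have hkt0 : 0 ≤ kt := by rw [← hkT, kT]; positivity
    have htau : tau z (1 - e) = 2 + -(4 * (2 + kt)⁻¹) := by
      rw [tau, hkT]; field_simp; ring
    have htau0 : 0 ≤ tau z (1 - e) := by rw [tau, hkT]; positivity
    have c1 : e * u2 * (ki * La + -(1 / 2 * (jj + DD))) ≤ Hb z (1 - e) - lam * H t := by
      have b9 := mul_le_mul_of_nonneg_left hLaL (mul_nonneg hP0 hki0)
      linarith only [b9, b3, b6, hbr, hHb, hHd, hHt]
    have c2 := mul_le_mul_of_nonneg_left c1 htau0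
    have c3 := mul_nonneg hu20 o1
    rw [← htau] at c3
    have c4 : up ^ 2 = u2 * dd ^ 2 := by rw [hup, hu2]; ring
    have c5 : u2 * ((1 + -e) * (1 / 4 * la + -(1 / 4 * (dd ^ 2 * (1 + -up ^ 2)⁻¹)) +
        -(1 / 2 * (kp * (dd + 1 + x2 * l2)))) +
        e * (tau z (1 - e) * (ki * La + -(1 / 2 * (jj + DD))) + E3)) =
        (1 - e) * (1 / 4 * (la * u2) - 1 / 4 * (up ^ 2 * (1 - up ^ 2)⁻¹))
        - (1 - e) * (1 / 2 * (x2 * (dd + 1 + x2 * l2)))
        + tau z (1 - e) * (e * u2 * (ki * La + -(1 / 2 * (jj + DD)))) + e * u2 * E3 := by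
      rw [← sub_eq_add_neg 1 (up ^ 2)]
      generalize (1 - up ^ 2)⁻¹ = q
      rw [c4]
      linear_combination (1 - e) * (1 / 2) * (dd + 1 + x2 * l2) * hx2
    linarith only [c2, c3, c5, j1, a2, k3]

end RA

theorem regA_core {z d la kp : ℝ} (hz : 0 ≤ z) (hd : 1 / 4 ≤ d) (h : z + d < 1)
    (hla : la * (z / (1 - d)) ^ 2 ≤ -log (1 - (z / (1 - d)) ^ 2))
    (hok : OkA (1 - d) (z / (1 - d)) la kp) :
    ∃ t, d ≤ t ∧ t < 1 ∧ RR z d (d * H t / t) ≤ d * A t ∧
      RR z d (d * H t / t) ≤ J (z + d) (z - d) + tau z d * (Hb z d - d * H t / t) := by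
  have he : 0 < 1 - d := by linarith
  have := RA.aux he (by linarith) (div_nonneg hz he.le) (by rw [div_lt_one he]; linarith) hla hok
  rwa [div_mul_cancel₀ z he.ne', show 1 - (1 - d) = d by ring] at this

end Vale.Agent.P322.CK
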