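import Vale.Agent.P322.CostT
import Vale.Agent.P322.CostP
import Vale.Agent.P322.E1
import Vale.Agent.P322.E4
import Vale.Agent.P322.Reg

/-! The induction step. -/

namespace Vale.Agent.P322.CK

open Real Set

theorem step {z d s C : ℝ} (hz : 0 ≤ z) (hd : 0 < d) (h : z + d < 1) (hs : 0 < s)
    (hs' : s ≤ Hb z d) (hT : J (z + d) (z - d) + tau z d * (Hb z d - s) ≤ C)
    (hP : ∀ t, 0 < t → t < 1 → gam t * d - nu t * s ≤ C) : RR z d s ≤ C := by
  obtain ⟨t0, a1, a2, a3, a4⟩ := exists_star hz hd h
  have t0p := hd.trans_le a1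
  have Hp : 0 < H t0 := H_pos (by rwa [abs_of_pos t0p])
  have s0 : 0 < d * H t0 / t0 := by positivity
  have wbp := wb_pos hz hd.le h
  have wbl := wb_le hz hd.le h.le
  rcases le_or_gt (d * H t0 / t0) s with c | c
  · have hD : ∀ σ, 0 < σ → HasDerivAt
        (fun σ => J (z + d) (z - d) + tau z d * (Hb z d - σ) - RR z d σ)
        (tau z d * (-1) - (-kap (w z / σ) - -kap (wb z d / σ))) σ := fun σ hσ =>
      ((((hasDerivAt_id σ).const_sub _).const_mul _).const_add _).sub
        ((((hasDerivAt_Q_s (wbp.trans_le wbl) hσ).sub (hasDerivAt_Q_s wbp hσ)).add_const _).sub_const _)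
    have cc : ConcaveOn ℝ (Ioi 0)
        (fun σ => J (z + d) (z - d) + tau z d * (Hb z d - σ) - RR z d σ) := by
      refine AntitoneOn.concaveOn_of_deriv (convex_Ioi 0)
        (fun x hx => (hD x hx).continuousAt.continuousWithinAt)
        (fun x hx => (hD x (interior_subset hx)).differentiableAt.differentiableWithinAt) ?_
      rw [interior_Ioi]
      intro x hx y hy hxy
      rw [(hD x hx).deriv, (hD y hy).deriv]
      have := kap_diff_anti wbp wbl hx hxy
      linarith
    have e := cc.min_le_of_mem_Icc s0 (hs.trans_le hs') ⟨c, hs'⟩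
    have e1 := E1 hz hd h
    have e2 := (le_min (sub_nonneg.2 a4) (by simpa using e1)).trans e
    linarith
  · have d1 : d < 1 := by linarith
    obtain ⟨t, b1, b2, b3⟩ := exists_t hd d1 hs (hs'.trans (Hb_le hz hd.le h))
    have tp := hd.trans_le b1
    have tt : t0 ≤ t := by
      by_contra hc
      have c1 := H_strictAnti.antitoneOn ⟨tp.le, b2.le⟩ ⟨t0p.le, a2.le⟩ (not_le.1 hc).le
      have c2 : d * H t0 / t0 ≤ d * H t / t := by
        have := (not_le.1 hc).le
        gcongr
        exact mul_nonneg hd.le (Hp.le.trans c1)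
      linarith
    have e : d * A t0 - RR z d (d * H t0 / t0) ≤ d * A t - RR z d (d * H t / t) :=
      E4 hz hd h ⟨a1, a2⟩ ⟨b1, b2⟩ tt
    have e2 := hP t tp b2
    have e3 : gam t * d - nu t * (d * H t / t) = d * A t := by unfold gam; ring
    rw [b3] at e e3
    linarith

/-- average over a finite type -/
noncomputable def av {Ω : Type} [Fintype Ω] (u : Ω → ℝ) : ℝ := (∑ x, u x) / Fintype.card Ω

namespace St

variable {Ω : Type} [Fintype Ω]

theorem av_add (u v : Ω → ℝ) : av (fun o => u o + v o) = av u + av v := by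
  simp only [av, Finset.sum_add_distrib, add_div]

theorem av_sub (u v : Ω → ℝ) : av (fun o => u o - v o) = av u - av v := by
  simp only [av, Finset.sum_sub_distrib, sub_div]

theorem av_neg (u : Ω → ℝ) : av (fun o => -u o) = -av u := by
  simp only [av, Finset.sum_neg_distrib, neg_div]

theorem av_mul (c : ℝ) (u : Ω → ℝ) : av (fun o => c * u o) = c * av u := by
  simp only [av, ← Finset.mul_sum, mul_div_assoc]

theorem av_div (c : ℝ) (u : Ω → ℝ) : av (fun o => u o / c) = av u / c := by
  simp only [av, ← Finset.sum_div, div_right_comm]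

theorem av_const [Nonempty Ω] (c : ℝ) : av (fun _ : Ω => c) = c := by
  have : (Fintype.card Ω : ℝ) ≠ 0 := by exact_mod_cast Fintype.card_ne_zero
  simp only [av, Finset.sum_const, Finset.card_univ, nsmul_eq_mul]
  field_simp

theorem av_mono {u v : Ω → ℝ} (h : ∀ o, u o ≤ v o) : av u ≤ av v :=
  div_le_div_of_nonneg_right (Finset.sum_le_sum fun o _ => h o) (Nat.cast_nonneg _)

theorem av_lt [Nonempty Ω] {u v : Ω → ℝ} (h : ∀ o, u o < v o) : av u < av v :=
  div_lt_div_of_pos_right (Finset.sum_lt_sum_of_nonempty Finset.univ_nonempty fun o _ => h o)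
    (by exact_mod_cast Fintype.card_pos)

theorem abs_av_lt [Nonempty Ω] {u : Ω → ℝ} (h : ∀ o, |u o| < 1) : |av u| < 1 := by
  have h1 := av_lt (u := fun _ => -1) fun o => (abs_lt.1 (h o)).1
  have h2 := av_lt (v := fun _ => 1) fun o => (abs_lt.1 (h o)).2
  rw [av_const] at h1 h2
  exact abs_lt.2 ⟨h1, h2⟩

theorem av_H_le [Nonempty Ω] {u : Ω → ℝ} (h : ∀ o, |u o| < 1) : av (fun o => H (u o)) ≤ H (av u) := by
  have := av_mono fun o => H_tangent (abs_av_lt h) (h o).le
  rwa [av_sub, av_mul, av_sub, av_const, av_const, sub_self, mul_zero, sub_zero] at this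

theorem av_Hb_pos [Nonempty Ω] {X Y : Ω → ℝ} (hX : ∀ o, |X o| < 1) (hY : ∀ o, |Y o| < 1) :
    0 < av fun o => (H (X o) + H (Y o)) / 2 := by
  have := av_lt (u := fun _ => 0) fun o => half_pos (add_pos (H_pos (hX o)) (H_pos (hY o)))
  rwa [av_const] at this

theorem core [Nonempty Ω] (X Y : Ω → ℝ) (hX : ∀ o, |X o| < 1) (hY : ∀ o, |Y o| < 1)
    (h1 : 0 ≤ av X + av Y) (h2 : av Y ≤ av X) :
    Q (w ((av X + av Y) / 2)) (av fun o => (H (X o) + H (Y o)) / 2)
      - Q ((w (av X) + w (av Y)) / 2) (av fun o => (H (X o) + H (Y o)) / 2)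
      + 2 * (H ((av X + av Y) / 2) - (H (av X) + H (av Y)) / 2)
      - 2 * log 2 * (w ((av X + av Y) / 2) - (w (av X) + w (av Y)) / 2)
      ≤ av fun o => J (X o) (Y o) := by
  rcases h2.eq_or_lt with h | h
  · have := av_mono (u := fun _ => 0) fun o => J_nonneg (hX o) (hY o)
    rw [av_const] at this
    rw [h]
    simpa using this
  have ex : (av X + av Y) / 2 + (av X - av Y) / 2 = av X := by ring
  have ey : (av X + av Y) / 2 - (av X - av Y) / 2 = av Y := by ring
  have hz : 0 ≤ (av X + av Y) / 2 := by linarith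
  have hd : 0 < (av X - av Y) / 2 := by linarith
  have hl : (av X + av Y) / 2 + (av X - av Y) / 2 < 1 := by
    rw [ex]; exact (abs_lt.1 (abs_av_lt hX)).2
  have key := step (s := av fun o => (H (X o) + H (Y o)) / 2) (C := av fun o => J (X o) (Y o))
    hz hd hl (av_Hb_pos hX hY) (by
      rw [Hb, ex, ey, av_div, av_add]
      linarith [av_H_le hX, av_H_le hY]) (by
      obtain ⟨a, b, hab⟩ := costT hz hd hl
      have := av_mono fun o => hab (X o) (Y o) (hX o) (hY o)
      rw [av_add, av_add, av_add (fun o => J (X o) (Y o)), av_const, av_mul, av_mul, av_mul, av_sub,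
        av_sub, av_const, av_const, av_div, av_div, av_add, av_sub, sub_self, sub_self] at this
      linarith) (fun t t0 t1 => by
      have := av_mono fun o => costP t0 t1 (hX o) (hY o)
      rw [av_add, av_mul, av_mul, av_div, av_sub] at this
      linarith)
  rwa [RR, Hb, wb, ex, ey] at key

end St

theorem step2 {Ω : Type} [Fintype Ω] [Nonempty Ω] (X Y : Ω → ℝ) (hX : ∀ o, |X o| < 1)
    (hY : ∀ o, |Y o| < 1) :
    Q (w ((av X + av Y) / 2)) (av fun o => (H (X o) + H (Y o)) / 2)
      - Q ((w (av X) + w (av Y)) / 2) (av fun o => (H (X o) + H (Y o)) / 2)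
      + 2 * (H ((av X + av Y) / 2) - (H (av X) + H (av Y)) / 2)
      - 2 * log 2 * (w ((av X + av Y) / 2) - (w (av X) + w (av Y)) / 2)
      ≤ av fun o => J (X o) (Y o) := by
  wlog h1 : 0 ≤ av X + av Y generalizing X Y
  · have := this (fun o => -X o) (fun o => -Y o) (by simpa using hX) (by simpa using hY)
      (by rw [St.av_neg, St.av_neg]; linarith)
    rw [St.av_neg, St.av_neg, ← neg_add, neg_div] at this
    simpa only [H_neg, w_neg, J_neg] using this
  rcases le_total (av Y) (av X) with h2 | h2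
  · exact St.core X Y hX hY h1 h2
  · have := St.core Y X hY hX (by linarith) h2
    simpa only [add_comm (av Y), add_comm (w (av Y)), add_comm (H (av Y)), add_comm (H (Y _)),
      J_comm (Y _)] using this

end Vale.Agent.P322.CK
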